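import Vale.Agent.P073.PT.Mosaic
import Vale.Agent.P073.PR720.Cx
import Vale.Agent.P073.H773.HOne

/-!
# P073, block PT : statements

`SpecSubdiv` : star subdivision of special cells (the crossing points of the surface with the edges
of the cell complex of the domain become vertices of the mosaic, of valence `k`).
`SpecTheta` : from a mosaic with labels to the regular cell structure `Theta`.
-/

open Set Metric Topology

namespace P073.PT

variable (E : Type) [NormedAddCommGroup E] [NormedSpace ℝ E]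

/-- **(SUBDIV)** each special cell `s` is cut into `k s` sectors with a prescribed common vertex
`y s`, the sector `i` meeting the boundary of `R s` in the prescribed arc `A s i` -/
def SpecSubdiv : Prop :=
  ∀ (V : Type) (F : Set E) (R bd : V → Set E), Mosaic F R bd →
  ∀ (S : Set V), (∀ s ∈ S, ∀ t ∈ S, s ≠ t → Disjoint (R s) (R t)) →
  ∀ (y : V → E) (k : V → ℕ) (A : ∀ s, ZMod (k s) → Set E) (z : ∀ s, ZMod (k s) → E),
    (∀ s ∈ S, y s ∈ R s \ bd s) →
    (∀ s ∈ S, 3 ≤ k s) →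
    (∀ s ∈ S, ∀ i, ConBall 1 (A s i) {z s i, z s (i + 1)}) →
    (∀ s ∈ S, ∀ i j, i ≠ j → ∀ p ∈ A s i ∩ A s j,
      (j = i + 1 ∧ p = z s j) ∨ (i = j + 1 ∧ p = z s i)) →
    (∀ s ∈ S, ⋃ i, A s i = bd s) →
    (∀ s ∈ S, ∀ i v w, z s i ∈ R v → z s i ∈ R w → v ≠ s → w ≠ s → v = w) →
    (∀ s ∈ S, ∀ i j v, v ≠ s → z s i ∈ R v → z s j ∈ R v → i = j) →
    (∀ p m, ∀ c : ZMod m → V, LinkCycle R p m c → m = 3) →
    ∃ (R' bd' : {v // v ∉ S} ⊕ (Σ s : S, ZMod (k s)) → Set E),
      Mosaic F R' bd' ∧ (∀ v, R' (Sum.inl v) = R v) ∧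
      (∀ s i, R' (Sum.inr ⟨s, i⟩) ⊆ R s ∧ R' (Sum.inr ⟨s, i⟩) ∩ bd s = A s i) ∧
      (∀ s : S, LinkCycle R' (y s) (k s) fun i => Sum.inr ⟨s, i⟩) ∧
      ∀ p m, ∀ c : ZMod m → {v // v ∉ S} ⊕ (Σ s : S, ZMod (k s)), LinkCycle R' p m c →
        m = 3 ∨ ∃ s ∈ S, p = y s

variable {E} {V Λ : Type}

/-- `w` is in the tile of `v` -/
def Tile (R : V → Set E) (L : V → Λ) (v w : V) : Prop :=
  Vale.Agent.P073.HOne.Joined (fun x y => (R x ∩ R y).Nontrivial) {u | L u = L v} v w

/-- windows: every tile lies in a disc of the surface; two of the discs never contain all cells of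
a component; the discs are locally finite -/
structure Windows (F : Set E) (R : V → Set E) (L : V → Λ) (D B : V → Set E) : Prop where
  disc : ∀ v, SurfDisc F (D v) (B v)
  sub : ∀ v w, Tile R L v w → R w ⊆ D v \ B v
  congr : ∀ v w, Tile R L v w → D w = D v ∧ B w = B v
  two : ∀ v w, Vale.Agent.P073.HOne.Joined (fun x y => (R x ∩ R y).Nontrivial) univ v w →
    ∃ z, ¬ R z ⊆ D v \ B v ∧ ¬ R z ⊆ D w \ B w ∧
      Vale.Agent.P073.HOne.Joined (fun x y => (R x ∩ R y).Nontrivial) univ v z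
  fin : ∀ v, {w | R v ⊆ D w \ B w}.Finite

variable (E)

/-- Schoenflies in a disc (input, block C2) -/
def SchDisc : Prop :=
  ∀ D B c : Set E, ConBall 2 D B → ConSphere 1 c → c ⊆ D \ B →
    ∃ Δ, ConBall 2 Δ c ∧ Δ ⊆ D \ B ∧ ∃ U, IsOpen U ∧ Δ \ c = D ∩ U

/-- **(PT)** the regular cell structure `Theta` -/
def SpecTheta : Prop :=
  ∀ (V Λ : Type) (F : Set E) (R bd : V → Set E), Mosaic F R bd →
  ∀ (L : V → Λ), GoodLabels R L → ∀ (D B : V → Set E), Windows F R L D B →
    ∃ (X Y J : Type) (e0 e1 : Y → X) (inc : Y → J → Prop) (K : PR720.Cx2 e0 e1 inc E)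
      (lab : J → Λ) (rep : J → V),
      (⋃ j, K.tile j) = F ∧
      -- tiles with the same label are disjoint
      (∀ j k, j ≠ k → lab j = lab k → Disjoint (K.tile j) (K.tile k)) ∧
      -- every tile is small and has a representative cell
      (∀ j, lab j = L (rep j) ∧ R (rep j) ⊆ K.tile j ∧ K.tile j ⊆ D (rep j) \ B (rep j)) ∧
      -- an arc has exactly two sides, with different labels, and runs between cells with these
      -- labels
      (∀ b, ∃ j k, j ≠ k ∧ lab j ≠ lab k ∧ (∀ i, inc b i ↔ i = j ∨ i = k) ∧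
        ∀ p ∈ K.arc b, ∃ v w, L v = lab j ∧ L w = lab k ∧ (R v ∩ R w).Nontrivial ∧
          p ∈ R v ∩ R w) ∧
      -- the vertices are vertices of the mosaic with at least three labels
      (∀ x, ∃ u v w, K.y x ∈ R u ∧ K.y x ∈ R v ∧ K.y x ∈ R w ∧ L u ≠ L v ∧ L v ≠ L w ∧
        L u ≠ L w) ∧
      -- every arc is a union of arcs of the mosaic
      (∀ b, ∀ p ∈ K.arc b, ∃ v w, v ≠ w ∧ (R v ∩ R w).Nontrivial ∧ p ∈ R v ∩ R w ∧
        R v ∩ R w ⊆ K.arc b) ∧
      (∀ b, e0 b ≠ e1 b) ∧ Function.Injective rep ∧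
      -- different arcs with a common vertex have different pairs of labels
      (∀ b b' x, (x = e0 b ∨ x = e1 b) → (x = e0 b' ∨ x = e1 b') → b ≠ b' →
        ∃ j, inc b j ∧ ∀ j', inc b' j' → lab j' ≠ lab j) ∧
      -- all cells at a vertex are in tiles with the same label
      (∀ x v, K.y x ∈ R v → ∃ j, R v ⊆ K.tile j ∧ lab j = L v) ∧
      -- all pairs of neighbours with different labels at a vertex are on the two sides of an arc
      ∀ x v w, K.y x ∈ R v → K.y x ∈ R w → (R v ∩ R w).Nontrivial → L v ≠ L w →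
        ∃ b j k, (x = e0 b ∨ x = e1 b) ∧ inc b j ∧ inc b k ∧ lab j = L v ∧ lab k = L w ∧
          R v ∩ R w ⊆ K.arc b

end P073.PT
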