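import Vale.Agent.P073.ConGlue
import Mathlib.Tactic.LinearCombination

/-!
# P073, block PT : parametrisations, concatenation and closing up of conical arcs
-/

open Set Metric Topology

namespace P073

variable {E : Type*} [NormedAddCommGroup E] [NormedSpace ℝ E]

theorem sphere_fin_one : sphere (0 : Fin 1 → ℝ) 1 = {(fun _ => -1), (fun _ => 1)} := by
  ext x
  have hx : x = fun _ => x 0 := by
    funext i
    rw [Subsingleton.elim i 0]
  rw [mem_sphere_zero_iff_norm, mem_insert_iff, mem_singleton_iff]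
  constructor
  · intro h
    rw [hx, pi_norm_const, Real.norm_eq_abs] at h
    rcases eq_or_eq_neg_of_abs_eq h with h | h
    · right; rw [hx, h]
    · left; rw [hx, h]
  · rintro (h | h)
    · rw [h, pi_norm_const]; norm_num
    · rw [h, pi_norm_const]; norm_num

/-- affine parametrisation of the one-dimensional ball, with prescribed orientation -/
theorem exists_line {α β : ℝ} (h : α < β) {s : ℝ} (hs : s * s = 1) :
    ∃ φ : ConHomeo (Icc α β) (closedBall (0 : Fin 1 → ℝ) 1),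
      φ.toFun α = (fun _ => -s) ∧ φ.toFun β = fun _ => s := by
  have hd : (β - α) ≠ 0 := (sub_pos.2 h).ne'
  have hd' : 0 < β - α := sub_pos.2 h
  have habs : |s| = 1 := by
    have : |s| * |s| = 1 := by rw [← abs_mul, hs, abs_one]
    nlinarith [abs_nonneg s]
  have hnorm : ∀ x : Fin 1 → ℝ, ‖x‖ = |x 0| := by
    intro x
    have hx : x = fun _ => x 0 := by
      funext i
      rw [Subsingleton.elim i 0]
    conv_lhs => rw [hx]
    rw [pi_norm_const, Real.norm_eq_abs]
  refine ⟨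
    { toFun := fun t _ => s * (2 / (β - α)) * t - s * ((α + β) / (β - α))
      invFun := fun x => ((β - α) * (s * x 0) + (α + β)) / 2
      mapsTo := ?_
      mapsTo_inv := ?_
      left_inv := ?_
      right_inv := ?_
      cont := by fun_prop
      cont_inv := by fun_prop
      conical := ?_ }, ?_, ?_⟩
  · intro t ht
    rw [mem_closedBall_zero_iff, hnorm]
    show |s * (2 / (β - α)) * t - s * ((α + β) / (β - α))| ≤ 1
    have e1 : s * (2 / (β - α)) * t - s * ((α + β) / (β - α)) = s * ((2 * t - (α + β)) / (β - α)) := by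
      field_simp
    rw [e1, abs_mul, habs, one_mul, abs_le]
    constructor
    · rw [le_div_iff₀ hd']; linarith [ht.1]
    · rw [div_le_iff₀ hd']; linarith [ht.2]
  · intro x hx
    rw [mem_closedBall_zero_iff, hnorm] at hx
    have h1 : |s * x 0| ≤ 1 := by rw [abs_mul, habs, one_mul]; exact hx
    rw [abs_le] at h1
    constructor
    · nlinarith [h1.1]
    · nlinarith [h1.2]
  · intro t _
    show ((β - α) * (s * (s * (2 / (β - α)) * t - s * ((α + β) / (β - α)))) + (α + β)) / 2 = t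
    have : (β - α) * (s * (s * (2 / (β - α)) * t - s * ((α + β) / (β - α)))) =
        (s * s) * ((β - α) / (β - α)) * (2 * t - (α + β)) := by ring
    rw [this, hs, div_self hd]; ring
  · intro x _
    funext i
    show s * (2 / (β - α)) * (((β - α) * (s * x 0) + (α + β)) / 2) - s * ((α + β) / (β - α)) = x i
    rw [Subsingleton.elim i 0]
    have : s * (2 / (β - α)) * (((β - α) * (s * x 0) + (α + β)) / 2) - s * ((α + β) / (β - α)) =
        (s * s) * ((β - α) / (β - α)) * x 0 := by ring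
    rw [this, hs, div_self hd]; ring
  · refine conicalOn_of_affine (E := ℝ) (F := Fin 1 → ℝ)
      (LinearMap.toAffineMap (LinearMap.pi fun _ => (s * (2 / (β - α))) • LinearMap.id) +
        AffineMap.const ℝ ℝ (fun _ => - (s * ((α + β) / (β - α)))))
      (P073.Convex.conicalSet (convex_Icc α β)) |>.congr ?_
    intro t _
    funext i
    simp [sub_eq_add_neg]
  · funext _
    show s * (2 / (β - α)) * α - s * ((α + β) / (β - α)) = -s
    field_simp
    ring
  · funext _
    show s * (2 / (β - α)) * β - s * ((α + β) / (β - α)) = s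
    field_simp
    ring

theorem ConBall.of_param {C : Set E} {α β : ℝ} (h : α < β) (ψ : ConHomeo (Icc α β) C) :
    ConBall 1 C {ψ.toFun α, ψ.toFun β} := by
  obtain ⟨φ, h1, h2⟩ := exists_line h (s := 1) (by norm_num)
  have hα : α ∈ Icc α β := ⟨le_rfl, h.le⟩
  have hβ : β ∈ Icc α β := ⟨h.le, le_rfl⟩
  refine ⟨?_, ψ.symm.trans φ, ?_⟩
  · rintro x (rfl | rfl)
    · exact ψ.mapsTo hα
    · exact ψ.mapsTo hβ
  · rw [image_pair, sphere_fin_one]
    show {φ.toFun (ψ.invFun (ψ.toFun α)), φ.toFun (ψ.invFun (ψ.toFun β))} = _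
    rw [ψ.left_inv hα, ψ.left_inv hβ, h1, h2]

theorem ConBall.exists_param {C : Set E} {p q : E} (hC : ConBall 1 C {p, q}) {α β : ℝ}
    (h : α < β) : ∃ ψ : ConHomeo (Icc α β) C, ψ.toFun α = p ∧ ψ.toFun β = q := by
  obtain ⟨hsub, φ, hφ⟩ := hC
  rw [image_pair, sphere_fin_one] at hφ
  have hp : p ∈ C := hsub (mem_insert _ _)
  have hq : q ∈ C := hsub (mem_insert_of_mem _ rfl)
  have hne : (fun _ => -1 : Fin 1 → ℝ) ≠ fun _ => 1 := by
    intro h'
    have := congrFun h' 0
    norm_num at this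
  have hcases : (φ.toFun p = (fun _ => -1) ∧ φ.toFun q = fun _ => 1) ∨
      (φ.toFun p = (fun _ => 1) ∧ φ.toFun q = fun _ => -1) := by
    rcases pair_eq_pair_iff.1 hφ with h1 | h1
    · exact Or.inl h1
    · exact Or.inr h1
  rcases hcases with ⟨h1, h2⟩ | ⟨h1, h2⟩
  · obtain ⟨ℓ, e1, e2⟩ := exists_line h (s := 1) (by norm_num)
    refine ⟨ℓ.trans φ.symm, ?_, ?_⟩
    · show φ.invFun (ℓ.toFun α) = p
      rw [e1, ← h1, φ.left_inv hp]
    · show φ.invFun (ℓ.toFun β) = q
      rw [e2, ← h2, φ.left_inv hq]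
  · obtain ⟨ℓ, e1, e2⟩ := exists_line h (s := -1) (by norm_num)
    refine ⟨ℓ.trans φ.symm, ?_, ?_⟩
    · show φ.invFun (ℓ.toFun α) = p
      rw [e1, neg_neg, ← h1, φ.left_inv hp]
    · show φ.invFun (ℓ.toFun β) = q
      rw [e2, ← h2, φ.left_inv hq]

theorem ConBall.ne {C : Set E} {p q : E} (hC : ConBall 1 C {p, q}) : p ≠ q := by
  obtain ⟨ψ, h1, h2⟩ := hC.exists_param zero_lt_one
  intro h
  have := ψ.injOn (⟨le_rfl, zero_le_one⟩ : (0:ℝ) ∈ Icc (0:ℝ) 1)
    (⟨zero_le_one, le_rfl⟩ : (1:ℝ) ∈ Icc (0:ℝ) 1) (by rw [h1, h2, h])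
  exact zero_ne_one this

/-- concatenation of two arcs -/
theorem ConBall.concat {C C' : Set E} {p q r : E} (hC : ConBall 1 C {p, q})
    (hC' : ConBall 1 C' {q, r}) (hi : C ∩ C' ⊆ {q}) : ConBall 1 (C ∪ C') {p, r} := by
  obtain ⟨ψ, h1, h2⟩ := hC.exists_param zero_lt_one
  obtain ⟨ψ', h1', h2'⟩ := hC'.exists_param one_lt_two
  have hX : Icc (0:ℝ) 1 ∩ Icc 1 2 = {1} := by
    ext x
    constructor
    · rintro ⟨⟨_, h⟩, ⟨h', _⟩⟩
      exact le_antisymm h h'
    · rintro rfl
      exact ⟨⟨zero_le_one, le_rfl⟩, ⟨le_rfl, one_le_two⟩⟩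
  have hag : EqOn ψ.toFun ψ'.toFun (Icc (0:ℝ) 1 ∩ Icc 1 2) := by
    rw [hX]
    rintro x rfl
    rw [h2, h1']
  have himg : C ∩ C' ⊆ ψ.toFun '' (Icc (0:ℝ) 1 ∩ Icc 1 2) := by
    rw [hX, image_singleton, h2]
    exact hi
  let Φ := ConHomeo.glue ψ ψ' isClosed_Icc isClosed_Icc hC.isClosed hC'.isClosed hag himg
  have hL : EqOn Φ.toFun ψ.toFun (Icc 0 1) :=
    ConHomeo.glue_left ψ ψ' isClosed_Icc isClosed_Icc hC.isClosed hC'.isClosed hag himg
  have hR : EqOn Φ.toFun ψ'.toFun (Icc 1 2) :=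
    ConHomeo.glue_right ψ ψ' isClosed_Icc isClosed_Icc hC.isClosed hC'.isClosed hag himg
  have hu : Icc (0:ℝ) 1 ∪ Icc 1 2 = Icc 0 2 := Icc_union_Icc_eq_Icc zero_le_one one_le_two
  have := ConBall.of_param (α := 0) (β := 2) two_pos (Φ.cast hu rfl)
  rw [ConHomeo.cast_toFun, hL ⟨le_rfl, zero_le_one⟩, hR ⟨one_le_two, le_rfl⟩, h1, h2'] at this
  exact this

/-! ### closing up -/

theorem norm_fin_two (x : Fin 2 → ℝ) : ‖x‖ = max |x 0| |x 1| := by
  apply le_antisymm
  · rw [pi_norm_le_iff_of_nonneg (le_max_of_le_left (abs_nonneg _))]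
    intro i
    fin_cases i
    · exact le_max_left _ _
    · exact le_max_right _ _
  · exact max_le (norm_le_pi_norm x 0) (norm_le_pi_norm x 1)

/-- the upper (`s = 1`) or lower (`s = -1`) half of the square, parametrised by `[-2,2]` -/
noncomputable def halfSq (s t : ℝ) : Fin 2 → ℝ := ![max (-1) (min 1 t), s * min 1 (2 - |t|)]

theorem halfSq_zero (s t : ℝ) : halfSq s t 0 = max (-1) (min 1 t) := rfl
theorem halfSq_one (s t : ℝ) : halfSq s t 1 = s * min 1 (2 - |t|) := rfl

theorem halfSq_inv {s t : ℝ} (hs : s * s = 1) :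
    halfSq s t 0 * (2 - s * halfSq s t 1) = t := by
  rw [halfSq_zero, halfSq_one, ← mul_assoc, hs, one_mul]
  rcases le_total |t| 1 with h | h
  · rw [min_eq_left (by linarith : (1:ℝ) ≤ 2 - |t|)]
    rw [abs_le] at h
    rw [min_eq_right h.2, max_eq_right h.1]; ring
  · rw [min_eq_right (by linarith : 2 - |t| ≤ (1:ℝ))]
    rcases le_total 0 t with h0 | h0
    · rw [abs_of_nonneg h0] at h ⊢
      rw [min_eq_left h, max_eq_right (by norm_num)]; ring
    · rw [abs_of_nonpos h0] at h ⊢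
      rw [min_eq_right (by linarith), max_eq_left (by linarith)]; ring

theorem halfSq_injOn {s : ℝ} (hs : s * s = 1) : InjOn (halfSq s) (Icc (-2 : ℝ) 2) := by
  intro t _ t' _ h
  rw [← halfSq_inv hs (t := t), ← halfSq_inv hs (t := t'), h]

theorem continuous_halfSq (s : ℝ) : Continuous (halfSq s) := by
  refine continuous_pi fun i => ?_
  fin_cases i
  · show Continuous fun t : ℝ => max (-1) (min 1 t)
    fun_prop
  · show Continuous fun t : ℝ => s * min 1 (2 - |t|)
    fun_prop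

theorem conicalOn_halfSq (s : ℝ) : ConicalOn (halfSq s) (Icc (-2 : ℝ) 2) := by
  have hX : ConicalSet (Icc (-2 : ℝ) 2) := P073.Convex.conicalSet (convex_Icc _ _)
  intro x hx
  refine conicalWithinAt_pi (hX x hx) fun i => ?_
  have hid : ConicalOn (fun t : ℝ => t) (Icc (-2 : ℝ) 2) := conicalOn_id hX
  fin_cases i
  · have h1 : ConicalOn (fun t : ℝ => min 1 t) (Icc (-2 : ℝ) 2) :=
      (conicalOn_const 1 hX).rmin hid (by fun_prop) (by fun_prop)
    exact ((conicalOn_const (-1) hX).rmax h1 (by fun_prop) (by fun_prop)) x hx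
  · have h0 : ConicalOn (fun t : ℝ => |t|) (Icc (-2 : ℝ) 2) := by
      have := hid.rmax hid.neg (by fun_prop) (by fun_prop)
      exact this
    have h1 : ConicalOn (fun t : ℝ => min 1 (2 - |t|)) (Icc (-2 : ℝ) 2) :=
      (conicalOn_const 1 hX).rmin ((conicalOn_const 2 hX).sub h0) (by fun_prop) (by fun_prop)
    have h2 := h1.const_smul s
    exact h2 x hx

/-- the half as a set -/
theorem image_halfSq {s : ℝ} (hs : s * s = 1) :
    halfSq s '' Icc (-2 : ℝ) 2 = {x : Fin 2 → ℝ | ‖x‖ = 1 ∧ 0 ≤ s * x 1} := by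
  have habs : |s| = 1 := by
    have : |s| * |s| = 1 := by rw [← abs_mul, hs, abs_one]
    nlinarith [abs_nonneg s]
  ext x
  constructor
  · rintro ⟨t, ht, rfl⟩
    rw [mem_ofPred_eq, norm_fin_two, halfSq_zero, halfSq_one, ← mul_assoc, hs, one_mul, abs_mul,
      habs, one_mul]
    have ht2 : |t| ≤ 2 := abs_le.2 ht
    rcases le_total |t| 1 with h | h
    · rw [min_eq_left (by linarith : (1:ℝ) ≤ 2 - |t|)]
      have h' := abs_le.1 h
      rw [min_eq_right h'.2, max_eq_right h'.1, abs_one]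
      exact ⟨max_eq_right h, zero_le_one⟩
    · rw [min_eq_right (by linarith : 2 - |t| ≤ (1:ℝ))]
      refine ⟨?_, by linarith⟩
      have e : |max (-1) (min 1 t)| = 1 := by
        rcases le_total 0 t with h0 | h0
        · rw [abs_of_nonneg h0] at h
          rw [min_eq_left h, max_eq_right (by norm_num), abs_one]
        · rw [abs_of_nonpos h0] at h
          rw [min_eq_right (by linarith), max_eq_left (by linarith), abs_neg, abs_one]
      rw [e, abs_of_nonneg (by linarith : (0:ℝ) ≤ 2 - |t|)]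
      exact max_eq_left (by linarith)
  · rintro ⟨hx, hx1⟩
    rw [norm_fin_two] at hx
    have h0 : |x 0| ≤ 1 := by rw [← hx]; exact le_max_left _ _
    have h1 : |x 1| ≤ 1 := by rw [← hx]; exact le_max_right _ _
    have hsx : |s * x 1| ≤ 1 := by rw [abs_mul, habs, one_mul]; exact h1
    have hsx' : s * x 1 ≤ 1 := (abs_le.1 hsx).2
    have hcases : |x 0| = 1 ∨ s * x 1 = 1 := by
      rcases max_choice |x 0| |x 1| with h | h
      · left; rw [← h, hx]
      · right
        have : |s * x 1| = 1 := by rw [abs_mul, habs, one_mul, ← h, hx]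
        rwa [abs_of_nonneg hx1] at this
    have key : |x 0 * (2 - s * x 1)| = |x 0| * (2 - s * x 1) := by
      rw [abs_mul, abs_of_nonneg (by linarith : (0:ℝ) ≤ 2 - s * x 1)]
    refine ⟨x 0 * (2 - s * x 1), ?_, ?_⟩
    · rw [mem_Icc, ← abs_le, key]
      nlinarith [abs_nonneg (x 0)]
    · funext i
      fin_cases i
      · show max (-1) (min 1 (x 0 * (2 - s * x 1))) = x 0
        rcases hcases with h | h
        · rcases eq_or_eq_neg_of_abs_eq h with h' | h'
          · rw [h', min_eq_left (by linarith), max_eq_right (by norm_num)]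
          · rw [h', min_eq_right (by linarith), max_eq_left (by linarith)]
        · have h0' := abs_le.1 h0
          rw [h]
          have : x 0 * (2 - 1) = x 0 := by ring
          rw [this, min_eq_right h0'.2, max_eq_right h0'.1]
      · show s * min 1 (2 - |x 0 * (2 - s * x 1)|) = x 1
        rw [key]
        have e : min 1 (2 - |x 0| * (2 - s * x 1)) = s * x 1 := by
          rcases hcases with h | h
          · rw [h, one_mul]
            have : 2 - (2 - s * x 1) = s * x 1 := by ring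
            rw [this, min_eq_right hsx']
          · rw [h]
            have : 2 - |x 0| * (2 - 1) = 2 - |x 0| := by ring
            rw [this, min_eq_left (by linarith)]
        rw [e, ← mul_assoc, hs, one_mul]

/-- two arcs with the same end points and no other common point form a circle -/
theorem ConBall.circle {C C' : Set E} {p q : E} (hC : ConBall 1 C {p, q})
    (hC' : ConBall 1 C' {p, q}) (hi : C ∩ C' ⊆ {p, q}) : ConSphere 1 (C ∪ C') := by
  have h22 : (-2 : ℝ) < 2 := by norm_num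
  obtain ⟨ψ, h1, h2⟩ := hC.exists_param h22
  obtain ⟨ψ', h1', h2'⟩ := hC'.exists_param h22
  have hs : (1:ℝ) * 1 = 1 := by norm_num
  have hs' : (-1:ℝ) * -1 = 1 := by norm_num
  let S₁ : Set (Fin 2 → ℝ) := {x | ‖x‖ = 1 ∧ 0 ≤ 1 * x 1}
  let S₂ : Set (Fin 2 → ℝ) := {x | ‖x‖ = 1 ∧ 0 ≤ -1 * x 1}
  let σ₁ : ConHomeo (Icc (-2 : ℝ) 2) S₁ := ConHomeo.ofCompact isCompact_Icc (halfSq 1)
    (continuous_halfSq 1).continuousOn (halfSq_injOn hs) (conicalOn_halfSq 1) (image_halfSq hs)
  let σ₂ : ConHomeo (Icc (-2 : ℝ) 2) S₂ := ConHomeo.ofCompact isCompact_Icc (halfSq (-1))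
    (continuous_halfSq (-1)).continuousOn (halfSq_injOn hs') (conicalOn_halfSq (-1))
    (image_halfSq hs')
  have eσ₁ : σ₁.toFun = halfSq 1 := ConHomeo.ofCompact_toFun _ _ _ _ _ _
  have eσ₂ : σ₂.toFun = halfSq (-1) := ConHomeo.ofCompact_toFun _ _ _ _ _ _
  have m1 : (-2 : ℝ) ∈ Icc (-2 : ℝ) 2 := ⟨le_rfl, h22.le⟩
  have m2 : (2 : ℝ) ∈ Icc (-2 : ℝ) 2 := ⟨h22.le, le_rfl⟩
  have v1 : ∀ s : ℝ, halfSq s (-2) = ![-1, 0] := by
    intro s
    unfold halfSq
    norm_num
  have v2 : ∀ s : ℝ, halfSq s 2 = ![1, 0] := by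
    intro s
    unfold halfSq
    norm_num
  let Φ₁ : ConHomeo C S₁ := ψ.symm.trans σ₁
  let Φ₂ : ConHomeo C' S₂ := ψ'.symm.trans σ₂
  have p1 : Φ₁.toFun p = ![-1, 0] := by
    show σ₁.toFun (ψ.invFun p) = _
    rw [← h1, ψ.left_inv m1, eσ₁, v1]
  have q1 : Φ₁.toFun q = ![1, 0] := by
    show σ₁.toFun (ψ.invFun q) = _
    rw [← h2, ψ.left_inv m2, eσ₁, v2]
  have p2 : Φ₂.toFun p = ![-1, 0] := by
    show σ₂.toFun (ψ'.invFun p) = _
    rw [← h1', ψ'.left_inv m1, eσ₂, v1]
  have q2 : Φ₂.toFun q = ![1, 0] := by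
    show σ₂.toFun (ψ'.invFun q) = _
    rw [← h2', ψ'.left_inv m2, eσ₂, v2]
  have hpC : p ∈ C := hC.1 (mem_insert _ _)
  have hqC : q ∈ C := hC.1 (mem_insert_of_mem _ rfl)
  have hpC' : p ∈ C' := hC'.1 (mem_insert _ _)
  have hqC' : q ∈ C' := hC'.1 (mem_insert_of_mem _ rfl)
  have hag : EqOn Φ₁.toFun Φ₂.toFun (C ∩ C') := by
    intro x hx
    rcases hi hx with h | h
    · rw [h, p1, p2]
    · rw [mem_singleton_iff.1 h, q1, q2]
  have himg : S₁ ∩ S₂ ⊆ Φ₁.toFun '' (C ∩ C') := by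
    rintro x ⟨⟨hx, hx1⟩, ⟨_, hx2⟩⟩
    have hx0 : x 1 = 0 := by linarith
    rw [norm_fin_two, hx0, abs_zero, max_eq_left (abs_nonneg _)] at hx
    rcases eq_or_eq_neg_of_abs_eq hx with h | h
    · refine ⟨q, ⟨hqC, hqC'⟩, ?_⟩
      rw [q1]
      funext i
      fin_cases i
      · exact h.symm
      · exact hx0.symm
    · refine ⟨p, ⟨hpC, hpC'⟩, ?_⟩
      rw [p1]
      funext i
      fin_cases i
      · exact h.symm
      · exact hx0.symm
  have hS₁ : IsClosed S₁ := (σ₁.isCompact_right isCompact_Icc).isClosed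
  have hS₂ : IsClosed S₂ := (σ₂.isCompact_right isCompact_Icc).isClosed
  have hun : S₁ ∪ S₂ = sphere (0 : Fin 2 → ℝ) 1 := by
    ext x
    rw [mem_sphere_zero_iff_norm]
    constructor
    · rintro (h | h)
      · exact h.1
      · exact h.1
    · intro h
      rcases le_total 0 (x 1) with h' | h'
      · exact Or.inl ⟨h, by linarith⟩
      · exact Or.inr ⟨h, by linarith⟩
  exact ⟨(ConHomeo.glue Φ₁ Φ₂ hC.isClosed hC'.isClosed hS₁ hS₂ hag himg).cast rfl hun⟩

end P073
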