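import Vale.Agent.P073.PT.Mosaic
import Vale.Agent.P073.H773.HOne
import Mathlib.Analysis.Normed.Module.Connected

/-!
# P073, block PT : connectedness in mosaics
-/

open Set Metric Topology

namespace P073.PT

open Vale.Agent.P073 Vale.Agent.P073.HOne

variable {E : Type*} [NormedAddCommGroup E] [NormedSpace ℝ E]

/-! ### balls and circles -/

theorem preconn_ball {n : ℕ} {C B : Set E} (h : ConBall n C B) : IsPreconnected C := by
  obtain ⟨_, φ, _⟩ := h
  rw [← φ.symm.image_eq]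
  exact (convex_closedBall _ _).isPreconnected.image _ φ.cont_inv

theorem diff_eq_image {n : ℕ} {C B : Set E} (h : ConBall n C B) :
    ∃ φ : ConHomeo C (closedBall (0 : Fin n → ℝ) 1), C \ B = φ.invFun '' ball 0 1 := by
  obtain ⟨φ, hφ⟩ := h.eq_preimage
  refine ⟨φ, ?_⟩
  ext x
  constructor
  · rintro ⟨hx, hxB⟩
    refine ⟨φ.toFun x, ?_, φ.left_inv hx⟩
    have h1 := mem_closedBall.1 (φ.mapsTo hx)
    rw [mem_ball]
    refine lt_of_le_of_ne h1 fun h2 => hxB ?_
    rw [← hφ]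
    exact ⟨φ.toFun x, mem_sphere.2 h2, φ.left_inv hx⟩
  · rintro ⟨y, hy, rfl⟩
    have hy' := ball_subset_closedBall hy
    refine ⟨φ.mapsTo_inv hy', fun hB => ?_⟩
    rw [← hφ] at hB
    obtain ⟨s, hs, he⟩ := hB
    have := φ.symm.injOn (sphere_subset_closedBall hs) hy' he
    rw [this] at hs
    rw [mem_sphere] at hs
    rw [mem_ball] at hy
    exact hy.ne hs

theorem preconn_int {n : ℕ} {C B : Set E} (h : ConBall n C B) : IsPreconnected (C \ B) := by
  obtain ⟨φ, hφ⟩ := diff_eq_image h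
  rw [hφ]
  exact (convex_ball _ _).isPreconnected.image _ (φ.cont_inv.mono ball_subset_closedBall)

theorem subset_closure_int {n : ℕ} {C B : Set E} (h : ConBall n C B) : C ⊆ closure (C \ B) := by
  obtain ⟨φ, hφ⟩ := diff_eq_image h
  rw [hφ]
  intro x hx
  have h1 : φ.toFun x ∈ closedBall (0 : Fin n → ℝ) 1 := φ.mapsTo hx
  have h2 : φ.toFun x ∈ closure (ball (0 : Fin n → ℝ) 1) := by
    rw [closure_ball _ one_ne_zero]; exact h1
  have h3 := ((φ.cont_inv (φ.toFun x) h1).mono ball_subset_closedBall).mem_closure_image h2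
  rwa [φ.left_inv hx] at h3

theorem int_nonempty {n : ℕ} {C B : Set E} (h : ConBall n C B) : (C \ B).Nonempty := by
  obtain ⟨φ, hφ⟩ := diff_eq_image h
  rw [hφ]
  exact ⟨_, mem_image_of_mem _ (mem_ball_self one_pos)⟩

theorem preconn_circle {B : Set E} (h : ConSphere 1 B) : IsPreconnected B := by
  obtain ⟨φ⟩ := h
  rw [← φ.symm.image_eq]
  refine (isConnected_sphere (E := Fin 2 → ℝ) ?_ 0 zero_le_one).isPreconnected.image _ φ.cont_inv
  rw [rank_fin_fun]
  norm_num

theorem circle_nonempty {B : Set E} (h : ConSphere 1 B) : B.Nonempty := by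
  obtain ⟨φ⟩ := h
  rw [← φ.symm.image_eq]
  exact (NormedSpace.sphere_nonempty.2 zero_le_one).image _

theorem nontrivial_disc {C B : Set E} (h : ConBall 2 C B) : C.Nontrivial := by
  obtain ⟨x, hx, hxB⟩ := int_nonempty h
  obtain ⟨y, hy⟩ := circle_nonempty h.conSphere
  exact ⟨x, hx, y, h.1 hy, fun e => hxB (e ▸ hy)⟩

/-! ### chains -/

theorem exists_step {V : Type*} {A : V → V → Prop} {S H : Set V} {v w : V} (h : HOne.Joined A S v w)
    (hv : v ∈ H) (hw : w ∉ H) : ∃ x ∈ S, ∃ y ∈ S, x ∈ H ∧ y ∉ H ∧ A x y := by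
  obtain ⟨h0, h1⟩ := h
  induction h1 with
  | refl => exact absurd hv hw
  | @tail b c h1 h2 ih =>
    by_cases hb : b ∈ H
    · exact ⟨b, HOne.Joined.right_mem (A := A) (S := S) ⟨h0, h1⟩, c, h2.1, hb, hw, h2.2⟩
    · exact ih hb

/-! ### mosaics -/

/-- neighbours -/
def Nb {V : Type*} (R : V → Set E) (v w : V) : Prop := (R v ∩ R w).Nontrivial

omit [NormedAddCommGroup E] [NormedSpace ℝ E] in
theorem Nb.symm {V : Type*} {R : V → Set E} {v w : V} (h : Nb R v w) : Nb R w v := by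
  unfold Nb at *; rwa [inter_comm]

variable {V : Type*} {F : Set E} {R bd : V → Set E} (M : Mosaic F R bd)

omit [NormedAddCommGroup E] [NormedSpace ℝ E] in
theorem LinkCycle.neZero {p : E} {k : ℕ} {c : ZMod k → V} (hc : LinkCycle R p k c) : NeZero k :=
  ⟨fun h => by have := hc.three; omega⟩

omit [NormedAddCommGroup E] [NormedSpace ℝ E] in
theorem LinkCycle.joined {p : E} {k : ℕ} {c : ZMod k → V} (hc : LinkCycle R p k c)
    (i j : ZMod k) : HOne.Joined (Nb R) {u | p ∈ R u} (c i) (c j) := by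
  have hk : NeZero k := LinkCycle.neZero hc
  have h1 : ∀ n : ℕ, Joined (Nb R) {u | p ∈ R u} (c i) (c (i + n)) := by
    intro n
    induction n with
    | zero =>
      rw [Nat.cast_zero, add_zero]
      exact HOne.Joined.refl ((hc.mem _).2 ⟨i, rfl⟩)
    | succ n ih =>
      refine ih.trans (HOne.Joined.single ih.right_mem ((hc.mem _).2 ⟨_, rfl⟩) ?_)
      refine (hc.adj _ _).2 (Or.inr (Or.inl ?_))
      push_cast
      ring
  have h2 := h1 (j - i).val
  rwa [ZMod.natCast_zmod_val, add_sub_cancel] at h2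

include M

theorem cell_subset (v : V) : R v ⊆ F := M.cover ▸ subset_iUnion R v

theorem exists_cell {p : E} (hp : p ∈ F) : ∃ v, p ∈ R v := by
  rw [← M.cover] at hp
  exact mem_iUnion.1 hp

theorem nb_refl (v : V) : Nb R v v := by
  unfold Nb; rw [inter_self]; exact nontrivial_disc (M.ball v)

theorem joined_at {p : E} {v w : V} (hv : p ∈ R v) (hw : p ∈ R w) :
    HOne.Joined (Nb R) {u | p ∈ R u} v w := by
  by_cases hvw : v = w
  · subst hvw; exact HOne.Joined.refl hv
  · rcases M.link v w hvw p ⟨hv, hw⟩ with ⟨h1, -⟩ | ⟨k, c, hc⟩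
    · exact HOne.Joined.single hv hw h1
    · obtain ⟨i, rfl⟩ := (hc.mem v).1 hv
      obtain ⟨j, rfl⟩ := (hc.mem w).1 hw
      exact LinkCycle.joined hc i j

/-- a point common to a cell in `H` and a cell off `H` is on a frontier arc of `H` -/
theorem exists_front {H : Set V} {p : E} {v w : V} (hv : v ∈ H) (hp : p ∈ R v) (hw : w ∉ H)
    (hp' : p ∈ R w) : ∃ x y, x ∈ H ∧ y ∉ H ∧ Nb R x y ∧ p ∈ R x ∧ p ∈ R y := by
  obtain ⟨x, hx, y, hy, h1, h2, h3⟩ := exists_step (joined_at M hp hp') hv hw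
  exact ⟨x, y, h1, h2, h3, hx, hy⟩

/-- unions of cells are closed in `F` -/
theorem closure_inter (C : Set V) : closure (⋃ u ∈ C, R u) ∩ F = ⋃ u ∈ C, R u := by
  apply Subset.antisymm
  · rintro z ⟨hcl, hz⟩
    obtain ⟨U, hU, hfin⟩ := M.fin z hz
    have h1 : z ∈ closure (⋃ u ∈ {u | u ∈ C ∧ (R u ∩ U).Nonempty}, R u) := by
      rw [mem_closure_iff_nhds] at hcl ⊢
      intro t ht
      obtain ⟨y, ⟨hyt, hyU⟩, hyA⟩ := hcl (t ∩ U) (Filter.inter_mem ht hU)
      obtain ⟨i, hi, hi'⟩ := mem_iUnion₂.1 hyA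
      exact ⟨y, hyt, mem_biUnion (show i ∈ {u | u ∈ C ∧ (R u ∩ U).Nonempty} from
        ⟨hi, y, hi', hyU⟩) hi'⟩
    have h2 : {u | u ∈ C ∧ (R u ∩ U).Nonempty}.Finite := hfin.subset fun u hu => hu.2
    rw [(h2.isClosed_biUnion fun u _ => (M.ball u).isClosed).closure_eq] at h1
    obtain ⟨i, hi, hi'⟩ := mem_iUnion₂.1 h1
    exact mem_biUnion hi.1 hi'
  · intro z hz
    refine ⟨subset_closure hz, ?_⟩
    obtain ⟨i, -, hi⟩ := mem_iUnion₂.1 hz
    exact cell_subset M i hi

/-- cells meeting a preconnected subset of `F` are joined through such cells -/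
theorem joined_of_preconn {S : Set E} (hS : IsPreconnected S) (hSF : S ⊆ F) {v w : V}
    (hv : (R v ∩ S).Nonempty) (hw : (R w ∩ S).Nonempty) :
    HOne.Joined (Nb R) {u | (R u ∩ S).Nonempty} v w := by
  by_contra hnot
  let C : Set V := {u | HOne.Joined (Nb R) {u | (R u ∩ S).Nonempty} v u}
  let C' : Set V := {u | (R u ∩ S).Nonempty ∧ u ∉ C}
  rw [isPreconnected_closed_iff] at hS
  have hcov : S ⊆ closure (⋃ u ∈ C, R u) ∪ closure (⋃ u ∈ C', R u) := by
    intro p hp
    obtain ⟨u, hu⟩ := exists_cell M (hSF hp)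
    by_cases huC : u ∈ C
    · exact Or.inl (subset_closure (mem_biUnion huC hu))
    · exact Or.inr (subset_closure (mem_biUnion (show u ∈ C' from ⟨⟨p, hu, hp⟩, huC⟩) hu))
  obtain ⟨p₁, hp₁, hp₁'⟩ := hv
  obtain ⟨p₂, hp₂, hp₂'⟩ := hw
  have hvC : v ∈ C := HOne.Joined.refl ⟨p₁, hp₁, hp₁'⟩
  have hwC : w ∈ C' := ⟨⟨p₂, hp₂, hp₂'⟩, hnot⟩
  obtain ⟨p, hpS, hp, hp'⟩ := hS _ _ isClosed_closure isClosed_closure hcov
    ⟨p₁, hp₁', subset_closure (mem_biUnion hvC hp₁)⟩
    ⟨p₂, hp₂', subset_closure (mem_biUnion hwC hp₂)⟩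
  have h1 : p ∈ ⋃ u ∈ C, R u := by
    rw [← closure_inter M C]; exact ⟨hp, hSF hpS⟩
  have h2 : p ∈ ⋃ u ∈ C', R u := by
    rw [← closure_inter M C']; exact ⟨hp', hSF hpS⟩
  obtain ⟨u, hu, hpu⟩ := mem_iUnion₂.1 h1
  obtain ⟨u', hu', hpu'⟩ := mem_iUnion₂.1 h2
  refine hu'.2 ?_
  have h3 := (joined_at M hpu hpu').mono
    (show {u | p ∈ R u} ⊆ {u | (R u ∩ S).Nonempty} from fun x hx => ⟨p, hx, hpS⟩)
  have hu2 : HOne.Joined (Nb R) {u | (R u ∩ S).Nonempty} v u := hu
  exact hu2.trans h3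

/-- removing a subset of the boundaries of the cells from a connected union of cells -/
theorem preconn_diff {G : Set V} (hG : Conn (Nb R) G) {Φ : Set E}
    (h1 : ∀ v ∈ G, R v ∩ Φ ⊆ bd v)
    (h2 : ∀ v ∈ G, ∀ w ∈ G, v ≠ w → Nb R v w → ((R v ∩ R w) \ Φ).Nonempty) :
    IsPreconnected (⋃ v ∈ G, R v \ Φ) := by
  refine IsPreconnected.biUnion_of_reflTransGen (fun v hv => ?_) ?_
  · refine (preconn_int (M.ball v)).subset_closure ?_ ?_
    · rintro x ⟨hx, hxb⟩
      exact ⟨hx, fun hΦ => hxb (h1 v hv ⟨hx, hΦ⟩)⟩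
    · exact sdiff_subset.trans (subset_closure_int (M.ball v))
  · intro v hv w hw
    obtain ⟨-, h3⟩ := hG v hv w hw
    -- carry the membership of the starting point along the chain
    have key : ∀ x, Relation.ReflTransGen (fun u v => v ∈ G ∧ Nb R u v) v x →
        x ∈ G ∧ Relation.ReflTransGen
          (fun i j => ((R i \ Φ) ∩ (R j \ Φ)).Nonempty ∧ i ∈ G) v x := by
      intro x hx
      induction hx with
      | refl => exact ⟨hv, Relation.ReflTransGen.refl⟩
      | @tail b c _ h4 ih =>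
        refine ⟨h4.1, ih.2.tail ⟨?_, ih.1⟩⟩
        by_cases hbc : b = c
        · subst hbc
          obtain ⟨x, hx, hxb⟩ := int_nonempty (M.ball b)
          have : x ∈ R b \ Φ := ⟨hx, fun hΦ => hxb (h1 b ih.1 ⟨hx, hΦ⟩)⟩
          exact ⟨x, this, this⟩
        · obtain ⟨x, ⟨hx, hx'⟩, hxΦ⟩ := h2 b ih.1 c h4.1 hbc h4.2
          exact ⟨x, ⟨hx, hxΦ⟩, hx', hxΦ⟩
    exact (key w h3).2

/-! ### windows -/

/-- the cells inside the disc `D` with boundary `B` -/
def win (_ : Mosaic F R bd) (D B : Set E) : Set V := {v | R v ⊆ D \ B}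

theorem finite_of_compact {K : Set E} (hK : IsCompact K) (hKF : K ⊆ F) :
    {v | (R v ∩ K).Nonempty}.Finite := by
  choose! U hU hUfin using M.fin
  obtain ⟨t, ht, hcov⟩ := hK.elim_nhds_subcover U fun z hz => hU z (hKF hz)
  refine (t.finite_toSet.biUnion fun z hz => hUfin z (hKF (ht z hz))).subset ?_
  rintro v ⟨z, hz, hzK⟩
  obtain ⟨x, hx, hzx⟩ := mem_iUnion₂.1 (hcov hzK)
  exact mem_biUnion hx ⟨z, hz, hzx⟩

theorem cell_nonempty (v : V) : (R v).Nonempty := (nontrivial_disc (M.ball v)).nonempty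

theorem win_finite {D B : Set E} (h : SurfDisc F D B) : (win M D B).Finite :=
  (finite_of_compact M h.1.isCompact h.2.1).subset fun v hv => by
    obtain ⟨x, hx⟩ := cell_nonempty M v
    exact ⟨x, hx, (hv hx).1⟩

theorem win_comp {D B : Set E} (h : SurfDisc F D B) {v w : V} (hv : v ∈ win M D B)
    (hw : w ∈ win M D B) : HOne.Joined (Nb R) univ v w := by
  obtain ⟨x, hx⟩ := cell_nonempty M v
  obtain ⟨y, hy⟩ := cell_nonempty M w
  exact (joined_of_preconn M (preconn_ball h.1) h.2.1 ⟨x, hx, (hv hx).1⟩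
    ⟨y, hy, (hw hy).1⟩).mono (subset_univ _)

omit M in
/-- a preconnected subset of `F` missing the boundary curve is inside or outside -/
theorem _root_.P073.SurfDisc.in_or_out {F D B : Set E} (h : SurfDisc F D B) {Z : Set E}
    (hZ : IsPreconnected Z) (hZF : Z ⊆ F) (hZB : Disjoint Z B) : Z ⊆ D \ B ∨ Disjoint Z D := by
  obtain ⟨hball, hDF, U, hU, hUD⟩ := h
  have hcov : Z ⊆ U ∪ Dᶜ := by
    intro x hx
    by_cases hxD : x ∈ D
    · have : x ∈ D \ B := ⟨hxD, fun hB => disjoint_left.1 hZB hx hB⟩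
      rw [hUD] at this
      exact Or.inl this.2
    · exact Or.inr hxD
  by_cases hne : (Z ∩ Dᶜ).Nonempty
  · right
    rw [disjoint_left]
    intro x hx hxD
    have hxU : x ∈ U := by
      have : x ∈ D \ B := ⟨hxD, fun hB => disjoint_left.1 hZB hx hB⟩
      rw [hUD] at this
      exact this.2
    obtain ⟨y, hy, hyU, hyD⟩ := hZ U Dᶜ hU hball.isClosed.isOpen_compl hcov ⟨x, hx, hxU⟩ hne
    have : y ∈ D \ B := by rw [hUD]; exact ⟨hZF hy, hyU⟩
    exact hyD this.1
  · left
    intro x hx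
    refine ⟨?_, fun hB => disjoint_left.1 hZB hx hB⟩
    by_contra hxD
    exact hne ⟨x, hx, hxD⟩

/-- a cell in the component of a window, off the window, is joined off the window to a cell
meeting the boundary of the window -/
theorem win_joined_bdry {D B : Set E} (h : SurfDisc F D B) {x w : V} (hx : x ∉ win M D B)
    (hw : w ∈ win M D B) (hxw : HOne.Joined (Nb R) univ x w) :
    ∃ u, HOne.Joined (Nb R) (win M D B)ᶜ x u ∧ (R u ∩ B).Nonempty := by
  obtain ⟨-, h1⟩ := hxw
  -- the chain up to its first cell in the window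
  have key : ∀ y, Relation.ReflTransGen (fun u v => v ∈ (univ : Set V) ∧ Nb R u v) x y →
      (∃ u, HOne.Joined (Nb R) (win M D B)ᶜ x u ∧ (R u ∩ B).Nonempty) ∨
        HOne.Joined (Nb R) (win M D B)ᶜ x y := by
    intro y hy
    induction hy with
    | refl => exact Or.inr (HOne.Joined.refl hx)
    | @tail b c _ h2 ih =>
      rcases ih with ih | ih
      · exact Or.inl ih
      · by_cases hc : c ∈ win M D B
        · left
          refine ⟨b, ih, ?_⟩
          have hb : b ∉ win M D B := ih.right_mem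
          by_contra hne
          have hd : Disjoint (R b) B := by
            rw [disjoint_left]
            exact fun z hz hzB => hne ⟨z, hz, hzB⟩
          rcases h.in_or_out (preconn_ball (M.ball b)) (cell_subset M b) hd with h3 | h3
          · exact hb h3
          · obtain ⟨z, hz⟩ := h2.2.nonempty
            exact disjoint_left.1 h3 hz.1 (hc hz.2).1
        · exact Or.inr (ih.trans (HOne.Joined.single ih.right_mem hc h2.2))
  rcases key w h1 with h2 | h2
  · exact h2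
  · exact absurd hw h2.right_mem

theorem win_cconn {D B : Set E} (h : SurfDisc F D B) {x y w : V} (hx : x ∉ win M D B)
    (hy : y ∉ win M D B) (hw : w ∈ win M D B) (hxw : HOne.Joined (Nb R) univ x w)
    (hyw : HOne.Joined (Nb R) univ y w) : HOne.Joined (Nb R) (win M D B)ᶜ x y := by
  obtain ⟨u, hu, hu'⟩ := win_joined_bdry M h hx hw hxw
  obtain ⟨v, hv, hv'⟩ := win_joined_bdry M h hy hw hyw
  have hBF : B ⊆ F := h.1.1.trans h.2.1
  have h1 := (joined_of_preconn M (preconn_circle h.1.conSphere) hBF hu' hv').mono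
    (show {u | (R u ∩ B).Nonempty} ⊆ (win M D B)ᶜ from fun z hz hzw => by
      obtain ⟨p, hp, hpB⟩ := hz
      exact (hzw hp).2 hpB)
  exact hu.trans (h1.trans (hv.symm fun _ _ => Nb.symm))

end P073.PT
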