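import Vale.Agent.P073.H773.HOne
import Mathlib.Data.Set.Finite.Lattice

/-!
# P073, block PT1 : hulls of tiles

`A` is a reflexive symmetric relation on `V` (adjacency of the cells of a surface).  `T v` is the
tile of `v` (a connected set; the tiles form a partition).  `far v` is the component of the
complement of `T v` containing the complement of the window `W v`; `hull v` is its complement.
-/

namespace Vale.Agent.P073.PT

open HOne Set

variable {V : Type*}

/-- Tiles with windows.  (`Joined A Set.univ v w`: `v` and `w` are in the same component.) -/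
structure Tiling (A : V → V → Prop) (T W : V → Set V) : Prop where
  refl : ∀ x, A x x
  symm : ∀ x y, A x y → A y x
  mem : ∀ v, v ∈ T v
  eq : ∀ v w, w ∈ T v → T w = T v
  conn : ∀ v, Conn A (T v)
  sub : ∀ v, T v ⊆ W v
  wcomp : ∀ v, ∀ w ∈ W v, Joined A Set.univ v w
  cconn : ∀ v, ∀ x ∉ W v, ∀ y ∉ W v, Joined A Set.univ v x → Joined A Set.univ v y →
    Joined A (W v)ᶜ x y
  two : ∀ v w, Joined A Set.univ v w → ∃ z, z ∉ W v ∧ z ∉ W w ∧ Joined A Set.univ v z
  fin : ∀ v, {w | v ∈ W w}.Finite
  wcongr : ∀ v w, w ∈ T v → W w = W v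

/-- the far component -/
def far (A : V → V → Prop) (T W : V → Set V) (v : V) : Set V :=
  {u | ∃ z ∈ (W v)ᶜ, Joined A (T v)ᶜ z u}

/-- the tile with its holes filled in -/
def hull (A : V → V → Prop) (T W : V → Set V) (v : V) : Set V := (far A T W v)ᶜ

namespace Tiling

variable {A : V → V → Prop} {T W : V → Set V} (h : Tiling A T W)
include h

theorem compl_sub_far (v : V) : (W v)ᶜ ⊆ far A T W v := fun z hz =>
  ⟨z, hz, Joined.refl fun h' => hz (h.sub v h')⟩

omit h in
theorem tile_sub_hull (v : V) : T v ⊆ hull A T W v := by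
  rintro u hu ⟨z, _, hzu⟩
  exact hzu.right_mem hu

theorem hull_sub (v : V) : hull A T W v ⊆ W v := fun u hu => by
  by_contra h'
  exact hu (h.compl_sub_far v h')

theorem mem_hull (v : V) : v ∈ hull A T W v := tile_sub_hull v (h.mem v)

theorem far_congr {v w : V} (hw : w ∈ T v) : far A T W w = far A T W v := by
  unfold far
  rw [h.eq v w hw, h.wcongr v w hw]

theorem hull_congr {v w : V} (hw : w ∈ T v) : hull A T W w = hull A T W v := by
  unfold hull; rw [h.far_congr hw]

omit h in
/-- a chain starting in the component of `v` stays in it -/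
theorem joined_inter {v x y : V} {S : Set V} (hxy : Joined A S x y)
    (hvx : Joined A Set.univ v x) : Joined A (S ∩ {u | Joined A Set.univ v u}) x y := by
  obtain ⟨h0, h1⟩ := hxy
  induction h1 with
  | refl => exact Joined.refl ⟨h0, hvx⟩
  | tail _ h2 ih =>
    have h3 := ih.right_mem
    exact ih.trans (Joined.single h3 ⟨h2.1, h3.2.trans
      (Joined.single (mem_univ _) (mem_univ _) h2.2)⟩ h2.2)

omit h in
theorem far_step {v u w : V} (hu : u ∈ far A T W v) (hw : w ∉ T v) (huw : A u w) :
    w ∈ far A T W v := by
  obtain ⟨z, hz, hzu⟩ := hu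
  exact ⟨z, hz, hzu.trans (Joined.single hzu.right_mem hw huw)⟩

omit h in
theorem joined_far {v z u : V} (hz : z ∈ far A T W v) (hzu : Joined A (T v)ᶜ z u) :
    Joined A (far A T W v) z u := by
  obtain ⟨h0, h1⟩ := hzu
  induction h1 with
  | refl => exact Joined.refl hz
  | tail _ h2 ih =>
    exact ih.trans (Joined.single ih.right_mem (far_step ih.right_mem h2.1 h2.2) h2.2)

/-- the far cells of the component of `v` are connected -/
theorem conn_far (v : V) : Conn A (far A T W v ∩ {u | Joined A Set.univ v u}) := by
  intro x hx y hy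
  obtain ⟨⟨z, hz, hzx⟩, hvx⟩ := hx
  obtain ⟨⟨z', hz', hzy⟩, hvy⟩ := hy
  have h1 := joined_far (h.compl_sub_far v hz) hzx
  have h2 := joined_far (h.compl_sub_far v hz') hzy
  have e1 : Joined A Set.univ v z := hvx.trans ((hzx.mono (subset_univ _)).symm h.symm)
  have e2 : Joined A Set.univ v z' := hvy.trans ((hzy.mono (subset_univ _)).symm h.symm)
  have h3 : Joined A (far A T W v) z z' :=
    (h.cconn v z hz z' hz' e1 e2).mono (h.compl_sub_far v)
  have h4 : Joined A (far A T W v) x y := (h1.symm h.symm).trans (h3.trans h2)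
  exact joined_inter h4 hvx

/-- a point of the hull next to a far point is in the tile -/
theorem front {v x y : V} (hx : x ∈ hull A T W v) (hy : y ∈ far A T W v) (hxy : A x y) :
    x ∈ T v := by
  by_contra h'
  exact hx (far_step hy h' (h.symm _ _ hxy))

theorem not_front {v x y : V} (hx : x ∈ hull A T W v) (hx' : x ∉ T v) (hxy : A x y) :
    y ∈ hull A T W v := fun hy => hx' (h.front hx hy hxy)

theorem joined_hull {v u : V} (hu : u ∈ hull A T W v) : Joined A (hull A T W v) u v := by
  obtain ⟨_, h1⟩ := (h.wcomp v u (h.hull_sub v hu)).symm h.symm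
  -- walk towards `v` until the tile is reached
  have key : ∀ x, Relation.ReflTransGen (fun u v => v ∈ (Set.univ : Set V) ∧ A u v) x v →
      x ∈ hull A T W v → Joined A (hull A T W v) x v := by
    intro x hx
    induction hx using Relation.ReflTransGen.head_induction_on with
    | refl => exact fun hx => Joined.refl hx
    | @head a c h2 h3 ih =>
      intro ha
      by_cases hat : a ∈ T v
      · exact ((h.conn v a hat v (h.mem v)).mono (tile_sub_hull v))
      · have hc := h.not_front ha hat h2.2
        exact (Joined.single ha hc h2.2).trans (ih hc)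
  exact key u h1 hu

theorem conn_hull (v : V) : Conn A (hull A T W v) := fun _ hx _ hy =>
  (h.joined_hull hx).trans ((h.joined_hull hy).symm h.symm)

theorem conn_hull_compl (v : V) : Conn A ((hull A T W v)ᶜ ∩ {u | Joined A Set.univ v u}) := by
  unfold hull
  rw [compl_compl]
  exact h.conn_far v

omit h in
/-- a connected set disjoint from the tile with a far point is far -/
theorem sub_far {v : V} {S : Set V} (hS : Conn A S) (hd : Disjoint S (T v)) {z : V} (hz : z ∈ S)
    (hz' : z ∈ far A T W v) : S ⊆ far A T W v := by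
  intro u hu
  have h1 := hS z hz u hu
  exact (joined_far hz' (h1.mono fun x hx hx' => Set.disjoint_left.1 hd hx hx')).right_mem

theorem conn_union {S S' : Set V} (hS : Conn A S) (hS' : Conn A S') {x y : V} (hx : x ∈ S)
    (hy : y ∈ S') (hxy : A x y) : Conn A (S ∪ S') := by
  have h1 : ∀ z ∈ S ∪ S', Joined A (S ∪ S') z x := by
    rintro z (hz | hz)
    · exact (hS z hz x hx).mono subset_union_left
    · have := (hS' z hz y hy).mono (subset_union_right (s := S))
      exact this.trans (Joined.single (Or.inr hy) (Or.inl hx) (h.symm _ _ hxy))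
  exact fun z hz w hw => (h1 z hz).trans ((h1 w hw).symm h.symm)

/-- a tile disjoint from another one -/
theorem disj {v w : V} (hvw : w ∉ T v) : Disjoint (T v) (T w) := by
  rw [Set.disjoint_left]
  intro x hx hx'
  have h1 := h.eq v x hx
  have h2 := h.eq w x hx'
  apply hvw
  rw [← h1, h2]
  exact h.mem w

/-- **Laminarity**. -/
theorem laminar (v w : V) : Disjoint (hull A T W v) (hull A T W w) ∨
    hull A T W v ⊆ hull A T W w ∨ hull A T W w ⊆ hull A T W v := by
  classical
  by_cases hvw : w ∈ T v
  · right; left
    rw [h.hull_congr hvw]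
  by_cases hcomp : Joined A Set.univ v w
  swap
  · left
    rw [Set.disjoint_left]
    intro x hx hx'
    exact hcomp ((h.wcomp v x (h.hull_sub v hx)).trans
      ((h.wcomp w x (h.hull_sub w hx')).symm h.symm))
  have hwv : v ∉ T w := fun h' => hvw (by
    have := h.eq w v h'
    rw [this]
    exact h.mem w)
  have hd := h.disj hvw
  -- case : the tile of `w` is in a hole of the tile of `v`
  have key : ∀ v w : V, Joined A Set.univ v w → w ∉ T v → v ∉ T w → w ∈ hull A T W v →
      hull A T W w ⊆ hull A T W v := by
    intro v w hcomp hvw hwv hw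
    have hd := h.disj hvw
    have hTw : T w ⊆ hull A T W v := by
      intro x hx hx'
      have := sub_far (h.conn w) hd.symm hx hx'
      exact hw (this (h.mem w))
    -- the far part of the component is connected and disjoint from `T w`
    obtain ⟨z, hz1, hz2, hz3⟩ := h.two v w hcomp
    have hfz : z ∈ far A T W v := h.compl_sub_far v hz1
    have hfz' : z ∈ far A T W w := h.compl_sub_far w hz2
    have hfar : far A T W v ∩ {u | Joined A Set.univ v u} ⊆ far A T W w := by
      refine sub_far (h.conn_far v) ?_ ⟨hfz, hz3⟩ hfz'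
      rw [Set.disjoint_left]
      exact fun x hx hx' => hTw hx' hx.1
    intro x hx hx'
    exact hx (hfar ⟨hx', hcomp.trans (h.wcomp w x (h.hull_sub w hx))⟩)
  by_cases h1 : w ∈ hull A T W v
  · right; right; exact key v w hcomp hvw hwv h1
  by_cases h2 : v ∈ hull A T W w
  · right; left; exact key w v (hcomp.symm h.symm) hwv hvw h2
  left
  have h1' : w ∈ far A T W v := by
    by_contra h'; exact h1 h'
  have h2' : v ∈ far A T W w := by
    by_contra h'; exact h2 h'
  -- the hull of `v` is connected, disjoint from `T w`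
  have h3 : T w ⊆ far A T W v := sub_far (h.conn w) hd.symm (h.mem w) h1'
  have h4 : hull A T W v ⊆ far A T W w := by
    refine sub_far (h.conn_hull v) ?_ (h.mem_hull v) h2'
    rw [Set.disjoint_left]
    exact fun x hx hx' => hx (h3 hx')
  rw [Set.disjoint_left]
  exact fun x hx hx' => hx' (h4 hx)

/-- `w` gives a maximal hull. -/
def Max (_ : Tiling A T W) (w : V) : Prop :=
  ∀ u, hull A T W w ⊆ hull A T W u → hull A T W u = hull A T W w

theorem exists_max (v : V) : ∃ w, v ∈ hull A T W w ∧ h.Max w := by
  classical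
  have hf : {w | v ∈ hull A T W w}.Finite := (h.fin v).subset fun w hw => h.hull_sub w hw
  obtain ⟨w, hw, hmax⟩ := hf.exists_maximalFor (fun w => hull A T W w) _ ⟨v, h.mem_hull v⟩
  refine ⟨w, hw, fun u hu => ?_⟩
  have hu' : u ∈ {w | v ∈ hull A T W w} := hu hw
  exact le_antisymm (hmax hu' hu) hu

/-- a representative of the maximal hull containing `v` -/
noncomputable def top (v : V) : V := (h.exists_max v).choose

theorem mem_top (v : V) : v ∈ hull A T W (h.top v) := (h.exists_max v).choose_spec.1

theorem max_top (v : V) : h.Max (h.top v) := (h.exists_max v).choose_spec.2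

/-- the maximal hull containing `v` -/
noncomputable def H (v : V) : Set V := hull A T W (h.top v)

theorem mem_H (v : V) : v ∈ h.H v := h.mem_top v

theorem max_eq {v w x : V} (hv : h.Max v) (hw : h.Max w) (hx : x ∈ hull A T W v)
    (hx' : x ∈ hull A T W w) : hull A T W v = hull A T W w := by
  rcases h.laminar v w with h1 | h1 | h1
  · exact absurd hx' (Set.disjoint_left.1 h1 hx)
  · exact (hv w h1).symm
  · exact hw v h1

theorem H_eq {v w : V} (hw : w ∈ h.H v) : h.H w = h.H v :=
  h.max_eq (h.max_top w) (h.max_top v) (h.mem_top w) hw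

theorem H_eq_iff {v w : V} : h.H w = h.H v ↔ w ∈ h.H v :=
  ⟨fun h' => h' ▸ h.mem_H w, h.H_eq⟩

theorem hull_sub_H {v w : V} (hw : w ∈ hull A T W v) : hull A T W v ⊆ h.H w := by
  rcases h.laminar v (h.top w) with h1 | h1 | h1
  · exact absurd (h.mem_top w) (Set.disjoint_left.1 h1 hw)
  · exact h1
  · have := h.max_top w v h1
    rw [this]; exact le_rfl

/-- Two adjacent cells in different maximal hulls. -/
theorem edge {x y : V} (hxy : A x y) (hne : h.H x ≠ h.H y) :
    x ∈ T (h.top x) ∧ y ∈ T (h.top y) ∧ T x ≠ T y := by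
  have hy : y ∉ h.H x := fun h' => hne (h.H_eq h').symm
  have hx : x ∉ h.H y := fun h' => hne (h.H_eq h')
  have h1 : x ∈ T (h.top x) := h.front (h.mem_top x) (by
    by_contra h'; exact hy h') hxy
  have h2 : y ∈ T (h.top y) := h.front (h.mem_top y) (by
    by_contra h'; exact hx h') (h.symm _ _ hxy)
  refine ⟨h1, h2, fun h3 => hne ?_⟩
  have h4 : h.top y ∈ T (h.top x) := by
    have e1 := h.eq _ _ h1
    have e2 := h.eq _ _ h2
    rw [← e1, h3, e2]
    exact h.mem _
  exact (h.hull_congr h4).symm

end Tiling

end Vale.Agent.P073.PT
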