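import Vale.Agent.P073.PT.MosDisc
import Vale.Agent.P073.PT.Hull
import Mathlib.Tactic.LinearCombination

/-!
# P073, block PT : tiles and hulls in a labelled mosaic
-/

open Set Metric Topology

namespace P073.PT

open Vale.Agent.P073 Vale.Agent.P073.HOne Vale.Agent.P073.PT

/-! ### cyclic sequences -/

section cyc

variable {k : ℕ} [NeZero k] {S : Set (ZMod k)}

theorem cyc_all (h : ∀ i ∈ S, i + 1 ∈ S) {i : ZMod k} (hi : i ∈ S) (j : ZMod k) : j ∈ S := by
  have h1 : ∀ n : ℕ, i + n ∈ S := by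
    intro n
    induction n with
    | zero => simpa using hi
    | succ n ih =>
      have := h _ ih
      push_cast
      rwa [← add_assoc]
  have h2 := h1 (j - i).val
  rwa [ZMod.natCast_zmod_val, add_sub_cancel] at h2

theorem cyc_right {i j : ZMod k} (hi : i ∈ S) (hj : j ∉ S) : ∃ r ∈ S, r + 1 ∉ S := by
  by_contra hne
  push Not at hne
  exact hj (cyc_all hne hi j)

theorem cyc_left {i j : ZMod k} (hi : i ∈ S) (hj : j ∉ S) : ∃ l ∈ S, l - 1 ∉ S := by
  by_contra hne
  push Not at hne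
  have h1 : ∀ x ∈ Sᶜ, x + 1 ∈ Sᶜ := by
    intro x hx hx1
    have := hne _ hx1
    rw [add_sub_cancel_right] at this
    exact hx this
  exact cyc_all h1 (show j ∈ Sᶜ from hj) i hi

end cyc

theorem ne_two {k : ℕ} (hk : 3 ≤ k) (i : ZMod k) : i + 1 ≠ i - 1 := by
  intro h
  have h1 : ((2 : ℕ) : ZMod k) = 0 := by
    have : (2 : ZMod k) = 0 := by linear_combination h
    exact_mod_cast this
  rw [ZMod.natCast_eq_zero_iff] at h1
  have := Nat.le_of_dvd two_pos h1
  omega

theorem ne_one {k : ℕ} (hk : 3 ≤ k) (i : ZMod k) : i + 1 ≠ i := by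
  intro h
  have h1 : ((1 : ℕ) : ZMod k) = 0 := by
    have : (1 : ZMod k) = 0 := by linear_combination h
    exact_mod_cast this
  rw [ZMod.natCast_eq_zero_iff] at h1
  have := Nat.le_of_dvd one_pos h1
  omega

variable {E : Type} [NormedAddCommGroup E] [NormedSpace ℝ E]
variable {V Λ : Type} {F : Set E} {R bd : V → Set E} {L : V → Λ} {D B : V → Set E}

/-- the tile of a cell -/
def tl (R : V → Set E) (L : V → Λ) (v : V) : Set V := {w | HOne.Joined (Nb R) {u | L u = L v} v w}

/-- the window of a cell -/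
def wn (R : V → Set E) (D B : V → Set E) (v : V) : Set V := {w | R w ⊆ D v \ B v}

theorem joined_self {A : V → V → Prop} {S : Set V} {v w : V} (h : HOne.Joined A S v w) :
    HOne.Joined A {u | HOne.Joined A S v u} v w := by
  obtain ⟨h0, h1⟩ := h
  induction h1 with
  | refl => exact HOne.Joined.refl (HOne.Joined.refl h0)
  | @tail b c h1 h2 ih =>
    have hb : HOne.Joined A S v b := ⟨h0, h1⟩
    exact ih.trans (HOne.Joined.single hb
      (hb.trans (HOne.Joined.single hb.right_mem h2.1 h2.2)) h2.2)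

omit [NormedAddCommGroup E] [NormedSpace ℝ E] in
theorem tl_label {v w : V} (h : w ∈ tl R L v) : L w = L v := by
  have h' : HOne.Joined (Nb R) {u | L u = L v} v w := h
  exact h'.right_mem

omit [NormedAddCommGroup E] [NormedSpace ℝ E] in
theorem tl_eq {v w : V} (h : w ∈ tl R L v) : tl R L w = tl R L v := by
  have hl := tl_label h
  have h' : HOne.Joined (Nb R) {u | L u = L v} v w := h
  ext x
  show HOne.Joined (Nb R) {u | L u = L w} w x ↔ HOne.Joined (Nb R) {u | L u = L v} v x
  rw [hl]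
  exact ⟨fun hx => h'.trans hx, fun hx => (h'.symm fun _ _ => Nb.symm).trans hx⟩

omit [NormedAddCommGroup E] [NormedSpace ℝ E] in
/-- neighbours with the same label are in the same tile -/
theorem tl_of_nb {v x y : V} (hx : x ∈ tl R L v) (hxy : Nb R x y) (hl : L x = L y) :
    y ∈ tl R L v := by
  have h' : HOne.Joined (Nb R) {u | L u = L v} v x := hx
  exact h'.trans (HOne.Joined.single h'.right_mem
    (show L y = L v from hl.symm.trans (tl_label hx)) hxy)

/-- the hull of a tile -/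
abbrev hf (R : V → Set E) (L : V → Λ) (D B : V → Set E) (v : V) : Set V :=
  hull (Nb R) (tl R L) (wn R D B) v

variable (M : Mosaic F R bd) (hW : Windows F R L D B)
include M hW

theorem tiling : Tiling (Nb R) (tl R L) (wn R D B) where
  refl := nb_refl M
  symm := fun _ _ => Nb.symm
  mem := fun v => HOne.Joined.refl rfl
  eq := fun v w h => tl_eq h
  conn := by
    intro v x hx y hy
    have h1 : HOne.Joined (Nb R) {u | L u = L v} v x := hx
    have h2 : HOne.Joined (Nb R) {u | L u = L v} v y := hy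
    exact ((joined_self h1).symm fun _ _ => Nb.symm).trans (joined_self h2)
  sub := fun v w h => hW.sub v w h
  wcomp := by
    intro v w hw
    have hv : v ∈ win M (D v) (B v) := hW.sub v v (HOne.Joined.refl rfl)
    exact win_comp M (hW.disc v) hv hw
  cconn := by
    intro v x hx y hy hvx hvy
    have hv : v ∈ win M (D v) (B v) := hW.sub v v (HOne.Joined.refl rfl)
    exact win_cconn M (hW.disc v) hx hy hv (hvx.symm fun _ _ => Nb.symm)
      (hvy.symm fun _ _ => Nb.symm)
  two := fun v w h => hW.two v w h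
  fin := fun v => hW.fin v
  wcongr := by
    intro v w h
    obtain ⟨h1, h2⟩ := hW.congr v w h
    ext x
    show R x ⊆ D w \ B w ↔ R x ⊆ D v \ B v
    rw [h1, h2]

theorem fp_tile {v : V} {e : V × V} (he : e ∈ FP R (hf R L D B v)) :
    e.1 ∈ tl R L v ∧ L e.1 = L v ∧ L e.2 ≠ L v := by
  have h := tiling M hW
  have h1 : e.1 ∈ tl R L v := h.front he.1 (by
    by_contra h'; exact he.2.1 h') he.2.2
  refine ⟨h1, tl_label h1, fun h2 => he.2.1 ?_⟩
  exact Tiling.tile_sub_hull v (tl_of_nb h1 he.2.2 ((tl_label h1).trans h2.symm))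

variable (hL : GoodLabels R L)
include hL

theorem right_unique {v : V} {p : E} {k : ℕ} {c : ZMod k → V} (hc : LinkCycle R p k c)
    {i j : ZMod k} (hi : c i ∈ hf R L D B v) (hi' : c (i + 1) ∉ hf R L D B v) (hj : c j ∈ hf R L D B v)
    (hj' : c (j + 1) ∉ hf R L D B v) : i = j := by
  have h1 := fp_tile M hW (show (c i, c (i + 1)) ∈ FP R (hf R L D B v) from
    ⟨hi, hi', (hc.adj _ _).2 (Or.inr (Or.inl rfl))⟩)
  have h2 := fp_tile M hW (show (c j, c (j + 1)) ∈ FP R (hf R L D B v) from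
    ⟨hj, hj', (hc.adj _ _).2 (Or.inr (Or.inl rfl))⟩)
  obtain ⟨-, a1, a2⟩ := h1
  obtain ⟨-, b1, b2⟩ := h2
  simp only at a1 a2 b1 b2
  exact (hL p k c hc i j (a1.trans b1.symm)).1 (by rw [a1]; exact a2) (by rw [b1]; exact b2)

theorem left_unique {v : V} {p : E} {k : ℕ} {c : ZMod k → V} (hc : LinkCycle R p k c)
    {i j : ZMod k} (hi : c i ∈ hf R L D B v) (hi' : c (i - 1) ∉ hf R L D B v) (hj : c j ∈ hf R L D B v)
    (hj' : c (j - 1) ∉ hf R L D B v) : i = j := by
  have h1 := fp_tile M hW (show (c i, c (i - 1)) ∈ FP R (hf R L D B v) from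
    ⟨hi, hi', (hc.adj _ _).2 (Or.inr (Or.inr (by ring)))⟩)
  have h2 := fp_tile M hW (show (c j, c (j - 1)) ∈ FP R (hf R L D B v) from
    ⟨hj, hj', (hc.adj _ _).2 (Or.inr (Or.inr (by ring)))⟩)
  obtain ⟨-, a1, a2⟩ := h1
  obtain ⟨-, b1, b2⟩ := h2
  simp only at a1 a2 b1 b2
  exact (hL p k c hc i j (a1.trans b1.symm)).2 (by rw [a1]; exact a2) (by rw [b1]; exact b2)

omit hW hL in
/-- the link cycle at a vertex of an arc -/
theorem exists_cycle {e : V × V} {p : E} (hne : e.1 ≠ e.2) (hp : Vtx R e p) :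
    ∃ k, ∃ c : ZMod k → V, LinkCycle R p k c := by
  rcases M.link e.1 e.2 hne p hp.1 with ⟨-, h1⟩ | h1
  · exfalso
    obtain ⟨u, hu1, hu2, hu3⟩ := hp.2
    rcases h1 u hu3 with h | h
    · exact hu1 h
    · exact hu2 h
  · exact h1

omit [NormedAddCommGroup E] [NormedSpace ℝ E] M hW hL in
theorem vtx_cycle {p : E} {k : ℕ} {c : ZMod k → V} (hc : LinkCycle R p k c) {i j : ZMod k}
    (h : j = i + 1 ∨ j = i - 1) : Vtx R (c i, c j) p := by
  refine ⟨⟨(hc.mem _).2 ⟨i, rfl⟩, (hc.mem _).2 ⟨j, rfl⟩⟩, ?_⟩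
  rcases h with rfl | rfl
  · refine ⟨c (i - 1), fun h => ?_, fun h => ?_, (hc.mem _).2 ⟨_, rfl⟩⟩
    · have := hc.inj h
      refine ne_one hc.three (i - 1) ?_
      rw [sub_add_cancel]; exact this.symm
    · exact ne_two hc.three i (hc.inj h).symm
  · refine ⟨c (i + 1), fun h => ?_, fun h => ?_, (hc.mem _).2 ⟨_, rfl⟩⟩
    · exact ne_one hc.three i (hc.inj h)
    · exact ne_two hc.three i (hc.inj h)

/-- the frontier of the hull of a tile is regular -/
theorem reg_hull (v : V) : Reg R (hf R L D B v) := by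
  intro e he p hp
  obtain ⟨k, c, hc⟩ := exists_cycle M (fp_ne he) hp
  have hk : NeZero k := LinkCycle.neZero hc
  obtain ⟨i, hi⟩ := (hc.mem _).1 hp.1.1
  obtain ⟨j, hj⟩ := (hc.mem _).1 hp.1.2
  have hS1 : i ∈ {i | c i ∈ hf R L D B v} := by show c i ∈ hf R L D B v; rw [hi]; exact he.1
  have hS2 : j ∉ {i | c i ∈ hf R L D B v} := fun h => he.2.1 (by rw [← hj]; exact h)
  obtain ⟨r, hr, hr'⟩ := cyc_right hS1 hS2
  obtain ⟨l, hl1, hl2⟩ := cyc_left hS1 hS2
  have key : ∀ e'' ∈ FP R (hf R L D B v), Vtx R e'' p → e'' = (c r, c (r + 1)) ∨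
      e'' = (c l, c (l - 1)) := by
    intro e'' he'' hp''
    obtain ⟨m, hm⟩ := (hc.mem _).1 hp''.1.1
    obtain ⟨m', hm'⟩ := (hc.mem _).1 hp''.1.2
    have hadj : Nb R (c m) (c m') := by rw [hm, hm']; exact he''.2.2
    have h1 : c m ∈ hf R L D B v := by rw [hm]; exact he''.1
    have h2 : c m' ∉ hf R L D B v := by rw [hm']; exact he''.2.1
    rcases (hc.adj _ _).1 hadj with h | h | h
    · exact absurd (h ▸ h1) h2
    · left
      subst h
      have := right_unique M hW hL hc h1 h2 hr hr'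
      subst this
      exact Prod.ext hm.symm hm'.symm
    · right
      have h3 : m' = m - 1 := by rw [h]; ring
      subst h3
      have := left_unique M hW hL hc h1 h2 hl1 hl2
      subst this
      exact Prod.ext hm.symm hm'.symm
  have hR : (c r, c (r + 1)) ∈ FP R (hf R L D B v) := ⟨hr, hr', (hc.adj _ _).2 (Or.inr (Or.inl rfl))⟩
  have hLf : (c l, c (l - 1)) ∈ FP R (hf R L D B v) :=
    ⟨hl1, hl2, (hc.adj _ _).2 (Or.inr (Or.inr (by ring)))⟩
  have hne : (c r, c (r + 1)) ≠ (c l, c (l - 1)) := by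
    intro h
    have h1 := hc.inj (congrArg Prod.fst h)
    have h2 := hc.inj (congrArg Prod.snd h)
    subst h1
    exact ne_two hc.three r h2
  rcases key e he hp with h | h
  · refine ⟨_, hLf, fun h' => hne (h.symm.trans h'.symm), vtx_cycle hc (Or.inr rfl), ?_⟩
    intro e'' he'' hp''
    rcases key e'' he'' hp'' with h1 | h1
    · exact Or.inl (h1.trans h.symm)
    · exact Or.inr h1
  · refine ⟨_, hR, fun h' => hne (h'.trans h), vtx_cycle hc (Or.inl rfl), ?_⟩
    intro e'' he'' hp''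
    rcases key e'' he'' hp'' with h1 | h1
    · exact Or.inr h1
    · exact Or.inl (h1.trans h.symm)

/-- at a vertex which is not interior to the hull, the hull consists of the cells with the label of
the tile -/
theorem hull_iff_label {v : V} {p : E} {k : ℕ} {c : ZMod k → V} (hc : LinkCycle R p k c)
    {i₀ j₀ : ZMod k} (hi₀ : c i₀ ∈ hf R L D B v) (hj₀ : c j₀ ∉ hf R L D B v) (i : ZMod k) :
    c i ∈ hf R L D B v ↔ L (c i) = L v := by
  have hk : NeZero k := LinkCycle.neZero hc
  let S : Set (ZMod k) := {i | c i ∈ hf R L D B v}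
  let P : Set (ZMod k) := {i | L (c i) = L v}
  obtain ⟨r, hr, hr'⟩ := cyc_right (S := S) hi₀ hj₀
  obtain ⟨l, hl1, hl2⟩ := cyc_left (S := S) hi₀ hj₀
  obtain ⟨-, r1, r2⟩ := fp_tile M hW (show (c r, c (r + 1)) ∈ FP R (hf R L D B v) from
    ⟨hr, hr', (hc.adj _ _).2 (Or.inr (Or.inl rfl))⟩)
  obtain ⟨-, l1, l2⟩ := fp_tile M hW (show (c l, c (l - 1)) ∈ FP R (hf R L D B v) from
    ⟨hl1, hl2, (hc.adj _ _).2 (Or.inr (Or.inr (by ring)))⟩)
  simp only at r1 r2 l1 l2
  constructor
  · intro hi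
    by_contra hiP
    -- right end of `S \ P`
    obtain ⟨q, ⟨hqS, hqP⟩, hq1⟩ := cyc_right (S := S \ P) (i := i) (j := l) ⟨hi, hiP⟩
      (fun h => h.2 l1)
    by_cases h1 : q + 1 ∈ S
    · have h2 : L (c (q + 1)) = L v := by
        by_contra h3; exact hq1 ⟨h1, h3⟩
      have h4 : q + 1 = l := by
        refine (hL p k c hc (q + 1) l (h2.trans l1.symm)).2 ?_ ?_
        · rw [add_sub_cancel_right, h2]; exact hqP
        · rw [l1]; exact l2
      apply hl2
      have h5 : l - 1 = q := by rw [← h4]; ring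
      rw [h5]; exact hqS
    · have := right_unique M hW hL hc hqS h1 hr hr'
      subst this
      exact hqP r1
  · intro hi
    by_contra hiS
    obtain ⟨q, ⟨hqP, hqS⟩, hq1⟩ := cyc_right (S := P \ S) (i := i) (j := l) ⟨hi, hiS⟩
      (fun h => h.2 hl1)
    by_cases h1 : q + 1 ∈ P
    · have h2 : c (q + 1) ∈ hf R L D B v := by
        by_contra h3; exact hq1 ⟨h1, h3⟩
      have h4 : q + 1 = l := by
        refine left_unique M hW hL hc h2 ?_ hl1 hl2
        rw [add_sub_cancel_right]; exact hqS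
      apply l2
      have h5 : l - 1 = q := by rw [← h4]; ring
      rw [h5]; exact hqP
    · have h4 : q = r := by
        refine (hL p k c hc q r ((show L (c q) = L v from hqP).trans r1.symm)).1 ?_ ?_
        · rw [show L (c q) = L v from hqP]; exact h1
        · rw [r1]; exact r2
      subst h4
      exact hqS hr

end P073.PT
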