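import Vale.Agent.P073.PT.Sector773
import Vale.Agent.P073.PT.Spec

/-!
# P073, block PT/SUBDIV: star subdivision of special cells
-/

open Set Metric Topology Filter

namespace P073.PT

variable {E : Type} [NormedAddCommGroup E] [NormedSpace ℝ E]

/-- cycles of length three from three pairwise adjacent cells -/
theorem linkCycle_three {V : Type*} {R : V → Set E} {p : E} {u₀ u₁ u₂ : V} (h01 : u₀ ≠ u₁)
    (h12 : u₁ ≠ u₂) (h02 : u₀ ≠ u₂) (hmem : ∀ v, p ∈ R v ↔ v = u₀ ∨ v = u₁ ∨ v = u₂)
    (n01 : (R u₀ ∩ R u₁).Nontrivial) (n12 : (R u₁ ∩ R u₂).Nontrivial)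
    (n02 : (R u₀ ∩ R u₂).Nontrivial) : ∃ c : ZMod 3 → V, LinkCycle R p 3 c := by
  let c : Fin 3 → V := ![u₀, u₁, u₂]
  have hself : ∀ u w : V, (R u ∩ R w).Nontrivial → (R u ∩ R u).Nontrivial := fun u w h =>
    h.mono fun x hx => ⟨hx.1, hx.1⟩
  have hcomm : ∀ u w : V, (R u ∩ R w).Nontrivial → (R w ∩ R u).Nontrivial := fun u w h => by
    rwa [inter_comm]
  have hall : ∀ i j : Fin 3, (R (c i) ∩ R (c j)).Nontrivial := by
    intro i j
    fin_cases i <;> fin_cases j
    · exact hself _ _ n01
    · exact n01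
    · exact n02
    · exact hcomm _ _ n01
    · exact hself _ _ n12
    · exact n12
    · exact hcomm _ _ n02
    · exact hcomm _ _ n12
    · exact hself _ _ (hcomm _ _ n12)
  refine ⟨c, ⟨le_rfl, ?_, ?_, ?_⟩⟩
  · intro i j hij
    change Fin 3 at i j
    fin_cases i <;> fin_cases j
    · rfl
    · exact absurd hij h01
    · exact absurd hij h02
    · exact absurd hij.symm h01
    · rfl
    · exact absurd hij h12
    · exact absurd hij.symm h02
    · exact absurd hij.symm h12
    · rfl
  · intro v
    rw [hmem]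
    constructor
    · rintro (h | h | h)
      · exact ⟨(0 : Fin 3), h.symm⟩
      · exact ⟨(1 : Fin 3), h.symm⟩
      · exact ⟨(2 : Fin 3), h.symm⟩
    · rintro ⟨i, hi⟩
      change Fin 3 at i
      fin_cases i
      · exact Or.inl hi.symm
      · exact Or.inr (Or.inl hi.symm)
      · exact Or.inr (Or.inr hi.symm)
  · intro i j
    have h : ∀ i j : ZMod 3, j = i ∨ j = i + 1 ∨ i = j + 1 := by decide
    exact ⟨fun _ => h i j, fun _ => hall i j⟩

theorem _root_.P073.LinkCycle.three_of_mem {V : Type*} {R : V → Set E} {p : E} {c : ZMod 3 → V}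
    (h : LinkCycle R p 3 c) {s : V} (hs : p ∈ R s) : ∃ v u, v ≠ s ∧ u ≠ s ∧ v ≠ u ∧
      (∀ w, p ∈ R w ↔ w = s ∨ w = v ∨ w = u) ∧ (R s ∩ R v).Nontrivial ∧
      (R s ∩ R u).Nontrivial ∧ (R v ∩ R u).Nontrivial := by
  obtain ⟨i, rfl⟩ := (h.mem s).1 hs
  have hd : ∀ i : ZMod 3, i + 1 ≠ i ∧ i + 2 ≠ i ∧ i + 1 ≠ i + 2 := by decide
  have hall : ∀ i j : ZMod 3, j = i ∨ j = i + 1 ∨ i = j + 1 := by decide
  have hcov : ∀ i j : ZMod 3, j = i ∨ j = i + 1 ∨ j = i + 2 := by decide
  refine ⟨c (i + 1), c (i + 2), fun he => (hd i).1 (h.inj he), fun he => (hd i).2.1 (h.inj he),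
    fun he => (hd i).2.2 (h.inj he), fun w => ?_, (h.adj _ _).2 (hall _ _),
    (h.adj _ _).2 (hall _ _), (h.adj _ _).2 (hall _ _)⟩
  rw [h.mem]
  constructor
  · rintro ⟨j, rfl⟩
    rcases hcov i j with h1 | h1 | h1 <;> rw [h1]
    · exact Or.inl rfl
    · exact Or.inr (Or.inl rfl)
    · exact Or.inr (Or.inr rfl)
  · rintro (h1 | h1 | h1)
    · exact ⟨_, h1.symm⟩
    · exact ⟨_, h1.symm⟩
    · exact ⟨_, h1.symm⟩

theorem _root_.P073.LinkCycle.eq_three {V : Type*} {R : V → Set E} {p : E} {m : ℕ}
    {c : ZMod m → V} (h : LinkCycle R p m c) {u₀ u₁ u₂ : V}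
    (hmem : ∀ v, p ∈ R v → v = u₀ ∨ v = u₁ ∨ v = u₂) : m = 3 := by
  classical
  have h3 := h.three
  haveI : NeZero m := ⟨by omega⟩
  refine le_antisymm ?_ h3
  have hmaps : ∀ i ∈ (Finset.univ : Finset (ZMod m)), c i ∈ ({u₀, u₁, u₂} : Finset V) := by
    intro i _
    have := hmem (c i) ((h.mem _).2 ⟨i, rfl⟩)
    simp only [Finset.mem_insert, Finset.mem_singleton]
    exact this
  have h1 := Finset.card_le_card_of_injOn c hmaps (fun i _ j _ hij => h.inj hij)
  rw [Finset.card_univ, ZMod.card] at h1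
  exact h1.trans Finset.card_le_three

/-- classification of the points: in at most one cell, in two neighbours, or in three pairwise
adjacent cells -/
def Cls {V : Type*} (R : V → Set E) (p : E) : Prop :=
  (∀ u u', p ∈ R u → p ∈ R u' → u = u') ∨
  (∃ u₀ u₁, u₀ ≠ u₁ ∧ (R u₀ ∩ R u₁).Nontrivial ∧ ∀ u, p ∈ R u → u = u₀ ∨ u = u₁) ∨
  ∃ u₀ u₁ u₂, u₀ ≠ u₁ ∧ u₁ ≠ u₂ ∧ u₀ ≠ u₂ ∧ (∀ v, p ∈ R v ↔ v = u₀ ∨ v = u₁ ∨ v = u₂) ∧
    (R u₀ ∩ R u₁).Nontrivial ∧ (R u₁ ∩ R u₂).Nontrivial ∧ (R u₀ ∩ R u₂).Nontrivial

theorem Cls.link {V : Type*} {R : V → Set E} {p : E} (h : Cls R p) {v w : V} (hvw : v ≠ w)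
    (hp : p ∈ R v ∩ R w) : ((R v ∩ R w).Nontrivial ∧ ∀ u, p ∈ R u → u = v ∨ u = w) ∨
      ∃ k, ∃ c : ZMod k → V, LinkCycle R p k c := by
  rcases h with h | ⟨u₀, u₁, h01, hn, h⟩ | ⟨u₀, u₁, u₂, h01, h12, h02, h, n01, n12, n02⟩
  · exact absurd (h v w hp.1 hp.2) hvw
  · left
    rcases h v hp.1 with rfl | rfl
    · rcases h w hp.2 with rfl | rfl
      · exact absurd rfl hvw
      · exact ⟨hn, h⟩
    · rcases h w hp.2 with rfl | rfl
      · exact ⟨by rwa [inter_comm], fun u hu => (h u hu).symm⟩
      · exact absurd rfl hvw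
  · exact Or.inr ⟨3, linkCycle_three h01 h12 h02 h n01 n12 n02⟩

theorem Cls.eq_three {V : Type*} {R : V → Set E} {p : E} (h : Cls R p) {m : ℕ}
    {c : ZMod m → V} (hc : LinkCycle R p m c) : m = 3 := by
  rcases h with h | ⟨u₀, u₁, -, -, h⟩ | ⟨u₀, u₁, u₂, -, -, -, h, -⟩
  · exact hc.eq_three (u₀ := c 0) (u₁ := c 0) (u₂ := c 0) fun v hv =>
      Or.inl (h v (c 0) hv ((hc.mem _).2 ⟨0, rfl⟩))
  · exact hc.eq_three (u₀ := u₀) (u₁ := u₁) (u₂ := u₁) fun v hv => by
      rcases h v hv with h | h
      · exact Or.inl h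
      · exact Or.inr (Or.inl h)
  · exact hc.eq_three fun v hv => (h v).1 hv

theorem specSubdiv : SpecSubdiv E := by
  intro V F R bd hM S hS y k A z hy hk hA hAA hAU hz1 hz2 hm3
  classical
  choose T σ hT using fun s : S => (hM.ball s).exists_sectors (hk s s.2) (hy s s.2).1 (hy s s.2).2
    (hA s s.2) (hAA s s.2) (hAU s s.2)
  have hfinz : ∀ s : S, Finite (ZMod (k s)) := fun s => by
    have := hk s s.2
    haveI : NeZero (k s) := ⟨by omega⟩
    infer_instance
  -- facts about the old mosaic
  have f1 : ∀ v w, v ≠ w → ∀ p ∈ R v, p ∈ R w → p ∈ bd v := by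
    intro v w hvw p hv hw
    rw [hM.bdry v]
    exact mem_iUnion₂.2 ⟨w, hvw.symm, hv, hw⟩
  have f2 : ∀ v, ∀ p ∈ bd v, ∃ w, w ≠ v ∧ p ∈ R w := by
    intro v p hp
    rw [hM.bdry v] at hp
    obtain ⟨w, hw, -, hpw⟩ := mem_iUnion₂.1 hp
    exact ⟨w, hw, hpw⟩
  have bdR : ∀ v, bd v ⊆ R v := fun v => (hM.ball v).1
  have f0 : ∀ v w, v ≠ w → ∀ p ∈ R v, p ∈ R w → (R v ∩ R w).Nontrivial := by
    intro v w hvw p hv hw
    rcases hM.link v w hvw p ⟨hv, hw⟩ with h | ⟨m, c, h⟩
    · exact h.1
    · have hm := hm3 p m c h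
      subst hm
      obtain ⟨i, hi⟩ := (h.mem v).1 hv
      obtain ⟨j, hj⟩ := (h.mem w).1 hw
      have hall : ∀ i j : ZMod 3, j = i ∨ j = i + 1 ∨ i = j + 1 := by decide
      have := (h.adj i j).2 (hall i j)
      rwa [hi, hj] at this
  have f3 : ∀ s ∈ S, ∀ v, v ≠ s → ∀ p ∈ R v, p ∈ R s → v ∉ S := by
    intro s hs v hvs p hv hp hvS
    exact Set.disjoint_left.1 (hS v hvS s hs hvs) hv hp
  have f4 : ∀ v w, v ≠ w → ∀ p ∈ R v, p ∈ R w →
      (∀ u, p ∈ R u ↔ u = v ∨ u = w) ∨
      ∃ a b, a ≠ v ∧ b ≠ v ∧ a ≠ b ∧ (∀ u, p ∈ R u ↔ u = v ∨ u = a ∨ u = b) := by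
    intro v w hvw p hv hw
    rcases hM.link v w hvw p ⟨hv, hw⟩ with h | ⟨m, c, h⟩
    · left
      intro u
      exact ⟨h.2 u, by rintro (rfl | rfl) <;> assumption⟩
    · have hm := hm3 p m c h
      subst hm
      obtain ⟨a, b, h1, h2, h3, h4, -⟩ := h.three_of_mem hv
      exact Or.inr ⟨a, b, h1, h2, h3, h4⟩
  have hAbd : ∀ s : S, ∀ i, A s i ⊆ bd s := fun s i => hAU s s.2 ▸ subset_iUnion (A s) i
  have hTR : ∀ s : S, ∀ i, T s i ⊆ R s := fun s i => (hT s).cover ▸ subset_iUnion (T s) i
  have hAT : ∀ s : S, ∀ i, A s i ⊆ T s i := fun s i x hx => ((hT s).ball i).1 (Or.inl hx)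
  have hzA : ∀ s : S, ∀ i, z s i ∈ A s i := fun s i => (hA s s.2 i).left_mem
  have hzA' : ∀ s : S, ∀ i, z s (i + 1) ∈ A s i := fun s i => (hA s s.2 i).right_mem
  have hinj1 : ∀ s : S, ∀ i : ZMod (k s), i ≠ i + 1 := fun s i h =>
    (hA s s.2 i).ne_of_arc (congrArg (z s) h)
  have hTbd : ∀ s : S, ∀ i, ∀ p ∈ T s i, p ∈ bd s → p ∈ A s i := fun s i p h1 h2 =>
    (hT s).base i ▸ ⟨h1, h2⟩
  have f5 : ∀ s : S, ∀ j, ∃ v, v ≠ s.1 ∧ v ∉ S ∧ ∀ u, z s j ∈ R u ↔ u = s.1 ∨ u = v := by
    intro s j
    have hb := hAbd s j (hzA s j)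
    obtain ⟨w, hw, hpw⟩ := f2 s _ hb
    rcases f4 s w hw.symm _ (bdR s hb) hpw with h | ⟨a, b, h1, h2, h3, h4⟩
    · exact ⟨w, hw, f3 s s.2 w hw _ hpw (bdR s hb), h⟩
    · exfalso
      exact h3 (hz1 s s.2 j a b ((h4 a).2 (Or.inr (Or.inl rfl))) ((h4 b).2 (Or.inr (Or.inr rfl)))
        h1 h2)
  -- the sub-arcs
  have f7 : ∀ v, v ∉ S → ∀ s : S, ∀ i, (R v ∩ T s i).Nonempty →
      ∃ c d, ConBall 1 (R v ∩ T s i) {c, d} ∧ ∀ p ∈ R v ∩ T s i, (p = c ∨ p = d) ↔
        ((∃ u, u ≠ v ∧ u ≠ s.1 ∧ p ∈ R u) ∨ ∃ j, p = z s j) := by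
    intro v hv s i ⟨p, hpv, hpT⟩
    have hvs : v ≠ s.1 := fun h => hv (h ▸ s.2)
    have hps := hTR s i hpT
    obtain ⟨a, b, he, hab⟩ := hM.edge v s hvs (f0 v s hvs p hpv hps)
    have heq : R v ∩ T s i = (R v ∩ R s) ∩ A s i := by
      ext x
      constructor
      · rintro ⟨h1, h2⟩
        have h3 := hTR s i h2
        exact ⟨⟨h1, h3⟩, hTbd s i x h2 (f1 s v hvs.symm x h3 h1)⟩
      · rintro ⟨⟨h1, -⟩, h2⟩
        exact ⟨h1, hAT s i h2⟩
    have hsub : R v ∩ R s ⊆ ⋃ i, A s i := by
      intro x hx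
      rw [hAU s s.2]
      exact f1 s v hvs.symm x hx.2 hx.1
    have hz3 : ∀ j, z s j ∈ R v ∩ R s → z s j ≠ a ∧ z s j ≠ b := by
      intro j hj
      obtain ⟨v', h1, h2, h3⟩ := f5 s j
      have h4 : ¬ ∃ u, u ≠ v ∧ u ≠ s.1 ∧ z s j ∈ R u := by
        rintro ⟨u, hu1, hu2, hu3⟩
        exact hu1 (hz1 s s.2 j u v hu3 hj.1 hu2 hvs)
      have h5 := (hab _ hj).not.1 h4
      push Not at h5
      exact h5
    obtain ⟨c, d, h1, h2⟩ := exists_subarc (hfinz s) (hA s s.2) (hAA s s.2) he hsub
      (fun i j hi hj => hz2 s s.2 i j v hvs hi.1 hj.1) hz3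
      (i := i) (by rw [← heq]; exact ⟨p, hpv, hpT⟩)
    refine ⟨c, d, by rw [heq]; exact h1, fun x hx => ?_⟩
    rw [heq] at hx
    rw [h2 x hx, ← or_assoc, ← hab x hx.1]
  have f8 : ∀ v, v ∉ S → ∀ s : S, ∀ i, (R v ∩ T s i).Nonempty → (R v ∩ T s i).Nontrivial := by
    intro v hv s i h
    obtain ⟨c, d, h1, -⟩ := f7 v hv s i h
    exact ⟨c, h1.left_mem, d, h1.right_mem, h1.ne_of_arc⟩
  have f9 : ∀ s : S, ∀ i, (T s i ∩ T s (i + 1)).Nontrivial := by
    intro s i
    rw [(hT s).adj i]
    have h1 := (hT s).spoke (i + 1)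
    exact ⟨_, h1.left_mem, _, h1.right_mem, h1.ne_of_arc⟩
  have fA : ∀ s : S, ∀ i, ∀ p ∈ A s i, (∀ j, p ≠ z s j) → ∀ m, p ∈ A s m → m = i := by
    intro s i p hp hpz m hm
    by_contra hne
    rcases hAA s s.2 m i hne p ⟨hm, hp⟩ with ⟨-, h⟩ | ⟨-, h⟩
    · exact hpz _ h
    · exact hpz _ h
  have fz : ∀ s : S, ∀ j m, z s (j + 1) ∈ A s m → m = j ∨ m = j + 1 := by
    intro s j m hm
    by_cases h1 : m = j + 1
    · exact Or.inr h1
    · left
      rcases hAA s s.2 (j + 1) m (fun h => h1 h.symm) _ ⟨hzA s _, hm⟩ with ⟨h2, h3⟩ | ⟨h2, -⟩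
      · rw [h2] at h3
        exact absurd h3 (hA s s.2 (j + 1)).ne_of_arc
      · exact (add_right_cancel h2).symm
  let R' : {v // v ∉ S} ⊕ (Σ s : S, ZMod (k s)) → Set E :=
    Sum.elim (fun v => R v.1) (fun x => T x.1 x.2)
  let bd' : {v // v ∉ S} ⊕ (Σ s : S, ZMod (k s)) → Set E :=
    Sum.elim (fun v => bd v.1) (fun x => A x.1 x.2 ∪ (σ x.1 x.2 ∪ σ x.1 (x.2 + 1)))
  -- classification
  have hcls : ∀ p, (∀ s : S, p ≠ y s) → Cls R' p := by
    intro p hpy
    by_cases hpS : ∃ s : S, p ∈ R s
    · obtain ⟨s, hps⟩ := hpS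
      have honly : ∀ t : S, ∀ i, p ∈ T t i → t = s := by
        intro t i ht
        by_contra hts
        exact Set.disjoint_left.1 (hS t t.2 s s.2 (fun h => hts (Subtype.ext h)))
          (hTR t i ht) hps
      by_cases hb : p ∈ bd s
      · obtain ⟨w, hws, hpw⟩ := f2 s p hb
        have hwS := f3 s s.2 w hws p hpw hps
        by_cases hz : ∃ j, p = z s j
        · obtain ⟨j, rfl⟩ := hz
          obtain ⟨v, hvs, hvS, hv⟩ := f5 s j
          have hj : j - 1 + 1 = j := sub_add_cancel j 1
          have hjT : z s j ∈ T s (j - 1) := by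
            have := hzA' s (j - 1)
            rw [hj] at this
            exact hAT s _ this
          have hjT' : z s j ∈ T s j := hAT s _ (hzA s j)
          have hpv : z s j ∈ R v := (hv v).2 (Or.inr rfl)
          right; right
          refine ⟨Sum.inl ⟨v, hvS⟩, Sum.inr ⟨s, j - 1⟩, Sum.inr ⟨s, j⟩, by simp, ?_, by simp, ?_,
            f8 v hvS s _ ⟨_, hpv, hjT⟩, ?_, f8 v hvS s _ ⟨_, hpv, hjT'⟩⟩
          · intro h
            have h1 : j - 1 = j := by
              have := Sum.inr.inj h
              simpa using this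
            have := hinj1 s (j - 1)
            rw [hj] at this
            exact this h1
          · intro u
            constructor
            · intro hu
              rcases u with ⟨u, hu'⟩ | ⟨t, i⟩
              · left
                have h1 : z s j ∈ R u := hu
                rcases (hv u).1 h1 with h2 | h2
                · exact absurd (h2 ▸ s.2) hu'
                · subst h2; rfl
              · have h1 : z s j ∈ T t i := hu
                have h2 := honly t i h1
                subst h2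
                have h3 := hTbd t i _ h1 hb
                have h4 : z t (j - 1 + 1) ∈ A t i := by rw [hj]; exact h3
                rcases fz t (j - 1) i h4 with h5 | h5
                · right; left; rw [h5]
                · right; right; rw [h5, hj]
            · rintro (rfl | rfl | rfl)
              · exact hpv
              · exact hjT
              · exact hjT'
          · have := f9 s (j - 1)
            rw [hj] at this
            exact this
        · push Not at hz
          have hb' := hb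
          rw [← hAU s s.2] at hb'
          obtain ⟨i, hi⟩ := mem_iUnion.1 hb'
          have huniq : ∀ m, p ∈ T s m → m = i := fun m hm => fA s i p hi hz m (hTbd s m p hm hb)
          rcases f4 s w hws.symm p hps hpw with h | ⟨a, b, h1, h2, h3, h4⟩
          · right; left
            refine ⟨Sum.inl ⟨w, hwS⟩, Sum.inr ⟨s, i⟩, by simp, f8 w hwS s i ⟨p, hpw, hAT s i hi⟩,
              fun u hu => ?_⟩
            rcases u with ⟨u, hu'⟩ | ⟨t, m⟩
            · left
              rcases (h u).1 hu with h5 | h5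
              · exact absurd (h5 ▸ s.2) hu'
              · subst h5; rfl
            · right
              have h5 := honly t m hu
              subst h5
              rw [huniq m hu]
          · have hpa : p ∈ R a := (h4 a).2 (Or.inr (Or.inl rfl))
            have hpb : p ∈ R b := (h4 b).2 (Or.inr (Or.inr rfl))
            have haS := f3 s s.2 a h1 p hpa hps
            have hbS := f3 s s.2 b h2 p hpb hps
            right; right
            refine ⟨Sum.inl ⟨a, haS⟩, Sum.inl ⟨b, hbS⟩, Sum.inr ⟨s, i⟩, ?_, by simp, by simp, ?_,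
              f0 a b h3 p hpa hpb, f8 b hbS s i ⟨p, hpb, hAT s i hi⟩,
              f8 a haS s i ⟨p, hpa, hAT s i hi⟩⟩
            · intro h
              have := Sum.inl.inj h
              exact h3 (congrArg Subtype.val this)
            · intro u
              constructor
              · intro hu
                rcases u with ⟨u, hu'⟩ | ⟨t, m⟩
                · rcases (h4 u).1 hu with h5 | h5 | h5
                  · exact absurd (h5 ▸ s.2) hu'
                  · left; subst h5; rfl
                  · right; left; subst h5; rfl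
                · right; right
                  have h5 := honly t m hu
                  subst h5
                  rw [huniq m hu]
              · rintro (rfl | rfl | rfl)
                · exact hpa
                · exact hpb
                · exact hAT s i hi
      · -- interior of the special cell
        have hinl : ∀ u : {v // v ∉ S}, p ∉ R u.1 := by
          intro u hu
          exact hb (f1 s u.1 (fun h => u.2 (h ▸ s.2)) p hps hu)
        have hp' := hps
        rw [← (hT s).cover] at hp'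
        obtain ⟨i, hi⟩ := mem_iUnion.1 hp'
        have hpys := hpy s
        have hspoke : ∀ l, p ∈ σ s l → Cls R' p := by
          intro l hl
          have hll : l - 1 + 1 = l := sub_add_cancel l 1
          right; left
          refine ⟨Sum.inr ⟨s, l - 1⟩, Sum.inr ⟨s, l⟩, ?_, ?_, fun u hu => ?_⟩
          · intro h
            have h1 : l - 1 = l := by
              have := Sum.inr.inj h
              simpa using this
            have := hinj1 s (l - 1)
            rw [hll] at this
            exact this h1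
          · have := f9 s (l - 1)
            rw [hll] at this
            exact this
          · rcases u with u | ⟨t, m⟩
            · exact absurd hu (hinl u)
            · have h5 := honly t m hu
              subst h5
              by_cases h6 : l = m
              · right; rw [h6]
              · by_cases h7 : l = m + 1
                · left; rw [h7, add_sub_cancel_right]
                · exfalso
                  have : p ∈ σ t l ∩ T t m := ⟨hl, hu⟩
                  rw [(hT t).spoke_far l m h6 h7] at this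
                  exact hpys this
        by_cases h1 : p ∈ σ s i
        · exact hspoke i h1
        · by_cases h2 : p ∈ σ s (i + 1)
          · exact hspoke _ h2
          · left
            have key : ∀ u, p ∈ R' u → u = Sum.inr ⟨s, i⟩ := by
              intro u hu
              rcases u with u | ⟨t, m⟩
              · exact absurd hu (hinl u)
              · have h5 := honly t m hu
                subst h5
                by_contra hne
                have hmi : i ≠ m := fun h => hne (by rw [h])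
                have hu' : p ∈ T t m := hu
                by_cases h6 : m = i + 1
                · apply h2
                  rw [← (hT t).adj i]
                  exact ⟨hi, h6 ▸ hu'⟩
                · by_cases h7 : i = m + 1
                  · apply h1
                    rw [h7, ← (hT t).adj m]
                    exact ⟨hu', h7 ▸ hi⟩
                  · have : p ∈ T t i ∩ T t m := ⟨hi, hu'⟩
                    rw [(hT t).far i m hmi h6 h7] at this
                    exact hpys this
            intro u u' hu hu'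
            rw [key u hu, key u' hu']
    · -- no special cell at `p`
      push Not at hpS
      have hinr : ∀ x : (Σ s : S, ZMod (k s)), p ∉ T x.1 x.2 := fun x hx =>
        hpS x.1 (hTR x.1 x.2 hx)
      have hnS : ∀ u, p ∈ R u → u ∉ S := fun u hu huS => hpS ⟨u, huS⟩ hu
      by_cases h1 : ∀ u u', p ∈ R u → p ∈ R u' → u = u'
      · left
        intro u u' hu hu'
        rcases u with u | x
        · rcases u' with u' | x'
          · rw [Subtype.ext (h1 u.1 u'.1 hu hu')]
          · exact absurd hu' (hinr x')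
        · exact absurd hu (hinr x)
      · push Not at h1
        obtain ⟨v, w, hv, hw, hvw⟩ := h1
        rcases f4 v w hvw p hv hw with h | ⟨a, b, h1, h2, h3, h4⟩
        · right; left
          refine ⟨Sum.inl ⟨v, hnS v hv⟩, Sum.inl ⟨w, hnS w hw⟩, ?_, f0 v w hvw p hv hw,
            fun u hu => ?_⟩
          · intro h
            have := Sum.inl.inj h
            exact hvw (congrArg Subtype.val this)
          · rcases u with ⟨u, hu'⟩ | x
            · rcases (h u).1 hu with h5 | h5
              · left; subst h5; rfl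
              · right; subst h5; rfl
            · exact absurd hu (hinr x)
        · have hpa : p ∈ R a := (h4 a).2 (Or.inr (Or.inl rfl))
          have hpb : p ∈ R b := (h4 b).2 (Or.inr (Or.inr rfl))
          right; right
          refine ⟨Sum.inl ⟨v, hnS v hv⟩, Sum.inl ⟨a, hnS a hpa⟩, Sum.inl ⟨b, hnS b hpb⟩, ?_, ?_,
            ?_, ?_, f0 v a h1.symm p hv hpa, f0 a b h3 p hpa hpb, f0 v b h2.symm p hv hpb⟩
          · intro h
            exact h1 (congrArg Subtype.val (Sum.inl.inj h)).symm
          · intro h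
            exact h3 (congrArg Subtype.val (Sum.inl.inj h))
          · intro h
            exact h2 (congrArg Subtype.val (Sum.inl.inj h)).symm
          · intro u
            constructor
            · intro hu
              rcases u with ⟨u, hu'⟩ | x
              · rcases (h4 u).1 hu with h5 | h5 | h5
                · left; subst h5; rfl
                · right; left; subst h5; rfl
                · right; right; subst h5; rfl
              · exact absurd hu (hinr x)
            · rintro (rfl | rfl | rfl)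
              · exact hv
              · exact hpa
              · exact hpb
  -- the cycle at a centre
  have hcyc : ∀ s : S, LinkCycle R' (y s) (k s) fun i => Sum.inr ⟨s, i⟩ := by
    intro s
    refine ⟨hk s s.2, ?_, ?_, ?_⟩
    · intro i j h
      have := Sum.inr.inj h
      simpa using this
    · intro v
      constructor
      · intro hv
        rcases v with ⟨v, hv'⟩ | ⟨t, i⟩
        · exfalso
          have h1 : y s ∈ R v := hv
          exact (hy s s.2).2 (f1 s v (fun h => hv' (h ▸ s.2)) _ (hy s s.2).1 h1)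
        · have h1 : y s ∈ T t i := hv
          have hts : t = s := by
            by_contra hts
            exact Set.disjoint_left.1 (hS t t.2 s s.2 (fun h => hts (Subtype.ext h)))
              (hTR t i h1) (hy s s.2).1
          subst hts
          exact ⟨i, rfl⟩
      · rintro ⟨i, rfl⟩
        exact (hT s).y_T i
    · intro i j
      show (T s i ∩ T s j).Nontrivial ↔ _
      constructor
      · intro hn
        by_contra hcon
        push Not at hcon
        have := (hT s).far i j (fun h => hcon.1 h.symm) hcon.2.1 hcon.2.2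
        rw [this] at hn
        exact hn.not_subsingleton subsingleton_singleton
      · rintro (rfl | rfl | rfl)
        · exact (f9 s j).mono fun x hx => ⟨hx.1, hx.1⟩
        · exact f9 s i
        · rw [inter_comm]; exact f9 s j
  have hlink : ∀ v w, v ≠ w → ∀ p ∈ R' v ∩ R' w,
      ((R' v ∩ R' w).Nontrivial ∧ ∀ u, p ∈ R' u → u = v ∨ u = w) ∨
      ∃ m, ∃ c : ZMod m → {v // v ∉ S} ⊕ (Σ s : S, ZMod (k s)), LinkCycle R' p m c := by
    intro v w hvw p hp
    by_cases hpy : ∃ s : S, p = y s
    · obtain ⟨s, rfl⟩ := hpy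
      exact Or.inr ⟨_, _, hcyc s⟩
    · push Not at hpy
      exact (hcls p hpy).link hvw hp
  -- the index of the old cell
  let π : {v // v ∉ S} ⊕ (Σ s : S, ZMod (k s)) → V := Sum.elim (fun v => v.1) (fun x => x.1.1)
  have hπ : ∀ u, R' u ⊆ R (π u) := by
    intro u
    rcases u with u | x
    · exact le_refl _
    · exact hTR x.1 x.2
  have hπfin : ∀ v, (π ⁻¹' {v}).Finite := by
    intro v
    by_cases hv : v ∈ S
    · have := hfinz ⟨v, hv⟩
      refine (Set.finite_range fun i : ZMod (k v) =>
        (Sum.inr ⟨⟨v, hv⟩, i⟩ : {v // v ∉ S} ⊕ (Σ s : S, ZMod (k s)))).subset ?_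
      rintro (⟨u, hu⟩ | ⟨⟨t, ht⟩, i⟩) h
      · exact absurd ((show u = v from h) ▸ hv) hu
      · have h1 : t = v := h
        subst h1
        exact ⟨i, rfl⟩
    · refine (Set.finite_singleton (Sum.inl ⟨v, hv⟩ : {v // v ∉ S} ⊕ (Σ s : S, ZMod (k s)))).subset ?_
      rintro (⟨u, hu⟩ | ⟨⟨t, ht⟩, i⟩) h
      · have h1 : u = v := h
        subst h1; rfl
      · exact absurd ((show t = v from h) ▸ ht) hv
  have hcov : ∀ v, ∀ p ∈ R v, ∃ u, π u = v ∧ p ∈ R' u := by
    intro v p hp
    by_cases hv : v ∈ S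
    · have hp' := hp
      rw [← (hT ⟨v, hv⟩).cover] at hp'
      obtain ⟨i, hi⟩ := mem_iUnion.1 hp'
      exact ⟨Sum.inr ⟨⟨v, hv⟩, i⟩, rfl, hi⟩
    · exact ⟨Sum.inl ⟨v, hv⟩, rfl, hp⟩
  -- edges
  have edge_symm : ∀ v w, (∃ a b, ConBall 1 (R' v ∩ R' w) {a, b} ∧
      ∀ p ∈ R' v ∩ R' w, (∃ u, u ≠ v ∧ u ≠ w ∧ p ∈ R' u) ↔ p = a ∨ p = b) →
      (∃ a b, ConBall 1 (R' w ∩ R' v) {a, b} ∧
      ∀ p ∈ R' w ∩ R' v, (∃ u, u ≠ w ∧ u ≠ v ∧ p ∈ R' u) ↔ p = a ∨ p = b) := by
    rintro v w ⟨a, b, h1, h2⟩
    refine ⟨a, b, by rwa [inter_comm], fun p hp => ?_⟩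
    rw [← h2 p ⟨hp.2, hp.1⟩]
    exact exists_congr fun u => ⟨fun h => ⟨h.2.1, h.1, h.2.2⟩, fun h => ⟨h.2.1, h.1, h.2.2⟩⟩
  -- ordinary / sector
  have edge_mixed : ∀ (v : {v // v ∉ S}) (s : S) (i : ZMod (k s)),
      (R v.1 ∩ T s i).Nontrivial → ∃ a b, ConBall 1 (R' (Sum.inl v) ∩ R' (Sum.inr ⟨s, i⟩)) {a, b} ∧
      ∀ p ∈ R' (Sum.inl v) ∩ R' (Sum.inr ⟨s, i⟩),
        (∃ u, u ≠ Sum.inl v ∧ u ≠ Sum.inr ⟨s, i⟩ ∧ p ∈ R' u) ↔ p = a ∨ p = b := by
    intro v s i hn
    have hvs : v.1 ≠ s.1 := fun h => v.2 (h ▸ s.2)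
    obtain ⟨c, d, h1, h2⟩ := f7 v.1 v.2 s i hn.nonempty
    refine ⟨c, d, h1, fun p hp => ?_⟩
    rw [h2 p hp]
    obtain ⟨hpv, hpT⟩ := hp
    have hpv' : p ∈ R v.1 := hpv
    have hpT' : p ∈ T s i := hpT
    have hps := hTR s i hpT'
    have hb : p ∈ bd s := f1 s v.1 hvs.symm p hps hpv'
    constructor
    · rintro ⟨u, hu1, hu2, hu3⟩
      rcases u with u | ⟨t, m⟩
      · exact Or.inl ⟨u.1, fun h => hu1 (congrArg Sum.inl (Subtype.ext h)),
          fun h => u.2 (h ▸ s.2), hu3⟩
      · have hts : t = s := by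
          by_contra hts
          exact Set.disjoint_left.1 (hS t t.2 s s.2 (fun h => hts (Subtype.ext h)))
            (hTR t m hu3) hps
        subst hts
        right
        have hmi : m ≠ i := fun h => hu2 (by rw [h])
        rcases hAA t t.2 m i hmi p ⟨hTbd t m p hu3 hb, hTbd t i p hpT' hb⟩ with ⟨-, h⟩ | ⟨-, h⟩
        · exact ⟨_, h⟩
        · exact ⟨_, h⟩
    · rintro (⟨u, hu1, hu2, hu3⟩ | ⟨j, rfl⟩)
      · have huS := f3 s s.2 u hu2 p hu3 hps
        refine ⟨Sum.inl ⟨u, huS⟩, fun h => hu1 ?_, by simp, hu3⟩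
        exact congrArg Subtype.val (Sum.inl.inj h)
      · -- one of the sectors `j`, `j - 1` is different from `i`
        have hj : j - 1 + 1 = j := sub_add_cancel j 1
        have hjT : z s j ∈ T s (j - 1) := by
          have := hzA' s (j - 1)
          rw [hj] at this
          exact hAT s _ this
        by_cases hij : i = j
        · refine ⟨Sum.inr ⟨s, j - 1⟩, by simp, fun h => ?_, hjT⟩
          have h1 : j - 1 = i := by
            have := Sum.inr.inj h
            simpa using this
          have := hinj1 s (j - 1)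
          rw [hj, h1] at this
          exact this hij
        · refine ⟨Sum.inr ⟨s, j⟩, by simp, fun h => ?_, hAT s _ (hzA s j)⟩
          have h1 : j = i := by
            have := Sum.inr.inj h
            simpa using this
          exact hij h1.symm
  -- adjacent sectors
  have edge_sect : ∀ (s : S) (i : ZMod (k s)),
      ∃ a b, ConBall 1 (R' (Sum.inr ⟨s, i⟩) ∩ R' (Sum.inr ⟨s, i + 1⟩)) {a, b} ∧
      ∀ p ∈ R' (Sum.inr ⟨s, i⟩) ∩ R' (Sum.inr ⟨s, i + 1⟩),
        (∃ u, u ≠ Sum.inr ⟨s, i⟩ ∧ u ≠ Sum.inr ⟨s, i + 1⟩ ∧ p ∈ R' u) ↔ p = a ∨ p = b := by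
    intro s i
    have hadj : R' (Sum.inr ⟨s, i⟩) ∩ R' (Sum.inr ⟨s, i + 1⟩) = σ s (i + 1) := (hT s).adj i
    rw [hadj]
    refine ⟨y s, z s (i + 1), (hT s).spoke (i + 1), fun p hp => ?_⟩
    have hpT : p ∈ T s i := by
      have : p ∈ T s i ∩ T s (i + 1) := by rw [(hT s).adj i]; exact hp
      exact this.1
    constructor
    · rintro ⟨u, hu1, hu2, hu3⟩
      rcases u with u | ⟨t, m⟩
      · right
        have hb : p ∈ bd s := f1 s u.1 (fun h => u.2 (h ▸ s.2)) p (hTR s i hpT) hu3
        have : p ∈ σ s (i + 1) ∩ bd s := ⟨hp, hb⟩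
        rw [(hT s).spoke_base] at this
        exact this
      · left
        have hts : t = s := by
          by_contra hts
          exact Set.disjoint_left.1 (hS t t.2 s s.2 (fun h => hts (Subtype.ext h)))
            (hTR t m hu3) (hTR s i hpT)
        subst hts
        have h1 : i + 1 ≠ m := fun h => hu2 (by rw [h])
        have h2 : i + 1 ≠ m + 1 := fun h => hu1 (by rw [add_right_cancel h])
        have : p ∈ σ t (i + 1) ∩ T t m := ⟨hp, hu3⟩
        rw [(hT t).spoke_far _ _ h1 h2] at this
        exact this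
    · rintro (rfl | rfl)
      · -- a third sector
        have h3 := hk s s.2
        have two : (2 : ZMod (k s)) ≠ 0 := by
          intro h
          have h2 : ((2 : ℕ) : ZMod (k s)) = 0 := by exact_mod_cast h
          rw [ZMod.natCast_eq_zero_iff] at h2
          exact absurd (Nat.le_of_dvd (by norm_num) h2) (by omega)
        refine ⟨Sum.inr ⟨s, i + 1 + 1⟩, fun h => ?_, fun h => ?_, (hT s).y_T _⟩
        · have h1 : i + 1 + 1 = i := by
            have := Sum.inr.inj h
            simpa using this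
          apply two
          have : i + 2 = i + 0 := by rw [add_zero]; rw [add_assoc, one_add_one_eq_two] at h1; exact h1
          exact add_left_cancel this
        · have h1 : i + 1 + 1 = i + 1 := by
            have := Sum.inr.inj h
            simpa using this
          exact hinj1 s (i + 1) h1.symm
      · obtain ⟨v, hvs, hvS, hv⟩ := f5 s (i + 1)
        exact ⟨Sum.inl ⟨v, hvS⟩, by simp, by simp, (hv v).2 (Or.inr rfl)⟩
  have hedge : ∀ v w, v ≠ w → (R' v ∩ R' w).Nontrivial → ∃ a b, ConBall 1 (R' v ∩ R' w) {a, b} ∧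
      ∀ p ∈ R' v ∩ R' w, (∃ u, u ≠ v ∧ u ≠ w ∧ p ∈ R' u) ↔ p = a ∨ p = b := by
    rintro (v | ⟨s, i⟩) (w | ⟨t, j⟩) hvw hn
    · -- both ordinary
      have hvw' : v.1 ≠ w.1 := fun h => hvw (congrArg Sum.inl (Subtype.ext h))
      obtain ⟨a, b, h1, h2⟩ := hM.edge v.1 w.1 hvw' hn
      refine ⟨a, b, h1, fun p hp => ?_⟩
      rw [← h2 p hp]
      constructor
      · rintro ⟨u, hu1, hu2, hu3⟩
        rcases u with u | ⟨t, m⟩
        · exact ⟨u.1, fun h => hu1 (congrArg Sum.inl (Subtype.ext h)),
            fun h => hu2 (congrArg Sum.inl (Subtype.ext h)), hu3⟩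
        · exact ⟨t.1, fun h => v.2 (h ▸ t.2), fun h => w.2 (h ▸ t.2), hTR t m hu3⟩
      · rintro ⟨u, hu1, hu2, hu3⟩
        obtain ⟨u', h3, h4⟩ := hcov u p hu3
        exact ⟨u', fun h => hu1 (by rw [← h3, h]; rfl), fun h => hu2 (by rw [← h3, h]; rfl), h4⟩
    · exact edge_mixed v t j hn
    · exact edge_symm _ _ (edge_mixed w s i (by
        have hn' : (R' (Sum.inr ⟨s, i⟩) ∩ R' (Sum.inl w)).Nontrivial := hn
        rw [inter_comm] at hn'
        exact hn'))
    · -- two sectors
      have hst : s = t := by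
        by_contra hst
        obtain ⟨p, hp⟩ := hn.nonempty
        exact Set.disjoint_left.1 (hS s s.2 t t.2 (fun h => hst (Subtype.ext h)))
          (hTR s i hp.1) (hTR t j hp.2)
      subst hst
      by_cases h1 : j = i + 1
      · subst h1; exact edge_sect s i
      · by_cases h2 : i = j + 1
        · subst h2; exact edge_symm _ _ (edge_sect s j)
        · exfalso
          have h3 : i ≠ j := fun h => hvw (by rw [h])
          have hn' : (T s i ∩ T s j).Nontrivial := hn
          rw [(hT s).far i j h3 h1 h2] at hn'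
          exact hn'.not_subsingleton subsingleton_singleton
  refine ⟨R', bd', ?_, fun v => rfl, fun s i => ⟨hTR s i, (hT s).base i⟩, hcyc, ?_⟩
  · refine ⟨?_, ?_, ?_, hedge, hlink, ?_⟩
    · rintro (v | ⟨s, i⟩)
      · exact hM.ball v.1
      · exact (hT s).ball i
    · rw [← hM.cover]
      apply Subset.antisymm
      · exact iUnion_subset fun u => (hπ u).trans (subset_iUnion R (π u))
      · refine iUnion_subset fun v p hp => ?_
        obtain ⟨u, -, hu⟩ := hcov v p hp
        exact mem_iUnion.2 ⟨u, hu⟩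
    · intro x hx
      obtain ⟨U, hU, hfin⟩ := hM.fin x hx
      refine ⟨U, hU, (hfin.preimage' fun b _ => hπfin b).subset ?_⟩
      intro u hu
      exact hu.mono (inter_subset_inter_left _ (hπ u))
    · rintro (v | ⟨s, i⟩)
      · apply Subset.antisymm
        · intro p hp
          obtain ⟨w, hw, hpw⟩ := f2 v.1 p hp
          obtain ⟨u, h1, h2⟩ := hcov w p hpw
          exact mem_iUnion₂.2 ⟨u, fun h => hw (by rw [← h1, h]; rfl), bdR v.1 hp, h2⟩
        · intro p hp
          obtain ⟨u, hu, hpv, hpu⟩ := mem_iUnion₂.1 hp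
          refine f1 v.1 (π u) (fun h => ?_) p hpv (hπ u hpu)
          rcases u with u | ⟨t, m⟩
          · exact hu (congrArg Sum.inl (Subtype.ext h.symm))
          · have h1 : v.1 = t.1 := h
            exact v.2 (h1 ▸ t.2)
      · apply Subset.antisymm
        · intro p hp
          rcases hp with hp | hp | hp
          · have hb := hAbd s i hp
            obtain ⟨w, hw, hpw⟩ := f2 s p hb
            have hwS := f3 s s.2 w hw p hpw (bdR s hb)
            exact mem_iUnion₂.2 ⟨Sum.inl ⟨w, hwS⟩, by simp, hAT s i hp, hpw⟩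
          · have hii : i - 1 + 1 = i := sub_add_cancel i 1
            have h1 : p ∈ T s (i - 1) ∩ T s (i - 1 + 1) := by
              rw [(hT s).adj (i - 1), hii]; exact hp
            rw [hii] at h1
            refine mem_iUnion₂.2 ⟨Sum.inr ⟨s, i - 1⟩, fun h => ?_, h1.2, h1.1⟩
            have h2 : i - 1 = i := by
              have := Sum.inr.inj h
              simpa using this
            have := hinj1 s (i - 1)
            rw [hii] at this
            exact this h2
          · have h1 : p ∈ T s i ∩ T s (i + 1) := by rw [(hT s).adj i]; exact hp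
            refine mem_iUnion₂.2 ⟨Sum.inr ⟨s, i + 1⟩, fun h => ?_, h1.1, h1.2⟩
            have h2 : i + 1 = i := by
              have := Sum.inr.inj h
              simpa using this
            exact hinj1 s i h2.symm
        · intro p hp
          obtain ⟨u, hu, hpi, hpu⟩ := mem_iUnion₂.1 hp
          have hpi' : p ∈ T s i := hpi
          rcases u with u | ⟨t, m⟩
          · left
            exact hTbd s i p hpi' (f1 s u.1 (fun h => u.2 (h ▸ s.2)) p (hTR s i hpi') hpu)
          · right
            have hts : t = s := by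
              by_contra hts
              exact Set.disjoint_left.1 (hS t t.2 s s.2 (fun h => hts (Subtype.ext h)))
                (hTR t m hpu) (hTR s i hpi')
            subst hts
            have hmi : i ≠ m := fun h => hu (by rw [h])
            have hpm : p ∈ T t m := hpu
            by_cases h1 : m = i + 1
            · right
              rw [← (hT t).adj i]
              exact ⟨hpi', h1 ▸ hpm⟩
            · by_cases h2 : i = m + 1
              · left
                have : p ∈ T t m ∩ T t (m + 1) := ⟨hpm, h2 ▸ hpi'⟩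
                rw [(hT t).adj m] at this
                rw [h2]; exact this
              · have : p ∈ T t i ∩ T t m := ⟨hpi', hpm⟩
                rw [(hT t).far i m hmi h1 h2] at this
                left
                rw [(show p = y t from this)]
                exact ((hT t).spoke i).left_mem
  · intro p m c hc
    by_cases hpy : ∃ s : S, p = y s
    · obtain ⟨s, rfl⟩ := hpy
      exact Or.inr ⟨s, s.2, rfl⟩
    · push Not at hpy
      exact Or.inl ((hcls p hpy).eq_three hc)

end P073.PT
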