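import Vale.Agent.P073.ConGlue
import Mathlib.Data.ZMod.Basic

/-!
# P073, block PT : mosaics of surfaces (definition)

`F` is a surface without boundary in a normed space `E` (not necessarily closed in `E`, not
necessarily connected).  A mosaic is a locally finite cover of `F` by closed conical discs which
meet in arcs and vertices; the vertices may have any valence (three for generic vertices, four at
a corner of a square grid), no triangulation, hanging nodes allowed, the mesh may vary.
Two cells `v`, `w` are neighbours if `(R v ∩ R w).Nontrivial`.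
-/

open Set Metric Topology

namespace P073

variable {E : Type*} [NormedAddCommGroup E] [NormedSpace ℝ E]

/-- `c` enumerates cyclically the cells at the vertex `p`: consecutive cells are neighbours, others
are not. -/
structure LinkCycle {V : Type*} (R : V → Set E) (p : E) (k : ℕ) (c : ZMod k → V) : Prop where
  three : 3 ≤ k
  inj : Function.Injective c
  mem : ∀ v, p ∈ R v ↔ ∃ i, c i = v
  adj : ∀ i j, (R (c i) ∩ R (c j)).Nontrivial ↔ (j = i ∨ j = i + 1 ∨ i = j + 1)

/-- A cell decomposition of the surface `F` into the discs `R v`. -/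
structure Mosaic {V : Type*} (F : Set E) (R bd : V → Set E) : Prop where
  /-- the cells are conical discs -/
  ball : ∀ v, ConBall 2 (R v) (bd v)
  /-- they cover `F` -/
  cover : ⋃ v, R v = F
  /-- they form a locally finite family (in `F`) -/
  fin : ∀ z ∈ F, ∃ U ∈ 𝓝 z, {v | (R v ∩ U).Nonempty}.Finite
  /-- two different neighbours have exactly one common arc; its end points are its points
  which are contained in a third cell -/
  edge : ∀ v w, v ≠ w → (R v ∩ R w).Nontrivial → ∃ a b, ConBall 1 (R v ∩ R w) {a, b} ∧
    ∀ p ∈ R v ∩ R w, (∃ u, u ≠ v ∧ u ≠ w ∧ p ∈ R u) ↔ p = a ∨ p = b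
  /-- a point in two different cells is either in exactly these two cells, which are neighbours, or
  it is a vertex with a cyclic link -/
  link : ∀ v w, v ≠ w → ∀ p ∈ R v ∩ R w,
    ((R v ∩ R w).Nontrivial ∧ ∀ u, p ∈ R u → u = v ∨ u = w) ∨
    ∃ k, ∃ c : ZMod k → V, LinkCycle R p k c
  /-- the boundary of a cell consists of its points in other cells -/
  bdry : ∀ v, bd v = ⋃ (w) (_ : w ≠ v), R v ∩ R w

/-- A conical disc `D` in the surface `F` whose interior `D \ B` is open in `F`. -/
def SurfDisc (F D B : Set E) : Prop :=
  ConBall 2 D B ∧ D ⊆ F ∧ ∃ U, IsOpen U ∧ D \ B = F ∩ U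

/-- `F` has small disc neighbourhoods. -/
def SmallDiscs (F : Set E) : Prop :=
  ∀ x ∈ F, ∀ ε > 0, ∃ D B, SurfDisc F D B ∧ x ∈ D \ B ∧ D ⊆ ball x ε

/-- Labels of the cells such that at every vertex each label occupies one interval of the link
(automatic at vertices of valence three). -/
def GoodLabels {V Λ : Type*} (R : V → Set E) (L : V → Λ) : Prop :=
  ∀ p k, ∀ c : ZMod k → V, LinkCycle R p k c → ∀ i j, L (c i) = L (c j) →
    ((L (c (i + 1)) ≠ L (c i) → L (c (j + 1)) ≠ L (c j) → i = j) ∧
     (L (c (i - 1)) ≠ L (c i) → L (c (j - 1)) ≠ L (c j) → i = j))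

end P073
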