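import Vale.Agent.P073.PR.Cut

/-!
# P073, block PT/SUBDIV: arcs, and the sectors of a conical disc
-/

open Set Metric Topology Filter

namespace P073

variable {E F : Type*} [NormedAddCommGroup E] [NormedSpace ℝ E]
  [NormedAddCommGroup F] [NormedSpace ℝ F]

/-- the reflection of `[0,1]` -/
noncomputable def flipIcc : ConHomeo (Icc (0:ℝ) 1) (Icc (0:ℝ) 1) where
  toFun t := 1 - t
  invFun t := 1 - t
  mapsTo := fun t ht => ⟨by linarith [ht.2], by linarith [ht.1]⟩
  mapsTo_inv := fun t ht => ⟨by linarith [ht.2], by linarith [ht.1]⟩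
  left_inv := fun t _ => by simp
  right_inv := fun t _ => by simp
  cont := by fun_prop
  cont_inv := by fun_prop
  conical := (conicalOn_const 1 (conicalSet_Icc_real 0 1)).sub
    (conicalOn_id (conicalSet_Icc_real 0 1))

/-- interval chart of an arc -/
theorem ConBall.exists_interval {e : Set E} {a b : E} (h : ConBall 1 e {a, b}) :
    ∃ φ : ConHomeo e (Icc (0:ℝ) 1), φ.toFun a = 0 ∧ φ.toFun b = 1 := by
  obtain ⟨Φ, hΦ⟩ := h.exists_homeo (conBall_Icc (s := 0) (t := 1) one_pos)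
  rw [image_pair] at hΦ
  have ha : Φ.toFun a ∈ ({0, 1} : Set ℝ) := hΦ ▸ Or.inl rfl
  have hb : Φ.toFun b ∈ ({0, 1} : Set ℝ) := hΦ ▸ Or.inr rfl
  have h0 : (0:ℝ) ∈ ({Φ.toFun a, Φ.toFun b} : Set ℝ) := hΦ ▸ Or.inl rfl
  have h1 : (1:ℝ) ∈ ({Φ.toFun a, Φ.toFun b} : Set ℝ) := hΦ ▸ Or.inr rfl
  rcases ha with ha | ha
  · refine ⟨Φ, ha, ?_⟩
    rcases h1 with h1 | h1
    · rw [ha] at h1; norm_num at h1
    · exact h1.symm
  · refine ⟨Φ.trans flipIcc, ?_, ?_⟩
    · show 1 - Φ.toFun a = 0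
      rw [(show Φ.toFun a = 1 from ha), sub_self]
    · show 1 - Φ.toFun b = 1
      rcases h0 with h0 | h0
      · rw [(show Φ.toFun a = 1 from ha)] at h0; norm_num at h0
      · rw [← (show (0:ℝ) = Φ.toFun b from h0), sub_zero]

theorem ConBall.ne_of_arc {e : Set E} {a b : E} (h : ConBall 1 e {a, b}) : a ≠ b := by
  obtain ⟨φ, ha, hb⟩ := h.exists_interval
  rintro rfl
  rw [ha] at hb
  norm_num at hb

theorem ConBall.left_mem {e : Set E} {a b : E} (h : ConBall 1 e {a, b}) : a ∈ e :=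
  h.1 (Or.inl rfl)

theorem ConBall.right_mem {e : Set E} {a b : E} (h : ConBall 1 e {a, b}) : b ∈ e :=
  h.1 (Or.inr rfl)

theorem ConBall.arc_symm {e : Set E} {a b : E} (h : ConBall 1 e {a, b}) : ConBall 1 e {b, a} := by
  rwa [Set.pair_comm] at h

/-- an arc minus an end point is preconnected -/
theorem ConBall.arc_diff_left {e : Set E} {a b : E} (h : ConBall 1 e {a, b}) :
    IsPreconnected (e \ {a}) := by
  obtain ⟨φ, ha, hb⟩ := h.exists_interval
  have : e \ {a} = φ.invFun '' Ioc (0:ℝ) 1 := by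
    ext x
    constructor
    · rintro ⟨hx, hxa⟩
      have h1 := φ.mapsTo hx
      refine ⟨φ.toFun x, ⟨lt_of_le_of_ne h1.1 fun h0 => hxa ?_, h1.2⟩, φ.left_inv hx⟩
      exact φ.injOn hx h.left_mem (by rw [ha, ← h0])
    · rintro ⟨t, ht, rfl⟩
      have ht' : t ∈ Icc (0:ℝ) 1 := ⟨ht.1.le, ht.2⟩
      refine ⟨φ.mapsTo_inv ht', fun h0 => ?_⟩
      have : φ.toFun (φ.invFun t) = t := φ.right_inv ht'
      rw [(show φ.invFun t = a from h0), ha] at this
      exact ht.1.ne this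
  rw [this]
  exact isPreconnected_Ioc.image _ (φ.cont_inv.mono fun t ht => ⟨ht.1.le, ht.2⟩)

/-- **splitting** an arc at an interior point -/
theorem ConBall.split_arc {e : Set E} {a b z : E} (h : ConBall 1 e {a, b}) (hz : z ∈ e)
    (hza : z ≠ a) (hzb : z ≠ b) : ∃ e₁ e₂ : Set E, ConBall 1 e₁ {z, a} ∧ ConBall 1 e₂ {z, b} ∧
      e₁ ∪ e₂ = e ∧ e₁ ∩ e₂ = {z} := by
  obtain ⟨φ, ha, hb⟩ := h.exists_interval
  have h1 := φ.mapsTo hz
  have h0 : 0 < φ.toFun z := lt_of_le_of_ne h1.1 fun h0 => hza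
    (φ.injOn hz h.left_mem (by rw [ha, ← h0]))
  have h2 : φ.toFun z < 1 := lt_of_le_of_ne h1.2 fun h0 => hzb
    (φ.injOn hz h.right_mem (h0.trans hb.symm))
  have i0 : φ.invFun 0 = a := (congrArg φ.invFun ha).symm.trans (φ.left_inv h.left_mem)
  have i1 : φ.invFun 1 = b := (congrArg φ.invFun hb).symm.trans (φ.left_inv h.right_mem)
  have iz : φ.invFun (φ.toFun z) = z := φ.left_inv hz
  have s1 : Icc 0 (φ.toFun z) ⊆ Icc (0:ℝ) 1 := Icc_subset_Icc_right h1.2
  have s2 : Icc (φ.toFun z) 1 ⊆ Icc (0:ℝ) 1 := Icc_subset_Icc_left h1.1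
  refine ⟨φ.invFun '' Icc 0 (φ.toFun z), φ.invFun '' Icc (φ.toFun z) 1, ?_, ?_, ?_, ?_⟩
  · have := (conBall_Icc h0).image φ.symm s1
    have e2 : φ.symm.toFun '' {0, φ.toFun z} = {z, a} := by
      rw [image_pair, Set.pair_comm]
      show {φ.invFun (φ.toFun z), φ.invFun 0} = _
      rw [i0, iz]
    rwa [e2] at this
  · have := (conBall_Icc h2).image φ.symm s2
    have e2 : φ.symm.toFun '' {φ.toFun z, 1} = {z, b} := by
      rw [image_pair]
      show {φ.invFun (φ.toFun z), φ.invFun 1} = _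
      rw [i1, iz]
    rwa [e2] at this
  · rw [← image_union, Icc_union_Icc_eq_Icc h0.le h2.le]
    exact φ.symm.image_eq
  · have := φ.symm.image_inter s1 s2
    have e3 : Icc 0 (φ.toFun z) ∩ Icc (φ.toFun z) 1 = {φ.toFun z} := by
      ext t
      constructor
      · rintro ⟨⟨-, h3⟩, h4, -⟩; exact le_antisymm h3 h4
      · rintro rfl; exact ⟨⟨h0.le, le_rfl⟩, ⟨le_rfl, h2.le⟩⟩
    rw [e3, image_singleton] at this
    refine this.symm.trans ?_
    show ({φ.invFun (φ.toFun z)} : Set E) = {z}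
    rw [iz]

/-- two sub-arcs of an arc with a common end point, which is an end point of the big arc, meet in
another point -/
theorem ConBall.subarcs_meet {e e₁ e₂ : Set E} {a b c d : E} (h : ConBall 1 e {a, b})
    (h₁ : ConBall 1 e₁ {a, c}) (h₂ : ConBall 1 e₂ {a, d}) (hs₁ : e₁ ⊆ e) (hs₂ : e₂ ⊆ e) :
    e₁ ∩ e₂ ≠ {a} := by
  obtain ⟨φ, ha, hb⟩ := h.exists_interval
  have hc := hs₁ h₁.right_mem
  have hd := hs₂ h₂.right_mem
  have aux : ∀ {e' : Set E} {x : E}, ConBall 1 e' {a, x} → e' ⊆ e →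
      ∀ t, 0 ≤ t → t ≤ φ.toFun x → φ.invFun t ∈ e' := by
    intro e' x h' hs' t ht0 htx
    have hconn : IsPreconnected (φ.toFun '' e') :=
      h'.isPreconnected.image _ (φ.cont.mono hs')
    have := hconn.ordConnected.out ⟨a, h'.left_mem, ha⟩ ⟨x, h'.right_mem, rfl⟩ ⟨ht0, htx⟩
    obtain ⟨y, hy, rfl⟩ := this
    rw [φ.left_inv (hs' hy)]
    exact hy
  have hpos : ∀ {e' : Set E} {x : E}, ConBall 1 e' {a, x} → e' ⊆ e → 0 < φ.toFun x := by
    intro e' x h' hs'
    refine lt_of_le_of_ne (φ.mapsTo (hs' h'.right_mem)).1 fun h0 => h'.ne_of_arc ?_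
    exact φ.injOn h.left_mem (hs' h'.right_mem) (by rw [ha, ← h0])
  have p1 := hpos h₁ hs₁
  have p2 := hpos h₂ hs₂
  intro he
  have m1 := aux h₁ hs₁ (min (φ.toFun c) (φ.toFun d)) (le_min p1.le p2.le) (min_le_left _ _)
  have m2 := aux h₂ hs₂ (min (φ.toFun c) (φ.toFun d)) (le_min p1.le p2.le) (min_le_right _ _)
  have m3 : φ.invFun (min (φ.toFun c) (φ.toFun d)) ∈ ({a} : Set E) := he ▸ ⟨m1, m2⟩
  have m4 : min (φ.toFun c) (φ.toFun d) ∈ Icc (0:ℝ) 1 :=
    ⟨le_min p1.le p2.le, (min_le_left _ _).trans (φ.mapsTo hc).2⟩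
  have m5 := φ.right_inv m4
  rw [(show φ.invFun (min (φ.toFun c) (φ.toFun d)) = a from m3), ha] at m5
  exact (lt_min p1 p2).ne m5

/-- a segment from the origin as an arc -/
theorem conBall_coneSet_singleton {z : E} (hz : z ≠ 0) : ConBall 1 (coneSet {z}) {0, z} := by
  have h := (conBall_Icc (s := 0) (t := 1) one_pos).image_affine
    ((LinearMap.toSpanSingleton ℝ E z).toAffineMap) (fun s t hst => by
      have : s • z = t • z := hst
      exact smul_left_injective ℝ hz this) (by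
      show Continuous fun t : ℝ => t • z
      fun_prop)
  have e1 : (LinearMap.toSpanSingleton ℝ E z).toAffineMap '' Icc 0 1 = coneSet {z} := by
    ext x
    constructor
    · rintro ⟨t, ht, rfl⟩; exact ⟨t, ht, z, rfl, rfl⟩
    · rintro ⟨t, ht, w, rfl, rfl⟩; exact ⟨t, ht, rfl⟩
  have e2 : (LinearMap.toSpanSingleton ℝ E z).toAffineMap '' {0, 1} = {0, z} := by
    rw [image_pair]
    show {(0:ℝ) • z, (1:ℝ) • z} = _
    rw [zero_smul, one_smul]
  rwa [e1, e2] at h

theorem coneSet_inter {B A A' : Set E} (hB : RayBase B) (hA : A ⊆ B) (hA' : A' ⊆ B)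
    (hne : A.Nonempty) (hne' : A'.Nonempty) :
    coneSet A ∩ coneSet A' = coneSet (A ∩ A') ∪ {0} := by
  ext y
  constructor
  · rintro ⟨⟨s, hs, x, hx, rfl⟩, ⟨t, ht, x', hx', he⟩⟩
    rcases hs.1.lt_or_eq with h | h
    · rcases ht.1.lt_or_eq with h' | h'
      · left
        have h1 := hB.unique (hA hx) (hA' hx') h h' he
        exact ⟨s, hs, x, ⟨hx, h1.2 ▸ hx'⟩, rfl⟩
      · right
        rw [he, ← h', zero_smul]; rfl
    · right
      rw [← h, zero_smul]; rfl
  · rintro (⟨s, hs, x, hx, rfl⟩ | h)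
    · exact ⟨⟨s, hs, x, hx.1, rfl⟩, ⟨s, hs, x, hx.2, rfl⟩⟩
    · obtain ⟨x, hx⟩ := hne
      obtain ⟨x', hx'⟩ := hne'
      rw [(show y = 0 from h)]
      exact ⟨⟨0, ⟨le_rfl, zero_le_one⟩, x, hx, (zero_smul _ _).symm⟩,
        ⟨0, ⟨le_rfl, zero_le_one⟩, x', hx', (zero_smul _ _).symm⟩⟩

theorem coneSet_inter_base {B A : Set E} (hB : RayBase B) (hA : A ⊆ B) :
    coneSet A ∩ B = A := by
  ext y
  constructor
  · rintro ⟨⟨s, hs, x, hx, rfl⟩, hy⟩
    rcases hs.1.lt_or_eq with h | h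
    · have : s = 1 := hB.ray x (hA hx) s h hy
      rw [this, one_smul]; exact hx
    · rw [← h, zero_smul] at hy
      exact absurd hy hB.zero_notMem
  · intro hy; exact ⟨subset_coneSet hy, hA hy⟩


/-- the sub-arcs of an arc `e` of a circle cut by the arcs `A i` of the circle -/
theorem exists_subarc {k : ℕ} {A : ZMod k → Set E} {z : ZMod k → E} (hfin : Finite (ZMod k))
    (hA : ∀ i, ConBall 1 (A i) {z i, z (i + 1)})
    (hAA : ∀ i j, i ≠ j → ∀ p ∈ A i ∩ A j, (j = i + 1 ∧ p = z j) ∨ (i = j + 1 ∧ p = z i))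
    {e : Set E} {a b : E} (he : ConBall 1 e {a, b}) (heU : e ⊆ ⋃ i, A i)
    (hone : ∀ i j, z i ∈ e → z j ∈ e → i = j) (hend : ∀ i, z i ∈ e → z i ≠ a ∧ z i ≠ b)
    {i : ZMod k} (hi : (e ∩ A i).Nonempty) :
    ∃ c d, ConBall 1 (e ∩ A i) {c, d} ∧
      ∀ p ∈ e ∩ A i, (p = c ∨ p = d) ↔ (p = a ∨ p = b ∨ ∃ j, p = z j) := by
  classical
  -- a preconnected subset of `e` without the points `z` is in one arc
  have key : ∀ e' : Set E, IsPreconnected e' → e' ⊆ e → (∀ j, z j ∉ e') → ∀ x ∈ e', ∀ m,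
      x ∈ A m → e' ⊆ A m := by
    intro e' hc hs hz x hx m hxm
    have hsub : e' ⊆ A m ∪ ⋃ j : {j // j ≠ m}, A j.1 := by
      intro y hy
      obtain ⟨j, hj⟩ := mem_iUnion.1 (heU (hs hy))
      by_cases hjm : j = m
      · left; rw [← hjm]; exact hj
      · right; exact mem_iUnion.2 ⟨⟨j, hjm⟩, hj⟩
    rcases IsPreconnected.subset_or hc (hA m).isClosed
      (isClosed_iUnion_of_finite (s := fun j : {j // j ≠ m} => A j.1) fun j => (hA j.1).isClosed)
      hsub (by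
        intro y hy h1 h2
        obtain ⟨j, hj⟩ := mem_iUnion.1 h2
        rcases hAA m j.1 j.2.symm y ⟨h1, hj⟩ with ⟨-, h3⟩ | ⟨-, h3⟩
        · exact hz _ (h3 ▸ hy)
        · exact hz _ (h3 ▸ hy)) with h | h
    · exact h
    · exfalso
      obtain ⟨j, hj⟩ := mem_iUnion.1 (h hx)
      rcases hAA m j.1 j.2.symm x ⟨hxm, hj⟩ with ⟨-, h3⟩ | ⟨-, h3⟩
      · exact hz _ (h3 ▸ hx)
      · exact hz _ (h3 ▸ hx)
  by_cases hz : ∃ j, z j ∈ e
  · obtain ⟨j, hj⟩ := hz
    obtain ⟨hja, hjb⟩ := hend j hj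
    obtain ⟨e₁, e₂, h1, h2, h12, hi12⟩ := he.split_arc hj hja hjb
    have s1 : e₁ ⊆ e := h12 ▸ subset_union_left
    have s2 : e₂ ⊆ e := h12 ▸ subset_union_right
    -- each part is in one arc
    have part : ∀ (e' : Set E) (x : E), ConBall 1 e' {z j, x} → e' ⊆ e → ∃ m, e' ⊆ A m := by
      intro e' x h' hs'
      have hx : x ∈ e' \ {z j} := ⟨h'.right_mem, fun h => h'.ne_of_arc h.symm⟩
      obtain ⟨m, hm⟩ := mem_iUnion.1 (heU (hs' hx.1))
      refine ⟨m, ?_⟩
      have h3 : e' \ {z j} ⊆ A m := key _ h'.arc_diff_left (sdiff_subset.trans hs') (by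
        rintro l ⟨hl, hl'⟩
        exact hl' (by rw [hone l j (hs' hl) hj]; rfl)) x hx m hm
      intro y hy
      by_cases hyz : y = z j
      · -- the end point, by closure
        obtain ⟨φ, ha, hb⟩ := h'.exists_interval
        have hcl : z j ∈ closure (e' \ {z j}) := by
          have hT : Tendsto (fun t : ℝ => φ.invFun t) (𝓝[Ioc 0 1] 0) (𝓝 (z j)) := by
            have h0 : (0:ℝ) ∈ Icc (0:ℝ) 1 := ⟨le_rfl, zero_le_one⟩
            have := (φ.cont_inv 0 h0).mono_left (nhdsWithin_mono _ Ioc_subset_Icc_self)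
            have hv : φ.invFun 0 = z j :=
              (congrArg φ.invFun ha).symm.trans (φ.left_inv h'.left_mem)
            rwa [hv] at this
          have hne : (𝓝[Ioc (0:ℝ) 1] 0).NeBot := by
            rw [← mem_closure_iff_nhdsWithin_neBot, closure_Ioc (zero_ne_one)]
            exact ⟨le_rfl, zero_le_one⟩
          refine mem_closure_of_tendsto hT ?_
          filter_upwards [self_mem_nhdsWithin] with t ht
          have ht' : t ∈ Icc (0:ℝ) 1 := ⟨ht.1.le, ht.2⟩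
          refine ⟨φ.mapsTo_inv ht', fun h0 => ?_⟩
          have h6 : φ.toFun (φ.invFun t) = t := φ.right_inv ht'
          rw [(show φ.invFun t = z j from h0), ha] at h6
          exact ht.1.ne h6
        rw [hyz]
        exact (hA m).isClosed.closure_subset_iff.2 h3 hcl
      · exact h3 ⟨hy, hyz⟩
    obtain ⟨m₁, hm₁⟩ := part e₁ a h1 s1
    obtain ⟨m₂, hm₂⟩ := part e₂ b h2 s2
    have hm : m₁ ≠ m₂ := by
      rintro rfl
      -- `z j` is an end point of `A m₁`
      have hzj : z j = z m₁ ∨ z j = z (m₁ + 1) := by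
        by_cases hjm : j = m₁
        · left; rw [hjm]
        · have hmem : z j ∈ A j ∩ A m₁ := ⟨(hA j).left_mem, hm₁ h1.left_mem⟩
          rcases hAA j m₁ hjm _ hmem with ⟨h4, h5⟩ | ⟨h4, h5⟩
          · exact Or.inl h5
          · right; rw [h4]
      rcases hzj with h4 | h4
      · rw [h4] at h1 h2 hi12
        exact (hA m₁).subarcs_meet h1 h2 hm₁ hm₂ hi12
      · rw [h4] at h1 h2 hi12
        exact (hA m₁).arc_symm.subarcs_meet h1 h2 hm₁ hm₂ hi12
    have onlyz : ∀ l m, l ≠ m → ∀ y ∈ e, y ∈ A l → y ∈ A m → y = z j := by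
      intro l m hlm y hy hyl hym
      rcases hAA l m hlm y ⟨hyl, hym⟩ with ⟨-, h4⟩ | ⟨-, h4⟩
      · rw [h4]; rw [hone m j (h4 ▸ hy) hj]
      · rw [h4]; rw [hone l j (h4 ▸ hy) hj]
    have e1A : ∀ m, m ≠ m₁ → m ≠ m₂ → ∀ y ∈ e, y ∉ A m := by
      intro m hm1 hm2 y hy hym
      have hyz : y = z j := by
        rw [← h12] at hy
        rcases hy with hy | hy
        · exact onlyz m m₁ hm1 y (s1 hy) hym (hm₁ hy)
        · exact onlyz m m₂ hm2 y (s2 hy) hym (hm₂ hy)
      -- `z j` is in three arcs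
      rw [hyz] at hym
      have c1 : z j ∈ A m₁ := hm₁ h1.left_mem
      have c2 : z j ∈ A m₂ := hm₂ h2.left_mem
      have cj : ∀ l, z j ∈ A l → l = j ∨ j = l + 1 := by
        intro l hl
        by_cases hjl : j = l
        · exact Or.inl hjl.symm
        · rcases hAA j l hjl _ ⟨(hA j).left_mem, hl⟩ with ⟨h4, h5⟩ | ⟨h4, -⟩
          · rw [h4] at h5
            exact absurd h5 (hA j).ne_of_arc
          · exact Or.inr h4
      have hadd : ∀ l l' : ZMod k, j = l + 1 → j = l' + 1 → l = l' := by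
        intro l l' h4 h5
        exact add_right_cancel (h4.symm.trans h5)
      rcases cj m hym with h4 | h4 <;> rcases cj m₁ c1 with h5 | h5 <;>
        rcases cj m₂ c2 with h6 | h6
      · exact hm1 (h4.trans h5.symm)
      · exact hm1 (h4.trans h5.symm)
      · exact hm2 (h4.trans h6.symm)
      · exact hm (hadd _ _ h5 h6)
      · exact hm (h5.trans h6.symm)
      · exact hm2 (hadd _ _ h4 h6)
      · exact hm1 (hadd _ _ h4 h5)
      · exact hm1 (hadd _ _ h4 h5)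
    obtain ⟨y, hy, hyi⟩ := hi
    have hii : i = m₁ ∨ i = m₂ := by
      by_contra hcon
      push Not at hcon
      exact e1A i hcon.1 hcon.2 y hy hyi
    have calcE : ∀ (e' e'' : Set E) (m m' : ZMod k), m ≠ m' → e' ∪ e'' = e → e' ⊆ A m →
        e'' ⊆ A m' → z j ∈ e' → e ∩ A m = e' := by
      intro e' e'' m m' hmm' hu h3 h4 h5
      ext y
      constructor
      · rintro ⟨hy, hym⟩
        rw [← hu] at hy
        rcases hy with hy | hy
        · exact hy
        · rw [onlyz m m' hmm' y (hu ▸ Or.inr hy) hym (h4 hy)]; exact h5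
      · intro hy; exact ⟨hu ▸ Or.inl hy, h3 hy⟩
    have fin : ∀ (e' e'' : Set E) (x x' : E) (m : ZMod k), (x = a ∧ x' = b ∨ x = b ∧ x' = a) →
        ConBall 1 e' {z j, x} → ConBall 1 e'' {z j, x'} → e' ∩ e'' = {z j} → e' ∪ e'' = e →
        e ∩ A m = e' → ∃ c d, ConBall 1 (e ∩ A m) {c, d} ∧
          ∀ p ∈ e ∩ A m, (p = c ∨ p = d) ↔ (p = a ∨ p = b ∨ ∃ j, p = z j) := by
      intro e' e'' x x' m hxx h3 h4 h5 h6 h7
      rw [h7]
      refine ⟨z j, x, h3, fun p hp => ?_⟩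
      have hx'e : x' ∉ e' := by
        intro h8
        have : x' ∈ ({z j} : Set E) := h5 ▸ ⟨h8, h4.right_mem⟩
        exact h4.ne_of_arc (this : x' = z j).symm
      constructor
      · rintro (h8 | h8)
        · exact Or.inr (Or.inr ⟨j, h8⟩)
        · rcases hxx with ⟨h9, -⟩ | ⟨h9, -⟩
          · exact Or.inl (h8.trans h9)
          · exact Or.inr (Or.inl (h8.trans h9))
      · rintro (h8 | h8 | ⟨l, h8⟩)
        · rcases hxx with ⟨h9, -⟩ | ⟨-, h9⟩
          · exact Or.inr (h8.trans h9.symm)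
          · exfalso; apply hx'e; rw [h9, ← h8]; exact hp
        · rcases hxx with ⟨-, h9⟩ | ⟨h9, -⟩
          · exfalso; apply hx'e; rw [h9, ← h8]; exact hp
          · exact Or.inr (h8.trans h9.symm)
        · left
          have : z l ∈ e := h8 ▸ (h6 ▸ Or.inl hp : p ∈ e)
          rw [h8, hone l j this hj]
    rcases hii with rfl | rfl
    · exact fin e₁ e₂ a b i (Or.inl ⟨rfl, rfl⟩) h1 h2 hi12 h12
        (calcE e₁ e₂ i m₂ hm h12 hm₁ hm₂ h1.left_mem)
    · refine fin e₂ e₁ b a i (Or.inr ⟨rfl, rfl⟩) h2 h1 (by rw [inter_comm]; exact hi12)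
        (by rw [union_comm]; exact h12)
        (calcE e₂ e₁ i m₁ hm.symm (by rw [union_comm]; exact h12) hm₂ hm₁ h2.left_mem)
  · push Not at hz
    obtain ⟨y, hy, hyi⟩ := hi
    have h1 := key e he.isPreconnected (le_refl _) hz y hy i hyi
    have h2 : e ∩ A i = e := inter_eq_left.2 h1
    rw [h2]
    refine ⟨a, b, he, fun p hp => ?_⟩
    constructor
    · rintro (h3 | h3)
      · exact Or.inl h3
      · exact Or.inr (Or.inl h3)
    · rintro (h3 | h3 | ⟨j, h3⟩)
      · exact Or.inl h3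
      · exact Or.inr h3
      · exact absurd (h3 ▸ hp) (hz j)

end P073
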