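import Vale.Agent.P073.PT.ArcGlue
import Mathlib.Data.Set.Finite.Lattice

/-!
# P073, block PT : finite systems of arcs of degree at most two

A finite connected system of conical arcs which meet only in common end points, at most two at a
point, is an arc or a circle.
-/

open Set Metric Topology

namespace P073

variable {E : Type*} [NormedAddCommGroup E] [NormedSpace ℝ E]

/-- A system of arcs `α i` with end points `a i`, `b i`. -/
structure ArcSys {I : Type*} (α : I → Set E) (a b : I → E) : Prop where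
  ball : ∀ i, ConBall 1 (α i) {a i, b i}
  meet : ∀ i j, i ≠ j → ∀ p, p ∈ α i → p ∈ α j → p = a i ∨ p = b i
  deg : ∀ i j k, i ≠ j → j ≠ k → i ≠ k → ∀ p, (p = a i ∨ p = b i) → (p = a j ∨ p = b j) →
    (p = a k ∨ p = b k) → False

namespace ArcSys

variable {I : Type*} {α : I → Set E} {a b : I → E}

/-- `T` is a chain of arcs from `p` to `q` -/
structure IsChain (α : I → Set E) (a b : I → E) (T : Set I) (p q : E) : Prop where
  ball : ConBall 1 (⋃ i ∈ T, α i) {p, q}
  left : ∃ i ∈ T, p = a i ∨ p = b i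
  right : ∃ i ∈ T, q = a i ∨ q = b i
  uniq : ∀ i ∈ T, ∀ j ∈ T, ∀ r, (r = p ∨ r = q) → (r = a i ∨ r = b i) → (r = a j ∨ r = b j) →
    i = j
  shared : ∀ i ∈ T, ∀ r, (r = a i ∨ r = b i) → r ≠ p → r ≠ q →
    ∃ j ∈ T, j ≠ i ∧ (r = a j ∨ r = b j)

theorem IsChain.symm {T : Set I} {p q : E} (h : IsChain α a b T p q) : IsChain α a b T q p where
  ball := by rw [pair_comm]; exact h.ball
  left := h.right
  right := h.left
  uniq := fun i hi j hj r hr => h.uniq i hi j hj r hr.symm
  shared := fun i hi r hr h1 h2 => h.shared i hi r hr h2 h1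

variable (h : ArcSys α a b)
include h

theorem chain_singleton (i : I) : IsChain α a b {i} (a i) (b i) where
  ball := by simpa using h.ball i
  left := ⟨i, rfl, Or.inl rfl⟩
  right := ⟨i, rfl, Or.inr rfl⟩
  uniq := by rintro j rfl k rfl _ _ _ _; rfl
  shared := by
    rintro j rfl r hr h1 h2
    rcases hr with hr | hr
    · exact absurd hr h1
    · exact absurd hr h2

theorem mem_left (i : I) : a i ∈ α i := (h.ball i).1 (mem_insert _ _)
theorem mem_right (i : I) : b i ∈ α i := (h.ball i).1 (mem_insert_of_mem _ rfl)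

theorem mem_of_end {i : I} {r : E} (hr : r = a i ∨ r = b i) : r ∈ α i := by
  rcases hr with rfl | rfl
  · exact h.mem_left i
  · exact h.mem_right i

/-- the other end point -/
theorem exists_other {j : I} {q : E} (hq : q = a j ∨ q = b j) :
    ∃ r, ConBall 1 (α j) {q, r} ∧ ∀ x, (x = a j ∨ x = b j) ↔ (x = q ∨ x = r) := by
  rcases hq with rfl | rfl
  · exact ⟨b j, h.ball j, fun x => Iff.rfl⟩
  · exact ⟨a j, by rw [pair_comm]; exact h.ball j, fun x => or_comm⟩

/-- the extension step -/
theorem chain_extend {T : Set I} {p q : E} (hT : IsChain α a b T p q) {j : I} (hj : j ∉ T)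
    (hq : q = a j ∨ q = b j) :
    (∃ r, IsChain α a b (insert j T) p r) ∨
    (ConSphere 1 (⋃ i ∈ insert j T, α i) ∧ ∀ i ∈ insert j T, ∀ r, (r = a i ∨ r = b i) →
      ∃ k ∈ insert j T, k ≠ i ∧ (r = a k ∨ r = b k)) := by
  obtain ⟨r, hball, hends⟩ := h.exists_other hq
  have hpq : p ≠ q := hT.ball.ne
  have hqr : q ≠ r := hball.ne
  have hU : ⋃ i ∈ insert j T, α i = (⋃ i ∈ T, α i) ∪ α j := by
    rw [biUnion_insert, union_comm]
  obtain ⟨ip, hip, hip'⟩ := hT.left
  obtain ⟨iq, hiq, hiq'⟩ := hT.right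
  have hpU : p ∈ ⋃ i ∈ T, α i := mem_biUnion hip (h.mem_of_end hip')
  by_cases hr : r ∈ ⋃ i ∈ T, α i
  · -- closing up
    right
    obtain ⟨i, hi, hri⟩ := mem_iUnion₂.1 hr
    have hij : i ≠ j := fun h' => hj (h' ▸ hi)
    have hrj : r = a j ∨ r = b j := (hends r).2 (Or.inr rfl)
    have hri' : r = a i ∨ r = b i := h.meet i j hij r hri (h.mem_of_end hrj)
    have hrp : r = p := by
      by_contra hne
      obtain ⟨k, hk, hki, hkr⟩ := hT.shared i hi r hri' hne hqr.symm
      exact h.deg i k j hki.symm (fun h' => hj (h' ▸ hk)) hij r hri' hkr hrj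
    subst hrp
    constructor
    · rw [hU]
      refine ConBall.circle hT.ball (by rw [pair_comm]; exact hball) ?_
      rintro x ⟨hx, hxj⟩
      obtain ⟨i', hi', hxi'⟩ := mem_iUnion₂.1 hx
      have := h.meet j i' (fun h' => hj (h' ▸ hi')) x hxj hxi'
      rcases (hends x).1 this with h1 | h1
      · exact Or.inr h1
      · exact Or.inl h1
    · rintro k hk x hx
      by_cases hxp : x = r
      · subst hxp
        by_cases hkj : k = j
        · subst hkj
          exact ⟨ip, mem_insert_of_mem _ hip, fun h' => hj (h' ▸ hip), hip'⟩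
        · exact ⟨j, mem_insert _ _, fun h' => hkj h'.symm, hrj⟩
      · by_cases hxq : x = q
        · subst hxq
          by_cases hkj : k = j
          · subst hkj
            exact ⟨iq, mem_insert_of_mem _ hiq, fun h' => hj (h' ▸ hiq), hiq'⟩
          · exact ⟨j, mem_insert _ _, fun h' => hkj h'.symm, hq⟩
        · rcases hk with hk | hk
          · subst hk
            rcases (hends x).1 hx with h1 | h1
            · exact absurd h1 hxq
            · exact absurd h1 hxp
          · obtain ⟨l, hl, hlk, hlx⟩ := hT.shared k hk x hx hxp hxq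
            exact ⟨l, mem_insert_of_mem _ hl, hlk, hlx⟩
  · -- a longer chain
    left
    have hrj : r = a j ∨ r = b j := (hends r).2 (Or.inr rfl)
    have hTr : ∀ i ∈ T, ¬ (r = a i ∨ r = b i) := fun i hi h' =>
      hr (mem_biUnion hi (h.mem_of_end h'))
    have hpr : p ≠ r := fun h' => hr (h' ▸ hpU)
    have hpj : ¬ (p = a j ∨ p = b j) := fun h' => by
      rcases (hends p).1 h' with h1 | h1
      · exact hpq h1
      · exact hpr h1
    refine ⟨r, ?_, ⟨ip, mem_insert_of_mem _ hip, hip'⟩, ⟨j, mem_insert _ _, hrj⟩, ?_, ?_⟩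
    · rw [hU]
      refine hT.ball.concat hball ?_
      rintro x ⟨hx, hxj⟩
      obtain ⟨i', hi', hxi'⟩ := mem_iUnion₂.1 hx
      have := h.meet j i' (fun h' => hj (h' ▸ hi')) x hxj hxi'
      rcases (hends x).1 this with h1 | h1
      · exact h1
      · subst h1; exact absurd hx hr
    · intro i hi k hk x hx hxi hxk
      rcases hx with rfl | rfl
      · have hi' : i ∈ T := by
          rcases hi with hi | hi
          · subst hi; exact absurd hxi hpj
          · exact hi
        have hk' : k ∈ T := by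
          rcases hk with hk | hk
          · subst hk; exact absurd hxk hpj
          · exact hk
        exact hT.uniq i hi' k hk' x (Or.inl rfl) hxi hxk
      · have hi' : i = j := by
          rcases hi with hi | hi
          · exact hi
          · exact absurd hxi (hTr i hi)
        have hk' : k = j := by
          rcases hk with hk | hk
          · exact hk
          · exact absurd hxk (hTr k hk)
        rw [hi', hk']
    · intro i hi x hx hxp hxr
      rcases hi with hi | hi
      · subst hi
        rcases (hends x).1 hx with h1 | h1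
        · subst h1
          exact ⟨iq, mem_insert_of_mem _ hiq, fun h' => hj (h' ▸ hiq), hiq'⟩
        · exact absurd h1 hxr
      · by_cases hxq : x = q
        · subst hxq
          exact ⟨j, mem_insert _ _, fun h' => hj (h' ▸ hi), hq⟩
        · obtain ⟨l, hl, hlk, hlx⟩ := hT.shared i hi x hx hxp hxq
          exact ⟨l, mem_insert_of_mem _ hl, hlk, hlx⟩

/-- **A finite connected system of arcs of degree at most two is an arc or a circle.** -/
theorem arc_or_circle {S : Set I} (hS : S.Finite) (hne : S.Nonempty)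
    (hconn : ∀ T ⊆ S, T.Nonempty → (∀ i ∈ T, ∀ j ∈ S, (∃ p, (p = a i ∨ p = b i) ∧
      (p = a j ∨ p = b j)) → j ∈ T) → T = S) :
    (∃ p q, IsChain α a b S p q) ∨
    (ConSphere 1 (⋃ i ∈ S, α i) ∧ ∀ i ∈ S, ∀ r, (r = a i ∨ r = b i) →
      ∃ k ∈ S, k ≠ i ∧ (r = a k ∨ r = b k)) := by
  classical
  obtain ⟨i₀, hi₀⟩ := hne
  have hfin : {T : Set I | T ⊆ S ∧ ∃ p q, IsChain α a b T p q}.Finite :=
    hS.finite_subsets.subset fun T hT => hT.1
  obtain ⟨T, ⟨hTS, p, q, hT⟩, hmax⟩ := hfin.exists_maximalFor (fun T : Set I => T) _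
    ⟨{i₀}, singleton_subset_iff.2 hi₀, a i₀, b i₀, h.chain_singleton i₀⟩
  have hTne : T.Nonempty := ⟨_, hT.left.choose_spec.1⟩
  -- either closing up or no further arc at the end points
  have step : ∀ p q, IsChain α a b T p q → ∀ j ∈ S, (q = a j ∨ q = b j) → j ∉ T →
      (ConSphere 1 (⋃ i ∈ S, α i) ∧ ∀ i ∈ S, ∀ r, (r = a i ∨ r = b i) →
      ∃ k ∈ S, k ≠ i ∧ (r = a k ∨ r = b k)) := by
    intro p q hT j hjS hjq hjT
    have hsub : insert j T ⊆ S := insert_subset hjS hTS
    rcases h.chain_extend hT hjT hjq with ⟨r, hr⟩ | ⟨h1, h2⟩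
    · exact absurd (hmax ⟨hsub, p, r, hr⟩ (subset_insert j T) (mem_insert j T)) hjT
    · have hS' : insert j T = S := by
        refine hconn _ hsub ⟨j, mem_insert _ _⟩ ?_
        rintro i hi k hk ⟨x, hxi, hxk⟩
        by_contra hkT
        obtain ⟨l, hl, hli, hlx⟩ := h2 i hi x hxi
        exact h.deg i l k hli.symm (fun h' => hkT (h' ▸ hl)) (fun h' => hkT (h' ▸ hi)) x hxi hlx
          hxk
      rw [hS'] at h1 h2
      exact ⟨h1, h2⟩
  by_cases hex : ∃ j ∈ S, j ∉ T ∧ ((p = a j ∨ p = b j) ∨ (q = a j ∨ q = b j))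
  · right
    obtain ⟨j, hjS, hjT, h1 | h1⟩ := hex
    · exact step q p hT.symm j hjS h1 hjT
    · exact step p q hT j hjS h1 hjT
  · left
    push Not at hex
    have hTS' : T = S := by
      refine hconn _ hTS hTne ?_
      rintro i hi k hk ⟨x, hxi, hxk⟩
      by_contra hkT
      obtain ⟨h1, h2⟩ := hex k hk hkT
      have hxp : x ≠ p := by
        rintro rfl
        rcases hxk with h' | h'
        · exact h1.1 h'
        · exact h1.2 h'
      have hxq : x ≠ q := by
        rintro rfl
        rcases hxk with h' | h'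
        · exact h2.1 h'
        · exact h2.2 h'
      obtain ⟨l, hl, hli, hlx⟩ := hT.shared i hi x hxi hxp hxq
      exact h.deg i l k hli.symm (fun h' => hkT (h' ▸ hl)) (fun h' => hkT (h' ▸ hi)) x hxi hlx hxk
    rw [← hTS']
    exact ⟨p, q, hT⟩

end ArcSys

end P073
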