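import Vale.Agent.P073.PT.MosConn
import Vale.Agent.P073.PT.ArcSys
import Vale.Agent.P073.PT.Spec

/-!
# P073, block PT : a connected set of cells with connected complement is a disc

The frontier of the set of cells is required to be regular: at every vertex it has no or exactly
two arcs.
-/

open Set Metric Topology

namespace P073.PT

open Vale.Agent.P073 Vale.Agent.P073.HOne

variable {E : Type} [NormedAddCommGroup E] [NormedSpace ℝ E]

/-- the frontier pairs of a set of cells -/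
def FP {V : Type*} (R : V → Set E) (H : Set V) : Set (V × V) :=
  {e | e.1 ∈ H ∧ e.2 ∉ H ∧ Nb R e.1 e.2}

/-- the common arc of the cells of a pair -/
def arc {V : Type*} (R : V → Set E) (e : V × V) : Set E := R e.1 ∩ R e.2

/-- `p` is a vertex on the common arc of the pair `e` -/
def Vtx {V : Type*} (R : V → Set E) (e : V × V) (p : E) : Prop :=
  p ∈ arc R e ∧ ∃ u, u ≠ e.1 ∧ u ≠ e.2 ∧ p ∈ R u

/-- the frontier of `H` is regular -/
def Reg {V : Type*} (R : V → Set E) (H : Set V) : Prop :=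
  ∀ e ∈ FP R H, ∀ p, Vtx R e p → ∃ e' ∈ FP R H, e' ≠ e ∧ Vtx R e' p ∧
    ∀ e'' ∈ FP R H, Vtx R e'' p → e'' = e ∨ e'' = e'

variable {V : Type*} {F : Set E} {R bd : V → Set E} (M : Mosaic F R bd)
include M

theorem exists_ends : ∃ a b : V × V → E, ∀ e : V × V, e.1 ≠ e.2 → Nb R e.1 e.2 →
    ConBall 1 (arc R e) {a e, b e} ∧ ∀ p, Vtx R e p ↔ p = a e ∨ p = b e := by
  have h : ∀ e : V × V, ∃ a b : E, e.1 ≠ e.2 → Nb R e.1 e.2 →
      ConBall 1 (arc R e) {a, b} ∧ ∀ p, Vtx R e p ↔ p = a ∨ p = b := by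
    intro e
    by_cases h1 : e.1 ≠ e.2
    · by_cases h2 : Nb R e.1 e.2
      · obtain ⟨a, b, h3, h4⟩ := M.edge e.1 e.2 h1 h2
        refine ⟨a, b, fun _ _ => ⟨h3, fun p => ⟨fun hp => (h4 p hp.1).1 hp.2, fun hp => ?_⟩⟩⟩
        have hpa : p ∈ R e.1 ∩ R e.2 := by
          rcases hp with rfl | rfl
          · exact h3.1 (mem_insert _ _)
          · exact h3.1 (mem_insert_of_mem _ rfl)
        exact ⟨hpa, (h4 p hpa).2 hp⟩
      · exact ⟨0, 0, fun _ h => absurd h h2⟩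
    · exact ⟨0, 0, fun h => absurd h h1⟩
  choose a b hab using h
  exact ⟨a, b, hab⟩

omit [NormedAddCommGroup E] [NormedSpace ℝ E] M in
/-- a point of two different arcs is a vertex -/
theorem vtx_of_ne {e e' : V × V} {p : E} (hp : p ∈ arc R e) (hp' : p ∈ arc R e')
    (h1 : e'.1 ≠ e'.2) (hne : ¬ ((e'.1 = e.1 ∧ e'.2 = e.2) ∨ (e'.1 = e.2 ∧ e'.2 = e.1))) :
    Vtx R e p := by
  refine ⟨hp, ?_⟩
  by_cases h2 : e'.1 = e.1 ∨ e'.1 = e.2
  · refine ⟨e'.2, fun h3 => ?_, fun h3 => ?_, hp'.2⟩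
    · rcases h2 with h2 | h2
      · exact h1 (h2.trans h3.symm)
      · exact hne (Or.inr ⟨h2, h3⟩)
    · rcases h2 with h2 | h2
      · exact hne (Or.inl ⟨h2, h3⟩)
      · exact h1 (h2.trans h3.symm)
  · push Not at h2
    exact ⟨e'.1, h2.1, h2.2, hp'.1⟩

omit [NormedAddCommGroup E] [NormedSpace ℝ E] M in
theorem fp_ne {H : Set V} {e : V × V} (he : e ∈ FP R H) : e.1 ≠ e.2 := fun h => he.2.1 (h ▸ he.1)

omit M in
theorem vtx_of_fp {H : Set V} {e e' : V × V} {p : E} (he : e ∈ FP R H) (he' : e' ∈ FP R H)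
    (hne : e ≠ e') (hp : p ∈ arc R e) (hp' : p ∈ arc R e') : Vtx R e p := by
  refine vtx_of_ne hp hp' (fp_ne he') ?_
  rintro (⟨h1, h2⟩ | ⟨h1, h2⟩)
  · exact hne (Prod.ext h1.symm h2.symm)
  · exact he.2.1 (h1 ▸ he'.1)

theorem inter_subset_bd {v w : V} (h : v ≠ w) : R v ∩ R w ⊆ bd v := by
  rw [M.bdry v]
  exact subset_biUnion_of_mem (u := fun w => R v ∩ R w) (show w ∈ {w | w ≠ v} from h.symm)

/-- the frontier is in the boundaries of the cells -/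
theorem front_subset_bd {H : Set V} (v : V) : R v ∩ (⋃ e ∈ FP R H, arc R e) ⊆ bd v := by
  rintro p ⟨hpv, hp⟩
  obtain ⟨e, he, h1, h2⟩ := mem_iUnion₂.1 hp
  by_cases hv : v = e.1
  · exact inter_subset_bd M (fun h => fp_ne he (hv.symm.trans h)) ⟨hpv, h2⟩
  · exact inter_subset_bd M hv ⟨hpv, h1⟩

/-- an arc which is not a frontier arc contains points off the frontier -/
theorem arc_diff_nonempty {H : Set V} {v w : V} (hvw : v ≠ w) (hnb : Nb R v w)
    (hH : v ∈ H ↔ w ∈ H) : ((R v ∩ R w) \ (⋃ e ∈ FP R H, arc R e)).Nonempty := by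
  obtain ⟨a, b, hab⟩ := exists_ends M
  obtain ⟨h1, h2⟩ := hab (v, w) hvw hnb
  obtain ⟨p, hp, hpn⟩ := int_nonempty h1
  refine ⟨p, hp, fun hΦ => hpn ?_⟩
  obtain ⟨e, he, hpe⟩ := mem_iUnion₂.1 hΦ
  have := (h2 p).1 (vtx_of_ne hp hpe (fp_ne he) ?_)
  · exact this
  · rintro (⟨h3, h4⟩ | ⟨h3, h4⟩)
    · refine he.2.1 ?_
      rw [h4]
      have h5 := he.1
      rw [h3] at h5
      exact hH.1 h5
    · refine he.2.1 ?_
      rw [h4]
      have h5 := he.1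
      rw [h3] at h5
      exact hH.2 h5

omit M in
theorem arcSys_of_reg {H : Set V} (hreg : Reg R H) {a b : V × V → E}
    (hab : ∀ e : V × V, e.1 ≠ e.2 → Nb R e.1 e.2 →
      ConBall 1 (arc R e) {a e, b e} ∧ ∀ p, Vtx R e p ↔ p = a e ∨ p = b e) :
    ArcSys (I := {e // e ∈ FP R H}) (fun e => arc R e.1) (fun e => a e.1) (fun e => b e.1) where
  ball := fun e => (hab e.1 (fp_ne e.2) e.2.2.2).1
  meet := fun i j hij p hp hp' => ((hab i.1 (fp_ne i.2) i.2.2.2).2 p).1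
    (vtx_of_fp i.2 j.2 (fun h => hij (Subtype.ext h)) hp hp')
  deg := by
    intro i j k hij hjk hik p hi hj hk
    obtain ⟨e', he', -, -, hu⟩ := hreg i.1 i.2 p (((hab i.1 (fp_ne i.2) i.2.2.2).2 p).2 hi)
    have h1 := hu j.1 j.2 (((hab j.1 (fp_ne j.2) j.2.2.2).2 p).2 hj)
    have h2 := hu k.1 k.2 (((hab k.1 (fp_ne k.2) k.2.2.2).2 p).2 hk)
    rcases h1 with h1 | h1
    · exact hij (Subtype.ext h1.symm)
    · rcases h2 with h2 | h2
      · exact hik (Subtype.ext h2.symm)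
      · exact hjk (Subtype.ext (h1.trans h2.symm))

theorem fp_finite {H : Set V} (hH : H.Finite) : (FP R H).Finite := by
  have hK : IsCompact (⋃ v ∈ H, R v) := hH.isCompact_biUnion fun v _ => (M.ball v).isCompact
  have hKF : (⋃ v ∈ H, R v) ⊆ F := iUnion₂_subset fun v _ => cell_subset M v
  refine (hH.prod (finite_of_compact M hK hKF)).subset ?_
  rintro e ⟨h1, -, h3⟩
  obtain ⟨p, hp1, hp2⟩ := h3.nonempty
  exact ⟨h1, p, hp2, mem_biUnion h1 hp1⟩

/-- the union of the cells of `H` is the closed side `Δ` of a circle of frontier arcs -/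
theorem eq_of_circle {D B : Set E} (hD : SurfDisc F D B) {H : Set V} (hH : H ⊆ win M D B)
    {v₀ : V} (hv₀ : v₀ ∈ H) (hconn : Conn (Nb R) H)
    (hcompl : Conn (Nb R) (Hᶜ ∩ {u | HOne.Joined (Nb R) univ v₀ u}))
    (hz : ∃ z, z ∉ win M D B ∧ HOne.Joined (Nb R) univ v₀ z)
    {c Δ : Set E} (hcΦ : c ⊆ ⋃ e ∈ FP R H, arc R e) (hΔ : ConBall 2 Δ c) (hΔD : Δ ⊆ D \ B)
    (hΔU : ∃ U, IsOpen U ∧ Δ \ c = D ∩ U) :
    (⋃ v ∈ H, R v) = Δ ∧ (⋃ e ∈ FP R H, arc R e) = c := by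
  set Φ : Set E := ⋃ e ∈ FP R H, arc R e with hΦdef
  set comp : Set V := {u | HOne.Joined (Nb R) univ v₀ u} with hcompdef
  -- `Δ \ c` is open in `F`
  obtain ⟨U', hU', hΔF⟩ : ∃ U', IsOpen U' ∧ Δ \ c = F ∩ U' := by
    obtain ⟨U, hU, h1⟩ := hΔU
    obtain ⟨-, hDF, U₀, hU₀, h2⟩ := hD
    refine ⟨U₀ ∩ U, hU₀.inter hU, ?_⟩
    rw [← inter_assoc, ← h2]
    apply Subset.antisymm
    · intro x hx
      have h3 : x ∈ D ∩ U := h1 ▸ hx
      exact ⟨hΔD hx.1, h3.2⟩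
    · rintro x ⟨hx, hxU⟩
      rw [h1]; exact ⟨hx.1, hxU⟩
  have hΔSD : SurfDisc F Δ c := ⟨hΔ, fun x hx => hD.2.1 (hΔD hx).1, U', hU', hΔF⟩
  -- the two open sides
  have hX : IsPreconnected (⋃ v ∈ H, R v \ Φ) := by
    refine preconn_diff M hconn (fun v _ => front_subset_bd M v) ?_
    intro v hv w hw hvw hnb
    exact arc_diff_nonempty M hvw hnb ⟨fun _ => hw, fun _ => hv⟩
  have hY : IsPreconnected (⋃ v ∈ Hᶜ ∩ comp, R v \ Φ) := by
    refine preconn_diff M hcompl (fun v _ => front_subset_bd M v) ?_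
    intro v hv w hw hvw hnb
    exact arc_diff_nonempty M hvw hnb ⟨fun h => absurd h hv.1, fun h => absurd h hw.1⟩
  have hXF : (⋃ v ∈ H, R v \ Φ) ⊆ F := iUnion₂_subset fun v _ => sdiff_subset.trans (cell_subset M v)
  have hYF : (⋃ v ∈ Hᶜ ∩ comp, R v \ Φ) ⊆ F :=
    iUnion₂_subset fun v _ => sdiff_subset.trans (cell_subset M v)
  have hXc : Disjoint (⋃ v ∈ H, R v \ Φ) c := by
    rw [disjoint_left]
    intro x hx hxc
    obtain ⟨v, -, hv⟩ := mem_iUnion₂.1 hx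
    exact hv.2 (hcΦ hxc)
  have hYc : Disjoint (⋃ v ∈ Hᶜ ∩ comp, R v \ Φ) c := by
    rw [disjoint_left]
    intro x hx hxc
    obtain ⟨v, -, hv⟩ := mem_iUnion₂.1 hx
    exact hv.2 (hcΦ hxc)
  -- a point of a cell in `H` and of a cell off `H` is in `Φ`
  have hmix : ∀ p v w, v ∈ H → p ∈ R v → w ∉ H → p ∈ R w → p ∈ Φ := by
    intro p v w hv hp hw hp'
    obtain ⟨x, y, h1, h2, h3, h4, h5⟩ := exists_front M hv hp hw hp'
    exact mem_biUnion (show (x, y) ∈ FP R H from ⟨h1, h2, h3⟩) ⟨h4, h5⟩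
  -- the far side is outside
  have hYΔ : Disjoint (⋃ v ∈ Hᶜ ∩ comp, R v \ Φ) Δ := by
    rcases hΔSD.in_or_out hY hYF hYc with h | h
    · exfalso
      obtain ⟨z, hz, hzc⟩ := hz
      have hzH : z ∉ H := fun h' => hz (hH h')
      obtain ⟨q, hq, hq'⟩ : ∃ q ∈ R z, q ∉ D \ B := by
        by_contra hne
        push Not at hne
        exact hz hne
      have hqΦ : q ∉ Φ := by
        intro hqΦ
        obtain ⟨e, he, hqe⟩ := mem_iUnion₂.1 hqΦ
        exact hq' (hH he.1 hqe.1)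
      have : q ∈ ⋃ v ∈ Hᶜ ∩ comp, R v \ Φ :=
        mem_biUnion (show z ∈ Hᶜ ∩ comp from ⟨hzH, hzc⟩) ⟨hq, hqΦ⟩
      exact hq' (hΔD (h this).1)
    · exact h
  -- cells meeting `Δ` are in the component
  have hΔcomp : ∀ u, (R u ∩ Δ).Nonempty → u ∈ comp := by
    intro u hu
    obtain ⟨x, hx⟩ := circle_nonempty hΔ.conSphere
    obtain ⟨e, he, hxe⟩ := mem_iUnion₂.1 (hcΦ hx)
    have h1 : HOne.Joined (Nb R) univ v₀ e.1 := (hconn v₀ hv₀ e.1 he.1).mono (subset_univ _)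
    have h2 := joined_of_preconn M (preconn_ball hΔ) hΔSD.2.1 ⟨x, hxe.1, hΔ.1 hx⟩ hu
    exact h1.trans (h2.mono (subset_univ _))
  -- interior points of cells near a point of `Δ \ c`
  have hnear : ∀ u p, p ∈ R u → p ∈ Δ \ c → ∃ q ∈ R u, q ∉ Φ ∧ q ∈ Δ \ c := by
    intro u p hp hpΔ
    rw [hΔF] at hpΔ
    obtain ⟨q, hqU, hq, hqb⟩ := mem_closure_iff.1 (subset_closure_int (M.ball u) hp) U' hU' hpΔ.2
    refine ⟨q, hq, fun hΦ => hqb (front_subset_bd M u ⟨hq, hΦ⟩), ?_⟩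
    rw [hΔF]; exact ⟨cell_subset M u hq, hqU⟩
  -- no cell off `H` meets the inside
  have hout : ∀ u p, p ∈ R u → p ∈ Δ \ c → u ∈ H := by
    intro u p hp hpΔ
    by_contra huH
    obtain ⟨q, hq, hqΦ, hqΔ⟩ := hnear u p hp hpΔ
    have huc : u ∈ comp := hΔcomp u ⟨p, hp, hpΔ.1⟩
    exact disjoint_left.1 hYΔ (mem_biUnion (show u ∈ Hᶜ ∩ comp from ⟨huH, huc⟩) ⟨hq, hqΦ⟩) hqΔ.1
  -- the near side is inside
  have hXΔ : (⋃ v ∈ H, R v \ Φ) ⊆ Δ \ c := by
    rcases hΔSD.in_or_out hX hXF hXc with h | h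
    · exact h
    · exfalso
      obtain ⟨d, hd⟩ := int_nonempty hΔ
      obtain ⟨u, hu⟩ := exists_cell M (hΔSD.2.1 hd.1)
      obtain ⟨q, hq, hqΦ, hqΔ⟩ := hnear u d hu hd
      exact disjoint_left.1 h (mem_biUnion (hout u d hu hd) ⟨hq, hqΦ⟩) hqΔ.1
  have hsub : (⋃ v ∈ H, R v) ⊆ Δ := by
    refine iUnion₂_subset fun v hv => ?_
    have h1 : R v \ bd v ⊆ Δ := by
      rintro x ⟨hx, hxb⟩
      refine (hXΔ (mem_biUnion hv ⟨hx, fun hΦ => hxb (front_subset_bd M v ⟨hx, hΦ⟩)⟩)).1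
    exact (subset_closure_int (M.ball v)).trans (closure_minimal h1 hΔ.isClosed)
  have hXeq : (⋃ v ∈ H, R v) = Δ := by
    apply Subset.antisymm hsub
    intro x hx
    obtain ⟨u, hu⟩ := exists_cell M (hΔSD.2.1 hx)
    by_cases hxc : x ∈ c
    · obtain ⟨e, he, hxe⟩ := mem_iUnion₂.1 (hcΦ hxc)
      exact mem_biUnion he.1 hxe.1
    · exact mem_biUnion (hout u x hu ⟨hx, hxc⟩) hu
  refine ⟨hXeq, Subset.antisymm ?_ hcΦ⟩
  intro p hp
  by_contra hpc
  obtain ⟨e, he, hpe⟩ := mem_iUnion₂.1 hp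
  have hpΔ : p ∈ Δ := hsub (mem_biUnion he.1 hpe.1)
  exact he.2.1 (hout e.2 p hpe.2 ⟨hpΔ, hpc⟩)

/-- **A connected set of cells with connected complement and regular frontier is a disc**, and its
frontier is connected. -/
theorem disc_of_reg (hS : SchDisc E) {D B : Set E} (hD : SurfDisc F D B) {H : Set V}
    (hH : H ⊆ win M D B) {v₀ : V} (hv₀ : v₀ ∈ H) (hconn : Conn (Nb R) H)
    (hcompl : Conn (Nb R) (Hᶜ ∩ {u | HOne.Joined (Nb R) univ v₀ u}))
    (hz : ∃ z, z ∉ win M D B ∧ HOne.Joined (Nb R) univ v₀ z) (hreg : Reg R H) :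
    ConBall 2 (⋃ v ∈ H, R v) (⋃ e ∈ FP R H, arc R e) ∧
    ∀ T ⊆ FP R H, T.Nonempty → (∀ e ∈ T, ∀ e' ∈ FP R H, (∃ p, Vtx R e p ∧ Vtx R e' p) → e' ∈ T) →
      T = FP R H := by
  obtain ⟨a, b, hab⟩ := exists_ends M
  have hsys := arcSys_of_reg hreg hab
  have hHfin : H.Finite := (win_finite M hD).subset hH
  have hfin : Finite {e // e ∈ FP R H} := fp_finite M hHfin
  have hend : ∀ (i : {e // e ∈ FP R H}) (p : E), Vtx R i.1 p ↔ p = a i.1 ∨ p = b i.1 :=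
    fun i p => (hab i.1 (fp_ne i.2) i.2.2.2).2 p
  -- the component of a frontier arc
  let Share : {e // e ∈ FP R H} → {e // e ∈ FP R H} → Prop := fun i j =>
    ∃ p, (p = a i.1 ∨ p = b i.1) ∧ (p = a j.1 ∨ p = b j.1)
  have hshare_symm : ∀ i j, Share i j → Share j i := fun i j ⟨p, h1, h2⟩ => ⟨p, h2, h1⟩
  have main : ∀ i₀ : {e // e ∈ FP R H}, ConBall 2 (⋃ v ∈ H, R v) (⋃ e ∈ FP R H, arc R e) ∧
      ∀ i, Relation.ReflTransGen Share i₀ i := by
    intro i₀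
    let S : Set {e // e ∈ FP R H} := {i | Relation.ReflTransGen Share i₀ i}
    have hcc := hsys.arc_or_circle (S := S) (toFinite S) ⟨i₀, Relation.ReflTransGen.refl⟩ (by
      intro T hTS hTne hTcl
      apply Subset.antisymm hTS
      obtain ⟨i₁, hi₁⟩ := hTne
      intro i hi
      have hrev : ∀ x, Relation.ReflTransGen Share i₀ x → Relation.ReflTransGen Share x i₀ := by
        intro x hx
        induction hx with
        | refl => exact Relation.ReflTransGen.refl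
        | tail _ h2 ih => exact Relation.ReflTransGen.head (hshare_symm _ _ h2) ih
      have h1 : Relation.ReflTransGen Share i₁ i := (hrev i₁ (hTS hi₁)).trans hi
      have key : ∀ x, Relation.ReflTransGen Share i₁ x → x ∈ T := by
        intro x hx
        induction hx with
        | refl => exact hi₁
        | @tail y z _ h2 ih =>
          exact hTcl y ih z ((hTS ih).tail h2) h2
      exact key i h1)
    have hcirc : ConSphere 1 (⋃ i ∈ S, arc R i.1) := by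
      rcases hcc with ⟨p, q, hch⟩ | hcc
      · exfalso
        obtain ⟨i, hi, hpi⟩ := hch.left
        obtain ⟨e', he', hne, hv, -⟩ := hreg i.1 i.2 p ((hend i p).2 hpi)
        have hS' : (⟨e', he'⟩ : {e // e ∈ FP R H}) ∈ S :=
          (show Relation.ReflTransGen Share i₀ i from hi).tail
            ⟨p, hpi, (hend ⟨e', he'⟩ p).1 hv⟩
        have := hch.uniq i hi ⟨e', he'⟩ hS' p (Or.inl rfl) hpi ((hend ⟨e', he'⟩ p).1 hv)
        exact hne (congrArg Subtype.val this).symm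
      · exact hcc.1
    set c : Set E := ⋃ i ∈ S, arc R i.1 with hc
    have hcD : c ⊆ D \ B := by
      refine iUnion₂_subset fun i _ => ?_
      exact fun p hp => hH i.2.1 hp.1
    have hcΦ : c ⊆ ⋃ e ∈ FP R H, arc R e := by
      refine iUnion₂_subset fun i _ => ?_
      exact subset_biUnion_of_mem (u := fun e => arc R e) i.2
    obtain ⟨Δ, hΔ, hΔD, hΔU⟩ := hS D B c hD.1 hcirc hcD
    obtain ⟨h1, h2⟩ := eq_of_circle M hD hH hv₀ hconn hcompl hz hcΦ hΔ hΔD hΔU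
    refine ⟨by rw [h1, h2]; exact hΔ, ?_⟩
    intro i
    by_contra hi
    obtain ⟨p, hp, hpn⟩ := int_nonempty (hsys.ball i)
    have hpc : p ∈ c := h2 ▸ mem_biUnion i.2 hp
    obtain ⟨j, hj, hpj⟩ := mem_iUnion₂.1 hpc
    have hij : i ≠ j := fun h => hi (h ▸ hj)
    exact hpn (hsys.meet i j hij p hp hpj)
  -- there is a frontier arc
  obtain ⟨z, hz1, hz2⟩ := hz
  obtain ⟨x, -, y, -, hx, hy, hxy⟩ := exists_step hz2 hv₀ (fun h => hz1 (hH h))
  obtain ⟨h1, -⟩ := main ⟨(x, y), hx, hy, hxy⟩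
  refine ⟨h1, ?_⟩
  intro T hT hTne hTcl
  apply Subset.antisymm hT
  obtain ⟨e₀, he₀⟩ := hTne
  intro e he
  obtain ⟨-, h2⟩ := main ⟨e₀, hT he₀⟩
  have h3 := h2 ⟨e, he⟩
  have key : ∀ i, Relation.ReflTransGen Share ⟨e₀, hT he₀⟩ i → i.1 ∈ T := by
    intro i hi
    induction hi with
    | refl => exact he₀
    | @tail y z _ h4 ih =>
      obtain ⟨p, hp1, hp2⟩ := h4
      exact hTcl y.1 ih z.1 z.2 ⟨p, (hend y p).2 hp1, (hend z p).2 hp2⟩
  exact key _ h3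

end P073.PT
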