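import Vale.Agent.P073.PT.MosTile

/-!
# P073, block PT : interfaces between maximal hulls
-/

open Set Metric Topology

namespace P073.PT

open Vale.Agent.P073 Vale.Agent.P073.HOne Vale.Agent.P073.PT

/-! ### interface pairs with respect to a partition `G` -/

section combi

variable {E : Type} {V : Type} {R : V → Set E} {G : V → Set V}

/-- interface pairs -/
def IP (R : V → Set E) (G : V → Set V) : Set (V × V) := {e | Nb R e.1 e.2 ∧ G e.1 ≠ G e.2}

/-- points in three different classes -/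
def TriH (R : V → Set E) (G : V → Set V) (p : E) : Prop :=
  ∃ u v w, p ∈ R u ∧ p ∈ R v ∧ p ∈ R w ∧ G u ≠ G v ∧ G v ≠ G w ∧ G u ≠ G w

/-- consecutive interface pairs -/
def Step (R : V → Set E) (G : V → Set V) (e e' : V × V) : Prop :=
  e ∈ IP R G ∧ e' ∈ IP R G ∧ G e.1 = G e'.1 ∧ G e.2 = G e'.2 ∧
    ∃ p, Vtx R e p ∧ Vtx R e' p ∧ ¬ TriH R G p

/-- the interface component of a pair -/
def cp (R : V → Set E) (G : V → Set V) (e : V × V) : Set (V × V) :=
  {e' | Relation.ReflTransGen (Step R G) e e'}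

/-- the union of the arcs of an interface component -/
def ar (R : V → Set E) (G : V → Set V) (e : V × V) : Set E := ⋃ e' ∈ cp R G e, arc R e'

theorem Step.symm {e e' : V × V} (h : Step R G e e') : Step R G e' e := by
  obtain ⟨h1, h2, h3, h4, p, h5, h6, h7⟩ := h
  exact ⟨h2, h1, h3.symm, h4.symm, p, h6, h5, h7⟩

theorem mem_cp (e : V × V) : e ∈ cp R G e := Relation.ReflTransGen.refl

theorem arc_subset_ar (e : V × V) : arc R e ⊆ ar R G e :=
  subset_biUnion_of_mem (u := fun e => arc R e) (mem_cp e)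

theorem cp_symm {e e' : V × V} (h : e' ∈ cp R G e) : e ∈ cp R G e' := by
  have h' : Relation.ReflTransGen (Step R G) e e' := h
  induction h' with
  | refl => exact mem_cp _
  | tail _ h2 ih =>
    exact Relation.ReflTransGen.head h2.symm (ih (by assumption))

theorem cp_eq {e e' : V × V} (h : e' ∈ cp R G e) : cp R G e' = cp R G e := by
  ext x
  exact ⟨fun hx => Relation.ReflTransGen.trans (show Relation.ReflTransGen _ e e' from h) hx,
    fun hx => Relation.ReflTransGen.trans (cp_symm h) hx⟩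

theorem cp_ip {e e' : V × V} (he : e ∈ IP R G) (h : e' ∈ cp R G e) :
    e' ∈ IP R G ∧ G e'.1 = G e.1 ∧ G e'.2 = G e.2 := by
  have h' : Relation.ReflTransGen (Step R G) e e' := h
  induction h' with
  | refl => exact ⟨he, rfl, rfl⟩
  | @tail b c _ h2 ih =>
    obtain ⟨-, i2, i3⟩ := ih (by assumption)
    exact ⟨h2.2.1, h2.2.2.1.symm.trans i2, h2.2.2.2.1.symm.trans i3⟩

theorem arc_swap (e : V × V) : arc R e.swap = arc R e := inter_comm _ _

theorem vtx_swap {e : V × V} {p : E} (h : Vtx R e p) : Vtx R e.swap p := by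
  obtain ⟨h1, u, h2, h3, h4⟩ := h
  exact ⟨by rw [arc_swap]; exact h1, u, h3, h2, h4⟩

theorem ip_swap {e : V × V} (h : e ∈ IP R G) : e.swap ∈ IP R G := ⟨Nb.symm h.1, h.2.symm⟩

theorem step_swap {e e' : V × V} (h : Step R G e e') : Step R G e.swap e'.swap := by
  obtain ⟨h1, h2, h3, h4, p, h5, h6, h7⟩ := h
  exact ⟨ip_swap h1, ip_swap h2, h4, h3, p, vtx_swap h5, vtx_swap h6, h7⟩

theorem cp_swap {e e' : V × V} (h : e' ∈ cp R G e) : e'.swap ∈ cp R G e.swap := by
  have h' : Relation.ReflTransGen (Step R G) e e' := h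
  induction h' with
  | refl => exact mem_cp _
  | @tail b c _ h2 ih =>
    exact Relation.ReflTransGen.tail (ih (by assumption)) (step_swap h2)

theorem ar_swap (e : V × V) : ar R G e.swap = ar R G e := by
  have key : ∀ e : V × V, ar R G e.swap ⊆ ar R G e := by
    intro e p hp
    obtain ⟨e', he', hpe⟩ := mem_iUnion₂.1 hp
    have := cp_swap he'
    rw [Prod.swap_swap] at this
    exact mem_biUnion this (by rw [arc_swap]; exact hpe)
  refine Subset.antisymm (key e) ?_
  have := key e.swap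
  rwa [Prod.swap_swap] at this

theorem ar_eq {e e' : V × V} (h : e' ∈ cp R G e) : ar R G e' = ar R G e := by
  unfold ar; rw [cp_eq h]

theorem ip_ne {e : V × V} (h : e ∈ IP R G) : e.1 ≠ e.2 := fun h' => h.2 (by rw [h'])

/-- a common point of two different interface components is in three classes -/
theorem triH_of_mem {e e' : V × V} (he : e ∈ IP R G) (he' : e' ∈ IP R G) {p : E}
    (hp : p ∈ ar R G e) (hp' : p ∈ ar R G e') (hne : ar R G e ≠ ar R G e') : TriH R G p := by
  obtain ⟨f, hf, hpf⟩ := mem_iUnion₂.1 hp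
  obtain ⟨f', hf', hpf'⟩ := mem_iUnion₂.1 hp'
  obtain ⟨hfI, -, -⟩ := cp_ip he hf
  obtain ⟨hfI', -, -⟩ := cp_ip he' hf'
  rw [← ar_eq hf, ← ar_eq hf'] at hne
  by_contra hT
  have hsame : ¬ ((f'.1 = f.1 ∧ f'.2 = f.2) ∨ (f'.1 = f.2 ∧ f'.2 = f.1)) := by
    rintro (⟨h1, h2⟩ | ⟨h1, h2⟩)
    · exact hne (by rw [Prod.ext h1.symm h2.symm])
    · apply hne
      have : f' = f.swap := Prod.ext h1 h2
      rw [this, ar_swap]
  have hv : Vtx R f p := vtx_of_ne hpf hpf' (ip_ne hfI') hsame
  have hv' : Vtx R f' p := by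
    refine vtx_of_ne hpf' hpf (ip_ne hfI) ?_
    rintro (⟨h1, h2⟩ | ⟨h1, h2⟩)
    · exact hsame (Or.inl ⟨h1.symm, h2.symm⟩)
    · exact hsame (Or.inr ⟨h2.symm, h1.symm⟩)
  -- all classes at `p` are the two classes of `f`
  have hcl : ∀ u, p ∈ R u → G u = G f.1 ∨ G u = G f.2 := by
    intro u hu
    by_contra h
    push Not at h
    exact hT ⟨f.1, f.2, u, hpf.1, hpf.2, hu, hfI.2, h.2.symm, h.1.symm⟩
  rcases hcl f'.1 hpf'.1 with h1 | h1
  · have h2 : G f'.2 = G f.2 := by
      rcases hcl f'.2 hpf'.2 with h2 | h2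
      · exact absurd (h1.trans h2.symm) hfI'.2
      · exact h2
    have hstep : Step R G f f' := ⟨hfI, hfI', h1.symm, h2.symm, p, hv, hv', hT⟩
    exact hne (ar_eq (Relation.ReflTransGen.single hstep)).symm
  · have h2 : G f'.2 = G f.1 := by
      rcases hcl f'.2 hpf'.2 with h2 | h2
      · exact h2
      · exact absurd (h1.trans h2.symm) hfI'.2
    have hstep : Step R G f f'.swap :=
      ⟨hfI, ip_swap hfI', h2.symm, h1.symm, p, hv, vtx_swap hv', hT⟩
    apply hne
    rw [← ar_swap f']
    exact (ar_eq (Relation.ReflTransGen.single hstep)).symm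

end combi

variable {E : Type} [NormedAddCommGroup E] [NormedSpace ℝ E]
variable {V Λ : Type} {F : Set E} {R bd : V → Set E} {L : V → Λ} {D B : V → Set E}
variable (M : Mosaic F R bd) (hW : Windows F R L D B)

/-- the maximal hull of a cell -/
noncomputable def mh : V → Set V := (tiling M hW).H

/-- the representative of the maximal hull of a cell -/
noncomputable def tp : V → V := (tiling M hW).top

theorem mh_def (v : V) : mh M hW v = hf R L D B (tp M hW v) := rfl

theorem mem_mh (v : V) : v ∈ mh M hW v := (tiling M hW).mem_H v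

theorem mh_eq_iff {v w : V} : mh M hW w = mh M hW v ↔ w ∈ mh M hW v := (tiling M hW).H_eq_iff

theorem tp_mem (v : V) : tp M hW v ∈ mh M hW v := (tiling M hW).mem_hull _

theorem mh_tp (v : V) : mh M hW (tp M hW v) = mh M hW v := (mh_eq_iff M hW).2 (tp_mem M hW v)

theorem mh_sub (v : V) : mh M hW v ⊆ win M (D (tp M hW v)) (B (tp M hW v)) :=
  (tiling M hW).hull_sub _

theorem fp_iff {v : V} {e : V × V} : e ∈ FP R (mh M hW v) ↔
    e ∈ IP R (mh M hW) ∧ mh M hW e.1 = mh M hW v := by
  constructor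
  · rintro ⟨h1, h2, h3⟩
    have h4 := (mh_eq_iff M hW).2 h1
    refine ⟨⟨h3, fun h5 => h2 ?_⟩, h4⟩
    rw [← mh_eq_iff M hW, ← h5, h4]
  · rintro ⟨⟨h1, h2⟩, h3⟩
    refine ⟨(mh_eq_iff M hW).1 h3, fun h4 => h2 ?_, h1⟩
    rw [h3, ← (mh_eq_iff M hW).2 h4]

/-- the frontier of a maximal hull is non-empty -/
theorem fp_nonempty (v : V) : (FP R (mh M hW v)).Nonempty := by
  obtain ⟨z, hz1, -, hz2⟩ := hW.two (tp M hW v) (tp M hW v) (HOne.Joined.refl (mem_univ _))
  obtain ⟨x, -, y, -, hx, hy, hxy⟩ := exists_step (H := mh M hW v) hz2 (tp_mem M hW v)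
    (fun h => hz1 (mh_sub M hW v h))
  exact ⟨(x, y), hx, hy, hxy⟩

/-- the label of a maximal hull is well defined -/
theorem label_tp {v w : V} (h : mh M hW v = mh M hW w) : L (tp M hW v) = L (tp M hW w) := by
  obtain ⟨e, he⟩ := fp_nonempty M hW v
  have h1 := fp_tile M hW (v := tp M hW v) he
  rw [h] at he
  have h2 := fp_tile M hW (v := tp M hW w) he
  exact h1.2.1.symm.trans h2.2.1

variable (hL : GoodLabels R L)
include hL

/-- at a point in two classes, cells have the label of their hull -/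
theorem label_of_mem {x u : V} {p : E} (hx : p ∈ R x) (hu : p ∈ R u)
    (hne : mh M hW x ≠ mh M hW u) : L x = L (tp M hW x) := by
  have hxu : x ≠ u := fun h => hne (by rw [h])
  have hu' : u ∉ mh M hW x := fun h => hne ((mh_eq_iff M hW).2 h).symm
  rcases M.link x u hxu p ⟨hx, hu⟩ with ⟨h1, -⟩ | ⟨k, c, hc⟩
  · exact (fp_tile M hW (v := tp M hW x) (e := (x, u)) ⟨mem_mh M hW x, hu', h1⟩).2.1
  · obtain ⟨i, rfl⟩ := (hc.mem _).1 hx
    obtain ⟨j, rfl⟩ := (hc.mem _).1 hu
    exact (hull_iff_label M hW hL hc (v := tp M hW (c i)) (mem_mh M hW _) hu' i).1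
      (mem_mh M hW _)

/-- at a point in two classes, equal labels mean equal hulls -/
theorem mh_eq_iff_label {x y u : V} {p : E} (hx : p ∈ R x) (hy : p ∈ R y) (hu : p ∈ R u)
    (hne : mh M hW x ≠ mh M hW u) : mh M hW x = mh M hW y ↔ L x = L y := by
  constructor
  · intro h
    rw [label_of_mem M hW hL hx hu hne, label_of_mem M hW hL hy hu (by rw [← h]; exact hne),
      label_tp M hW h]
  · intro h
    by_contra hxy
    have hne' : x ≠ y := fun h => hxy (by rw [h])
    have hy' : y ∉ mh M hW x := fun h => hxy ((mh_eq_iff M hW).2 h).symm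
    have hlx := label_of_mem M hW hL hx hu hne
    rcases M.link x y hne' p ⟨hx, hy⟩ with ⟨h1, -⟩ | ⟨k, c, hc⟩
    · have := (fp_tile M hW (v := tp M hW x) (e := (x, y)) ⟨mem_mh M hW x, hy', h1⟩).2.2
      exact this (h.symm.trans hlx)
    · obtain ⟨i, rfl⟩ := (hc.mem _).1 hx
      obtain ⟨j, rfl⟩ := (hc.mem _).1 hy
      exact hy' ((hull_iff_label M hW hL hc (v := tp M hW (c i)) (mem_mh M hW _) hy' j).2
        (h.symm.trans hlx))

/-- if two different interface pairs at `p` have the same sides then no other hull is at `p` -/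
theorem no_tri {e e' : V × V} {p : E} (he : e ∈ IP R (mh M hW)) (he' : e' ∈ IP R (mh M hW))
    (hne : e ≠ e') (h1 : mh M hW e'.1 = mh M hW e.1) (h2 : mh M hW e'.2 = mh M hW e.2)
    (hp : Vtx R e p) (hp' : Vtx R e' p) {u : V} (hu : p ∈ R u) :
    mh M hW u = mh M hW e.1 ∨ mh M hW u = mh M hW e.2 := by
  obtain ⟨k, c, hc⟩ := exists_cycle M (ip_ne he) hp
  have hk : NeZero k := LinkCycle.neZero hc
  -- reduction : `e` goes to the right and `e'` goes to the left
  have key : ∀ e e' : V × V, e ∈ IP R (mh M hW) → e' ∈ IP R (mh M hW) →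
      mh M hW e'.1 = mh M hW e.1 → mh M hW e'.2 = mh M hW e.2 → ∀ i i' : ZMod k,
      e = (c i, c (i + 1)) → e' = (c i', c (i' - 1)) →
      mh M hW u = mh M hW e.1 ∨ mh M hW u = mh M hW e.2 := by
    intro e e' he he' h1 h2 i i' hi hi'
    subst hi
    subst hi'
    simp only at h1 h2 ⊢
    have hd : mh M hW (c i) ≠ mh M hW (c (i + 1)) := he.2
    let S : Set (ZMod k) := {m | mh M hW (c m) = mh M hW (c i) ∨
      mh M hW (c m) = mh M hW (c (i + 1))}
    have hS : ∀ m ∈ S, m + 1 ∈ S := by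
      rintro m (hm | hm)
      · by_cases h3 : mh M hW (c (m + 1)) = mh M hW (c i)
        · exact Or.inl h3
        · right
          have : m = i := right_unique M hW hL hc (v := tp M hW (c i))
            ((mh_eq_iff M hW).1 hm) (fun h => h3 ((mh_eq_iff M hW).2 h)) (mem_mh M hW _)
            (fun h => hd ((mh_eq_iff M hW).2 h).symm)
          rw [this]
      · by_cases h3 : mh M hW (c (m + 1)) = mh M hW (c (i + 1))
        · exact Or.inr h3
        · left
          have h4 : m = i' - 1 := by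
            refine right_unique M hW hL hc (v := tp M hW (c (i + 1)))
              ((mh_eq_iff M hW).1 hm) (fun h => h3 ((mh_eq_iff M hW).2 h))
              ((mh_eq_iff M hW).1 h2) (fun h => ?_)
            rw [sub_add_cancel] at h
            exact hd (h1.symm.trans ((mh_eq_iff M hW).2 h))
          rw [h4, sub_add_cancel, h1]
    obtain ⟨m, rfl⟩ := (hc.mem _).1 hu
    exact cyc_all hS (show i ∈ S from Or.inl rfl) m
  obtain ⟨i, hi⟩ := (hc.mem _).1 hp.1.1
  obtain ⟨j, hj⟩ := (hc.mem _).1 hp.1.2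
  obtain ⟨i', hi'⟩ := (hc.mem _).1 hp'.1.1
  obtain ⟨j', hj'⟩ := (hc.mem _).1 hp'.1.2
  have hadj : Nb R (c i) (c j) := by rw [hi, hj]; exact he.1
  have hadj' : Nb R (c i') (c j') := by rw [hi', hj']; exact he'.1
  have hij : j = i + 1 ∨ j = i - 1 := by
    rcases (hc.adj _ _).1 hadj with h | h | h
    · exact absurd (by rw [← hi, ← hj, h] : e.1 = e.2) (ip_ne he)
    · exact Or.inl h
    · exact Or.inr (by rw [h]; ring)
  have hij' : j' = i' + 1 ∨ j' = i' - 1 := by
    rcases (hc.adj _ _).1 hadj' with h | h | h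
    · exact absurd (by rw [← hi', ← hj', h] : e'.1 = e'.2) (ip_ne he')
    · exact Or.inl h
    · exact Or.inr (by rw [h]; ring)
  have hd : mh M hW e.1 ≠ mh M hW e.2 := he.2
  rcases hij with h | h <;> rcases hij' with h' | h'
  · exfalso
    subst h
    subst h'
    have : i = i' := by
      refine right_unique M hW hL hc (v := tp M hW e.1) ?_ ?_ ?_ ?_
      · rw [hi]; exact mem_mh M hW _
      · rw [hj]; exact fun h => hd ((mh_eq_iff M hW).2 h).symm
      · rw [hi']; exact (mh_eq_iff M hW).1 h1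
      · rw [hj']; exact fun h => hd (((mh_eq_iff M hW).2 h).symm.trans h2)
    subst this
    exact hne (Prod.ext (hi.symm.trans hi') (hj.symm.trans hj'))
  · subst h
    subst h'
    exact key e e' he he' h1 h2 i i' (Prod.ext hi.symm hj.symm) (Prod.ext hi'.symm hj'.symm)
  · subst h
    subst h'
    have := key e' e he' he h1.symm h2.symm i' i (Prod.ext hi'.symm hj'.symm)
      (Prod.ext hi.symm hj.symm)
    rw [h1, h2] at this
    exact this
  · exfalso
    subst h
    subst h'
    have : i = i' := by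
      refine left_unique M hW hL hc (v := tp M hW e.1) ?_ ?_ ?_ ?_
      · rw [hi]; exact mem_mh M hW _
      · rw [hj]; exact fun h => hd ((mh_eq_iff M hW).2 h).symm
      · rw [hi']; exact (mh_eq_iff M hW).1 h1
      · rw [hj']; exact fun h => hd (((mh_eq_iff M hW).2 h).symm.trans h2)
    subst this
    exact hne (Prod.ext (hi.symm.trans hi') (hj.symm.trans hj'))

end P073.PT
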