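import Vale.Agent.P073.PT.Arc773

/-!
# P073, block PT/SUBDIV: the sectors of a conical disc
-/

open Set Metric Topology Filter

namespace P073

variable {E F : Type*} [NormedAddCommGroup E] [NormedSpace ℝ E]
  [NormedAddCommGroup F] [NormedSpace ℝ F]

theorem coneSet_union (A B : Set E) : coneSet (A ∪ B) = coneSet A ∪ coneSet B := by
  ext y
  constructor
  · rintro ⟨s, hs, x, hx | hx, rfl⟩
    · exact Or.inl ⟨s, hs, x, hx, rfl⟩
    · exact Or.inr ⟨s, hs, x, hx, rfl⟩
  · rintro (⟨s, hs, x, hx, rfl⟩ | ⟨s, hs, x, hx, rfl⟩)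
    · exact ⟨s, hs, x, Or.inl hx, rfl⟩
    · exact ⟨s, hs, x, Or.inr hx, rfl⟩

theorem coneSet_iUnion {ι : Type*} (A : ι → Set E) : coneSet (⋃ i, A i) = ⋃ i, coneSet (A i) := by
  ext y
  constructor
  · rintro ⟨s, hs, x, hx, rfl⟩
    obtain ⟨i, hi⟩ := mem_iUnion.1 hx
    exact mem_iUnion.2 ⟨i, s, hs, x, hi, rfl⟩
  · intro hy
    obtain ⟨i, s, hs, x, hx, rfl⟩ := mem_iUnion.1 hy
    exact ⟨s, hs, x, mem_iUnion.2 ⟨i, hx⟩, rfl⟩

theorem coneSet_mono {A B : Set E} (h : A ⊆ B) : coneSet A ⊆ coneSet B := by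
  rintro y ⟨s, hs, x, hx, rfl⟩; exact ⟨s, hs, x, h hx, rfl⟩

theorem zero_mem_coneSet {A : Set E} (h : A.Nonempty) : (0 : E) ∈ coneSet A := by
  obtain ⟨x, hx⟩ := h
  exact ⟨0, ⟨le_rfl, zero_le_one⟩, x, hx, (zero_smul _ _).symm⟩

/-- the data of a disc `C` with boundary `B` cut into sectors `T i` by spokes `σ i` -/
structure Sectors {k : ℕ} (C B : Set E) (A : ZMod k → Set E) (z : ZMod k → E) (y : E)
    (T σ : ZMod k → Set E) : Prop where
  y_mem : y ∈ C
  y_notMem : y ∉ B
  spoke : ∀ i, ConBall 1 (σ i) {y, z i}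
  ball : ∀ i, ConBall 2 (T i) (A i ∪ (σ i ∪ σ (i + 1)))
  cover : ⋃ i, T i = C
  base : ∀ i, T i ∩ B = A i
  spoke_base : ∀ i, σ i ∩ B = {z i}
  adj : ∀ i, T i ∩ T (i + 1) = σ (i + 1)
  far : ∀ i j, i ≠ j → j ≠ i + 1 → i ≠ j + 1 → T i ∩ T j = {y}
  spoke_far : ∀ i j, i ≠ j → i ≠ j + 1 → σ i ∩ T j = {y}

theorem Sectors.y_T {k : ℕ} {C B : Set E} {A : ZMod k → Set E} {z : ZMod k → E} {y : E}
    {T σ : ZMod k → Set E} (h : Sectors C B A z y T σ) (i : ZMod k) : y ∈ T i := by
  exact (h.ball i).1 (Or.inr (Or.inl (h.spoke i).left_mem))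

/-- cutting a cone into sectors -/
theorem sectors_cone {k : ℕ} (hk : 3 ≤ k) {B : Set E} (hB : RayBase B) {A : ZMod k → Set E}
    {z : ZMod k → E} (hA : ∀ i, ConBall 1 (A i) {z i, z (i + 1)})
    (hAA : ∀ i j, i ≠ j → ∀ p ∈ A i ∩ A j, (j = i + 1 ∧ p = z j) ∨ (i = j + 1 ∧ p = z i))
    (hU : ⋃ i, A i = B) :
    Sectors (coneSet B) B A z 0 (fun i => coneSet (A i)) (fun i => coneSet {z i}) := by
  have hAB : ∀ i, A i ⊆ B := fun i => hU ▸ subset_iUnion A i
  have hzA : ∀ i, z i ∈ A i := fun i => (hA i).left_mem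
  have hzB : ∀ i, z i ∈ B := fun i => hAB i (hzA i)
  have hz0 : ∀ i, z i ≠ 0 := fun i h => hB.zero_notMem (h ▸ hzB i)
  have hne : ∀ i, (A i).Nonempty := fun i => ⟨_, hzA i⟩
  have two : (2 : ZMod k) ≠ 0 := by
    intro h
    have h2 : ((2 : ℕ) : ZMod k) = 0 := by exact_mod_cast h
    rw [ZMod.natCast_eq_zero_iff] at h2
    exact absurd (Nat.le_of_dvd (by norm_num) h2) (by omega)
  have hpair : ∀ i, coneSet ({z i, z (i + 1)} : Set E) = coneSet {z i} ∪ coneSet {z (i + 1)} := by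
    intro i
    rw [← coneSet_union]; rfl
  -- intersections of adjacent arcs
  have hadj : ∀ i, A i ∩ A (i + 1) = {z (i + 1)} := by
    intro i
    have hne1 : i ≠ i + 1 := by
      intro h
      have := (hA i).ne_of_arc
      exact this (congrArg z h)
    ext p
    constructor
    · intro hp
      rcases hAA i (i + 1) hne1 p hp with ⟨-, h⟩ | ⟨h, -⟩
      · exact h
      · exfalso
        apply two
        have : i + 0 = i + 2 := by rw [add_zero]; conv_lhs => rw [h]
                                   ring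
        exact (add_left_cancel this).symm
    · intro hp
      rw [(show p = z (i + 1) from hp)]
      exact ⟨(hA i).right_mem, hzA _⟩
  have hfar : ∀ i j, i ≠ j → j ≠ i + 1 → i ≠ j + 1 → A i ∩ A j = ∅ := by
    intro i j h1 h2 h3
    rw [Set.eq_empty_iff_forall_notMem]
    intro p hp
    rcases hAA i j h1 p hp with ⟨h, -⟩ | ⟨h, -⟩
    · exact h2 h
    · exact h3 h
  have hze : ∀ i j, i ≠ j → i ≠ j + 1 → z i ∉ A j := by
    intro i j h1 h2 h
    rcases hAA i j h1 (z i) ⟨hzA i, h⟩ with ⟨h3, h4⟩ | ⟨h3, -⟩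
    · rw [h3] at h4
      exact (hA i).ne_of_arc h4
    · exact h2 h3
  exact {
    y_mem := zero_mem_coneSet ⟨_, hzB 0⟩
    y_notMem := hB.zero_notMem
    spoke := fun i => conBall_coneSet_singleton (hz0 i)
    ball := fun i => by
      have := (hA i).coneSet one_ne_zero (hB.mono (hA i).isCompact (hAB i))
      rw [hpair i] at this
      exact this
    cover := by rw [← coneSet_iUnion, hU]
    base := fun i => coneSet_inter_base hB (hAB i)
    spoke_base := fun i => coneSet_inter_base hB (singleton_subset_iff.2 (hzB i))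
    adj := fun i => by
      show coneSet (A i) ∩ coneSet (A (i + 1)) = coneSet {z (i + 1)}
      rw [coneSet_inter hB (hAB i) (hAB (i + 1)) (hne i) (hne (i + 1)), hadj i]
      exact union_eq_left.2 (singleton_subset_iff.2 (zero_mem_coneSet (singleton_nonempty _)))
    far := fun i j h1 h2 h3 => by
      show coneSet (A i) ∩ coneSet (A j) = {0}
      rw [coneSet_inter hB (hAB i) (hAB j) (hne i) (hne j), hfar i j h1 h2 h3]
      have : coneSet (∅ : Set E) = ∅ := by
        rw [Set.eq_empty_iff_forall_notMem]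
        rintro y ⟨s, hs, x, hx, -⟩
        exact hx
      rw [this, empty_union]
    spoke_far := fun i j h1 h2 => by
      show coneSet {z i} ∩ coneSet (A j) = {0}
      have h3 : ({z i} : Set E) ∩ A j = ∅ := by
        rw [Set.eq_empty_iff_forall_notMem]
        rintro p ⟨hp, hp'⟩
        rw [(show p = z i from hp)] at hp'
        exact hze i j h1 h2 hp'
      rw [coneSet_inter hB (singleton_subset_iff.2 (hzB i)) (hAB j) (singleton_nonempty _) (hne j),
        h3]
      have : coneSet (∅ : Set E) = ∅ := by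
        rw [Set.eq_empty_iff_forall_notMem]
        rintro y ⟨s, hs, x, hx, -⟩
        exact hx
      rw [this, empty_union] }

/-- transport of sectors -/
theorem Sectors.image {k : ℕ} {C B : Set E} {A : ZMod k → Set E} {z : ZMod k → E} {y : E}
    {T σ : ZMod k → Set E} (h : Sectors C B A z y T σ) (hBC : B ⊆ C) {C' : Set F}
    (Φ : ConHomeo C C') : Sectors C' (Φ.toFun '' B) (fun i => Φ.toFun '' A i)
      (fun i => Φ.toFun (z i)) (Φ.toFun y) (fun i => Φ.toFun '' T i)
      (fun i => Φ.toFun '' σ i) := by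
  have hTC : ∀ i, T i ⊆ C := fun i => h.cover ▸ subset_iUnion T i
  have hσC : ∀ i, σ i ⊆ C := fun i =>
    (show σ i ⊆ T i from fun x hx => (h.ball i).1 (Or.inr (Or.inl hx))).trans (hTC i)
  exact {
    y_mem := Φ.mapsTo h.y_mem
    y_notMem := by
      rintro ⟨x, hx, he⟩
      have := Φ.injOn (hBC hx) h.y_mem he
      exact h.y_notMem (this ▸ hx)
    spoke := fun i => by
      have := (h.spoke i).image Φ (hσC i)
      rwa [image_pair] at this
    ball := fun i => by
      have := (h.ball i).image Φ (hTC i)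
      rwa [image_union, image_union] at this
    cover := by rw [← image_iUnion, h.cover]; exact Φ.image_eq
    base := fun i => by
      show Φ.toFun '' T i ∩ Φ.toFun '' B = Φ.toFun '' A i
      rw [← Φ.image_inter (hTC i) hBC, h.base]
    spoke_base := fun i => by
      show Φ.toFun '' σ i ∩ Φ.toFun '' B = {Φ.toFun (z i)}
      rw [← Φ.image_inter (hσC i) hBC, h.spoke_base, image_singleton]
    adj := fun i => by
      show Φ.toFun '' T i ∩ Φ.toFun '' T (i + 1) = Φ.toFun '' σ (i + 1)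
      rw [← Φ.image_inter (hTC i) (hTC _), h.adj]
    far := fun i j h1 h2 h3 => by
      show Φ.toFun '' T i ∩ Φ.toFun '' T j = {Φ.toFun y}
      rw [← Φ.image_inter (hTC i) (hTC _), h.far i j h1 h2 h3, image_singleton]
    spoke_far := fun i j h1 h2 => by
      show Φ.toFun '' σ i ∩ Φ.toFun '' T j = {Φ.toFun y}
      rw [← Φ.image_inter (hσC i) (hTC _), h.spoke_far i j h1 h2, image_singleton] }

/-- chart of a conical ball centred at a given interior point -/
theorem ConBall.exists_chart_at {n : ℕ} (hn : n ≠ 0) {C B : Set E} (hC : ConBall n C B) {y : E}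
    (hy : y ∈ C) (hyB : y ∉ B) : ∃ φ : ConHomeo C (closedBall (0 : Fin n → ℝ) 1),
      φ.toFun '' B = sphere 0 1 ∧ φ.toFun y = 0 := by
  obtain ⟨hBC, φ, hφ⟩ := hC
  have : Nonempty (Fin n) := ⟨⟨0, Nat.pos_of_ne_zero hn⟩⟩
  have hfr : frontier (closedBall (0 : Fin n → ℝ) 1) = sphere 0 1 :=
    frontier_closedBall _ one_ne_zero
  have ha : closedBall (0 : Fin n → ℝ) 1 ∈ 𝓝 (φ.toFun y) := by
    have h1 : φ.toFun y ∉ sphere (0 : Fin n → ℝ) 1 := by
      rw [← hφ]
      rintro ⟨x, hx, he⟩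
      exact hyB (φ.injOn (hBC hx) hy he ▸ hx)
    have h2 := φ.mapsTo hy
    have h3 : φ.toFun y ∈ ball (0 : Fin n → ℝ) 1 := by
      rw [mem_sphere] at h1
      rw [mem_closedBall] at h2
      exact mem_ball.2 (lt_of_le_of_ne h2 h1)
    exact Filter.mem_of_superset (isOpen_ball.mem_nhds h3) ball_subset_closedBall
  obtain ⟨Φ, h1, h2⟩ := ConHomeo.exists_extend_convexBody (isCompact_closedBall _ _)
    (convex_closedBall _ _) ha (isCompact_closedBall _ _) (convex_closedBall _ _)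
    (closedBall_mem_nhds (0 : Fin n → ℝ) one_pos)
    (ConHomeo.refl (hfr ▸ conicalSet_sphere_pi n))
  refine ⟨φ.trans Φ, ?_, ?_⟩
  · show (fun x => Φ.toFun (φ.toFun x)) '' B = sphere 0 1
    rw [← image_image Φ.toFun φ.toFun, hφ, ← hfr, h1.image_eq]
    show (fun x => x) '' _ = _
    rw [image_id']
  · obtain ⟨x, hx⟩ : (frontier (closedBall (0 : Fin n → ℝ) 1)).Nonempty := by
      rw [hfr]; exact NormedSpace.sphere_nonempty.2 zero_le_one
    have := h2 x hx 0 ⟨le_rfl, zero_le_one⟩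
    rw [zero_smul, add_zero, zero_smul, add_zero] at this
    exact this

/-- **Sectors** of a conical disc with prescribed boundary arcs and centre. -/
theorem ConBall.exists_sectors {k : ℕ} (hk : 3 ≤ k) {C B : Set E} (hC : ConBall 2 C B) {y : E}
    (hy : y ∈ C) (hyB : y ∉ B)
    {A : ZMod k → Set E} {z : ZMod k → E} (hA : ∀ i, ConBall 1 (A i) {z i, z (i + 1)})
    (hAA : ∀ i j, i ≠ j → ∀ p ∈ A i ∩ A j, (j = i + 1 ∧ p = z j) ∨ (i = j + 1 ∧ p = z i))
    (hU : ⋃ i, A i = B) : ∃ (T σ : ZMod k → Set E), Sectors C B A z y T σ := by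
  obtain ⟨Φ, hΦ, hΦy⟩ := hC.exists_chart_at two_ne_zero hy hyB
  have hBC := hC.1
  have hAB : ∀ i, A i ⊆ B := fun i => hU ▸ subset_iUnion A i
  have hAC : ∀ i, A i ⊆ C := fun i => (hAB i).trans hBC
  have h := sectors_cone hk (rayBase_sphere_pi 2) (A := fun i => Φ.toFun '' A i)
    (z := fun i => Φ.toFun (z i)) (fun i => by
      have := (hA i).image Φ (hAC i)
      rwa [image_pair] at this) (by
      rintro i j hij p hp
      rw [← Φ.image_inter (hAC i) (hAC j)] at hp
      obtain ⟨x, hx, rfl⟩ := hp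
      rcases hAA i j hij x hx with ⟨h1, h2⟩ | ⟨h1, h2⟩
      · exact Or.inl ⟨h1, congrArg Φ.toFun h2⟩
      · exact Or.inr ⟨h1, congrArg Φ.toFun h2⟩) (by
      rw [← image_iUnion, hU, hΦ])
  rw [coneSet_sphere_pi 2] at h
  have h2 := h.image sphere_subset_closedBall Φ.symm
  have e1 : Φ.symm.toFun '' sphere 0 1 = B := by rw [← hΦ]; exact Φ.invFun_image hBC
  have e2 : (fun i => Φ.symm.toFun '' (Φ.toFun '' A i)) = A := by
    funext i; exact Φ.invFun_image (hAC i)
  have e3 : (fun i => Φ.symm.toFun (Φ.toFun (z i))) = z := by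
    funext i; exact Φ.left_inv (hAC i (hA i).left_mem)
  have e4 : Φ.symm.toFun 0 = y := (congrArg Φ.invFun hΦy).symm.trans (Φ.left_inv hy)
  rw [e1, e2, e3, e4] at h2
  exact ⟨_, _, h2⟩

end P073
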