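import Vale.Agent.P073.PT.MosIface

/-!
# P073, block PT : the complex `Theta` of maximal filled tiles
-/

open Set Metric Topology

namespace P073.PT

open Vale.Agent.P073 Vale.Agent.P073.HOne Vale.Agent.P073.PT

variable {E : Type} [NormedAddCommGroup E] [NormedSpace ℝ E]
variable {V Λ : Type} {F : Set E} {R bd : V → Set E} {L : V → Λ} {D B : V → Set E}
variable (M : Mosaic F R bd) (hW : Windows F R L D B) (hL : GoodLabels R L) (hS : SchDisc E)
include hL hS

/-- a maximal hull is a disc -/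
theorem disc_mh (v : V) :
    ConBall 2 (⋃ w ∈ mh M hW v, R w) (⋃ e ∈ FP R (mh M hW v), arc R e) ∧
    ∀ T ⊆ FP R (mh M hW v), T.Nonempty → (∀ e ∈ T, ∀ e' ∈ FP R (mh M hW v),
      (∃ p, Vtx R e p ∧ Vtx R e' p) → e' ∈ T) → T = FP R (mh M hW v) := by
  refine disc_of_reg M hS (hW.disc (tp M hW v)) (mh_sub M hW v) (tp_mem M hW v)
    ((tiling M hW).conn_hull _) ((tiling M hW).conn_hull_compl _) ?_
    (reg_hull M hW hL (tp M hW v))
  obtain ⟨z, hz1, -, hz2⟩ := hW.two (tp M hW v) (tp M hW v) (HOne.Joined.refl (mem_univ _))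
  exact ⟨z, hz1, hz2⟩

omit hL hS in
theorem mh_finite (v : V) : (mh M hW v).Finite :=
  (win_finite M (hW.disc (tp M hW v))).subset (mh_sub M hW v)

/-- if an interface component has no end then it is the whole frontier -/
theorem fp_of_circle {e : V × V} (he : e ∈ IP R (mh M hW))
    (hcirc : ∀ f ∈ cp R (mh M hW) e, ∀ r, Vtx R f r → ∃ g ∈ cp R (mh M hW) e, g ≠ f ∧ Vtx R g r) :
    ∀ f ∈ FP R (mh M hW e.1), mh M hW f.2 = mh M hW e.2 := by
  have hsub : cp R (mh M hW) e ⊆ FP R (mh M hW e.1) := fun f hf => by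
    obtain ⟨h1, h2, -⟩ := cp_ip he hf
    exact (fp_iff M hW).2 ⟨h1, h2⟩
  have heq := (disc_mh M hW hL hS e.1).2 (cp R (mh M hW) e) hsub ⟨e, mem_cp e⟩ (by
    rintro f hf f' hf' ⟨p, hp, hp'⟩
    obtain ⟨g, hg, hgf, hgp⟩ := hcirc f hf p hp
    obtain ⟨e', -, -, -, hu⟩ := reg_hull M hW hL (tp M hW e.1) f (hsub hf) p hp
    rcases hu f' hf' hp' with h1 | h1
    · rw [h1]; exact hf
    · rcases hu g (hsub hg) hgp with h2 | h2
      · exact absurd h2 hgf
      · rw [h1, ← h2]; exact hg)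
  intro f hf
  rw [← heq] at hf
  exact (cp_ip he hf).2.2

/-- **an interface component is an arc joining two points in three classes** -/
theorem chain {e : V × V} (he : e ∈ IP R (mh M hW)) :
    ∃ p q, ConBall 1 (ar R (mh M hW) e) {p, q} ∧ TriH R (mh M hW) p ∧ TriH R (mh M hW) q ∧
      ∀ r ∈ ar R (mh M hW) e, TriH R (mh M hW) r → r = p ∨ r = q := by
  have hreg : Reg R (mh M hW e.1) := reg_hull M hW hL (tp M hW e.1)
  obtain ⟨a, b, hab⟩ := exists_ends M
  have sys := arcSys_of_reg hreg hab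
  have hfin : Finite {f // f ∈ FP R (mh M hW e.1)} := fp_finite M (mh_finite M hW e.1)
  have hsub : cp R (mh M hW) e ⊆ FP R (mh M hW e.1) := fun f hf => by
    obtain ⟨h1, h2, -⟩ := cp_ip he hf
    exact (fp_iff M hW).2 ⟨h1, h2⟩
  have hend : ∀ (i : {f // f ∈ FP R (mh M hW e.1)}) (p : E),
      Vtx R i.1 p ↔ p = a i.1 ∨ p = b i.1 := fun i p => (hab i.1 (fp_ne i.2) i.2.2.2).2 p
  let S : Set {f // f ∈ FP R (mh M hW e.1)} := {i | i.1 ∈ cp R (mh M hW) e}
  have hun : (⋃ i ∈ S, arc R i.1) = ar R (mh M hW) e := by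
    apply Subset.antisymm
    · exact iUnion₂_subset fun i hi => subset_biUnion_of_mem (u := fun f => arc R f) hi
    · exact iUnion₂_subset fun f hf => subset_biUnion_of_mem
        (u := fun i : {f // f ∈ FP R (mh M hW e.1)} => arc R i.1)
        (show (⟨f, hsub hf⟩ : {f // f ∈ FP R (mh M hW e.1)}) ∈ S from hf)
  rcases sys.arc_or_circle (S := S) (toFinite S) ⟨⟨e, hsub (mem_cp e)⟩, mem_cp e⟩ (by
      intro T hTS hTne hTcl
      apply Subset.antisymm hTS
      obtain ⟨i₁, hi₁⟩ := hTne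
      intro i hi
      have h1 : Relation.ReflTransGen (Step R (mh M hW)) i₁.1 i.1 := by
        have : i.1 ∈ cp R (mh M hW) i₁.1 := by rw [cp_eq (hTS hi₁)]; exact hi
        exact this
      have key : ∀ f, Relation.ReflTransGen (Step R (mh M hW)) i₁.1 f →
          ∃ hf : f ∈ FP R (mh M hW e.1), (⟨f, hf⟩ : {f // f ∈ FP R (mh M hW e.1)}) ∈ T := by
        intro f hf
        induction hf with
        | refl => exact ⟨i₁.2, hi₁⟩
        | @tail y z _ h2 ih =>
          obtain ⟨hy, hyT⟩ := ih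
          have hzc : z ∈ cp R (mh M hW) e :=
            Relation.ReflTransGen.tail (show Relation.ReflTransGen _ e y from hTS hyT) h2
          refine ⟨hsub hzc, hTcl ⟨y, hy⟩ hyT ⟨z, hsub hzc⟩ hzc ?_⟩
          obtain ⟨-, -, -, -, p, hp1, hp2, -⟩ := h2
          exact ⟨p, (hend ⟨y, hy⟩ p).1 hp1, (hend ⟨z, hsub hzc⟩ p).1 hp2⟩
      obtain ⟨hf, hfT⟩ := key i.1 h1
      exact hfT) with ⟨p, q, hch⟩ | ⟨-, hcirc⟩
  · -- the arc case
    have htri : ∀ p q, ArcSys.IsChain (fun i : {f // f ∈ FP R (mh M hW e.1)} => arc R i.1)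
        (fun i => a i.1) (fun i => b i.1) S p q → TriH R (mh M hW) p := by
      intro p q hch
      by_contra hT
      obtain ⟨i, hi, hpi⟩ := hch.left
      have hpv : Vtx R i.1 p := (hend i p).2 hpi
      obtain ⟨e', he', hne, hv, -⟩ := hreg i.1 i.2 p hpv
      obtain ⟨i1, i2, i3⟩ := cp_ip he hi
      obtain ⟨j1, j2⟩ := (fp_iff M hW).1 he'
      have h2 : mh M hW i.1.2 = mh M hW e'.2 := by
        by_contra h2
        exact hT ⟨i.1.1, i.1.2, e'.2, hpv.1.1, hpv.1.2, hv.1.2, i1.2, h2, by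
          rw [i2, ← j2]; exact j1.2⟩
      have hstep : Step R (mh M hW) i.1 e' := ⟨i1, j1, i2.trans j2.symm, h2, p, hpv, hv, hT⟩
      have hS' : (⟨e', he'⟩ : {f // f ∈ FP R (mh M hW e.1)}) ∈ S :=
        Relation.ReflTransGen.tail (show Relation.ReflTransGen _ e i.1 from hi) hstep
      have := hch.uniq i hi ⟨e', he'⟩ hS' p (Or.inl rfl) hpi ((hend ⟨e', he'⟩ p).1 hv)
      exact hne (congrArg Subtype.val this).symm
    refine ⟨p, q, hun ▸ hch.ball, htri p q hch, htri q p hch.symm, ?_⟩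
    intro r hr hT
    by_contra hne
    push Not at hne
    obtain ⟨f, hf, hrf⟩ := mem_iUnion₂.1 hr
    obtain ⟨f1, f2, f3⟩ := cp_ip he hf
    obtain ⟨u, v, w, hu, hv, hw, huv, hvw, huw⟩ := hT
    have hthird : ∃ x, p = p ∧ r ∈ R x ∧ mh M hW x ≠ mh M hW f.1 ∧ mh M hW x ≠ mh M hW f.2 := by
      by_contra hno
      push Not at hno
      have hc : ∀ x, r ∈ R x → mh M hW x = mh M hW f.1 ∨ mh M hW x = mh M hW f.2 := by
        intro x hx
        by_cases h1 : mh M hW x = mh M hW f.1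
        · exact Or.inl h1
        · exact Or.inr (hno x rfl hx h1)
      rcases hc u hu with h1 | h1 <;> rcases hc v hv with h2 | h2 <;> rcases hc w hw with h3 | h3
      all_goals first
        | exact huv (h1.trans h2.symm)
        | exact hvw (h2.trans h3.symm)
        | exact huw (h1.trans h3.symm)
    obtain ⟨x, -, hx, hx1, hx2⟩ := hthird
    have hvf : Vtx R f r := ⟨hrf, x, fun h => hx1 (by rw [h]), fun h => hx2 (by rw [h]), hx⟩
    obtain ⟨j, hj, hji, hjr⟩ := hch.shared ⟨f, hsub hf⟩ hf r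
      ((hend ⟨f, hsub hf⟩ r).1 hvf) hne.1 hne.2
    obtain ⟨g1, g2, g3⟩ := cp_ip he hj
    have hjf : f ≠ j.1 := fun h => hji (Subtype.ext h.symm)
    rcases no_tri M hW hL f1 g1 hjf (g2.trans f2.symm) (g3.trans f3.symm) hvf
      ((hend j r).2 hjr) hx with h | h
    · exact hx1 h
    · exact hx2 h
  · -- the circle case is impossible
    exfalso
    have hc1 : ∀ f ∈ cp R (mh M hW) e, ∀ r, Vtx R f r →
        ∃ g ∈ cp R (mh M hW) e, g ≠ f ∧ Vtx R g r := by
      intro f hf r hr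
      obtain ⟨k, hk, hkf, hkr⟩ := hcirc ⟨f, hsub hf⟩ hf r ((hend ⟨f, hsub hf⟩ r).1 hr)
      exact ⟨k.1, hk, fun h => hkf (Subtype.ext h), (hend k r).2 hkr⟩
    have hc2 : ∀ f ∈ cp R (mh M hW) e.swap, ∀ r, Vtx R f r →
        ∃ g ∈ cp R (mh M hW) e.swap, g ≠ f ∧ Vtx R g r := by
      intro f hf r hr
      have hf' := cp_swap hf
      rw [Prod.swap_swap] at hf'
      obtain ⟨g, hg, hgf, hgr⟩ := hc1 f.swap hf' r (vtx_swap hr)
      refine ⟨g.swap, cp_swap hg, fun h => hgf ?_, vtx_swap hgr⟩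
      rw [← h, Prod.swap_swap]
    have k1 := fp_of_circle M hW hL hS he hc1
    have k2 := fp_of_circle M hW hL hS (ip_swap he) hc2
    have hjoin : HOne.Joined (Nb R) univ (tp M hW e.1) (tp M hW e.2) := by
      have j1 := ((tiling M hW).conn_hull (tp M hW e.1) _ (tp_mem M hW e.1) e.1
        (mem_mh M hW e.1)).mono (subset_univ _)
      have j2 := ((tiling M hW).conn_hull (tp M hW e.2) _ (mem_mh M hW e.2) _
        (tp_mem M hW e.2)).mono (subset_univ _)
      exact j1.trans ((HOne.Joined.single (mem_univ _) (mem_univ _) he.1).trans j2)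
    obtain ⟨z, hz1, hz2, hz3⟩ := hW.two _ _ hjoin
    obtain ⟨x, -, y, -, hx, hy, hxy⟩ := exists_step (H := mh M hW e.1 ∪ mh M hW e.2) hz3
      (Or.inl (tp_mem M hW e.1)) (by
        rintro (h | h)
        · exact hz1 (mh_sub M hW e.1 h)
        · exact hz2 (mh_sub M hW e.2 h))
    have hy1 : y ∉ mh M hW e.1 := fun h => hy (Or.inl h)
    have hy2 : y ∉ mh M hW e.2 := fun h => hy (Or.inr h)
    rcases hx with hx | hx
    · have := k1 (x, y) ⟨hx, hy1, hxy⟩
      exact hy2 ((mh_eq_iff M hW).1 this)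
    · have := k2 (x, y) ⟨hx, hy2, hxy⟩
      exact hy1 ((mh_eq_iff M hW).1 this)

end P073.PT
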