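import Vale.Agent.P073.PT.Theta

/-!
# P073, block PT : the complex `Theta` of maximal filled tiles, assembly
-/

open Set Metric Topology

namespace P073.PT

open Vale.Agent.P073 Vale.Agent.P073.HOne Vale.Agent.P073.PT P073.PR720

/-- `TriH` gives a third class -/
theorem TriH.third {E : Type} {V : Type} {R : V → Set E} {G : V → Set V} {p : E}
    (h : TriH R G p) (u v : V) : ∃ x, p ∈ R x ∧ G x ≠ G u ∧ G x ≠ G v := by
  obtain ⟨a, b, c, ha, hb, hc, hab, hbc, hac⟩ := h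
  by_contra hno
  push Not at hno
  have hcl : ∀ x, p ∈ R x → G x = G u ∨ G x = G v := by
    intro x hx
    by_cases h1 : G x = G u
    · exact Or.inl h1
    · exact Or.inr (hno x hx h1)
  rcases hcl a ha with h1 | h1 <;> rcases hcl b hb with h2 | h2 <;> rcases hcl c hc with h3 | h3
  all_goals first
    | exact hab (h1.trans h2.symm)
    | exact hbc (h2.trans h3.symm)
    | exact hac (h1.trans h3.symm)

theorem TriH.vtx {E : Type} {V : Type} {R : V → Set E} {G : V → Set V} {p : E}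
    (h : TriH R G p) {e : V × V} (hp : p ∈ arc R e) : Vtx R e p := by
  obtain ⟨x, hx, h1, h2⟩ := h.third e.1 e.2
  exact ⟨hp, x, fun h => h1 (by rw [h]), fun h => h2 (by rw [h]), hx⟩

variable {E : Type} [NormedAddCommGroup E] [NormedSpace ℝ E]
variable {V Λ : Type} {F : Set E} {R bd : V → Set E} {L : V → Λ} {D B : V → Set E}
variable (M : Mosaic F R bd) (hW : Windows F R L D B)

/-- the two sides of an interface arc are determined by the arc -/
theorem side_of_ar {e e' : V × V} (he : e ∈ IP R (mh M hW)) (he' : e' ∈ IP R (mh M hW))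
    (h : ar R (mh M hW) e = ar R (mh M hW) e') :
    (mh M hW e'.1 = mh M hW e.1 ∧ mh M hW e'.2 = mh M hW e.2) ∨
    (mh M hW e'.1 = mh M hW e.2 ∧ mh M hW e'.2 = mh M hW e.1) := by
  obtain ⟨a, b, hab⟩ := exists_ends M
  obtain ⟨h1, h2⟩ := hab e' (ip_ne he') he'.1
  obtain ⟨p, hp, hpn⟩ := int_nonempty h1
  have hp2 : p ∈ ar R (mh M hW) e := by rw [h]; exact arc_subset_ar e' hp
  obtain ⟨f, hf, hpf⟩ := mem_iUnion₂.1 hp2
  obtain ⟨f1, f2, f3⟩ := cp_ip he hf
  by_cases hsame : (f.1 = e'.1 ∧ f.2 = e'.2) ∨ (f.1 = e'.2 ∧ f.2 = e'.1)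
  · rcases hsame with ⟨g1, g2⟩ | ⟨g1, g2⟩
    · left; rw [← g1, ← g2]; exact ⟨f2, f3⟩
    · right; rw [← g1, ← g2]; exact ⟨f3, f2⟩
  · exact absurd ((h2 p).1 (vtx_of_ne hp hpf (ip_ne f1) hsame)) hpn

/-- a common point of two maximal hulls is on an interface arc of the first one -/
theorem exists_ip {v w : V} {p : E} (hv : p ∈ R v) (hw : p ∈ R w)
    (hne : mh M hW v ≠ mh M hW w) : ∃ e ∈ IP R (mh M hW), mh M hW e.1 = mh M hW v ∧
      p ∈ arc R e := by
  obtain ⟨x, y, hx, hy, hxy, h1, h2⟩ := exists_front M (mem_mh M hW v) hv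
    (fun h => hne ((mh_eq_iff M hW).2 h).symm) hw
  obtain ⟨h3, h4⟩ := (fp_iff M hW).1 (show (x, y) ∈ FP R (mh M hW v) from ⟨hx, hy, hxy⟩)
  exact ⟨(x, y), h3, h4, h1, h2⟩

variable (hL : GoodLabels R L) (hS : SchDisc E)
include M hW hL hS

theorem theta : ∃ (X Y J : Type) (e0 e1 : Y → X) (inc : Y → J → Prop)
    (K : PR720.Cx2 e0 e1 inc E) (lab : J → Λ) (rep : J → V),
      (⋃ j, K.tile j) = F ∧
      (∀ j k, j ≠ k → lab j = lab k → Disjoint (K.tile j) (K.tile k)) ∧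
      (∀ j, lab j = L (rep j) ∧ R (rep j) ⊆ K.tile j ∧ K.tile j ⊆ D (rep j) \ B (rep j)) ∧
      (∀ b, ∃ j k, j ≠ k ∧ lab j ≠ lab k ∧ (∀ i, inc b i ↔ i = j ∨ i = k) ∧
        ∀ p ∈ K.arc b, ∃ v w, L v = lab j ∧ L w = lab k ∧ (R v ∩ R w).Nontrivial ∧
          p ∈ R v ∩ R w) ∧
      (∀ x, ∃ u v w, K.y x ∈ R u ∧ K.y x ∈ R v ∧ K.y x ∈ R w ∧ L u ≠ L v ∧ L v ≠ L w ∧
        L u ≠ L w) ∧
      (∀ b, ∀ p ∈ K.arc b, ∃ v w, v ≠ w ∧ (R v ∩ R w).Nontrivial ∧ p ∈ R v ∩ R w ∧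
        R v ∩ R w ⊆ K.arc b) ∧
      (∀ b, e0 b ≠ e1 b) ∧ Function.Injective rep ∧
      (∀ b b' x, (x = e0 b ∨ x = e1 b) → (x = e0 b' ∨ x = e1 b') → b ≠ b' →
        ∃ j, inc b j ∧ ∀ j', inc b' j' → lab j' ≠ lab j) ∧
      (∀ x v, K.y x ∈ R v → ∃ j, R v ⊆ K.tile j ∧ lab j = L v) ∧
      ∀ x v w, K.y x ∈ R v → K.y x ∈ R w → (R v ∩ R w).Nontrivial → L v ≠ L w →
        ∃ b j k, (x = e0 b ∨ x = e1 b) ∧ inc b j ∧ inc b k ∧ lab j = L v ∧ lab k = L w ∧
          R v ∩ R w ⊆ K.arc b := by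
  classical
  let G : V → Set V := mh M hW
  let X : Type := {p : E // TriH R G p}
  let Y : Type := {A : Set E // ∃ e ∈ IP R G, A = ar R G e}
  let J : Type := {H : Set V // ∃ v, H = G v}
  have hch : ∀ b : Y, ∃ p q : X, ConBall 1 b.1 {p.1, q.1} ∧
      ∀ r ∈ b.1, TriH R G r → r = p.1 ∨ r = q.1 := by
    rintro ⟨A, e, he, rfl⟩
    obtain ⟨p, q, h1, h2, h3, h4⟩ := chain M hW hL hS he
    exact ⟨⟨p, h2⟩, ⟨q, h3⟩, h1, h4⟩
  choose e0 e1 hball hends using hch
  let inc : Y → J → Prop := fun b j => ∃ e ∈ IP R G, b.1 = ar R G e ∧ G e.1 = j.1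
  have inc_iff : ∀ (b : Y) (e : V × V), e ∈ IP R G → b.1 = ar R G e → ∀ j : J,
      inc b j ↔ j.1 = G e.1 ∨ j.1 = G e.2 := by
    intro b e he hb j
    constructor
    · rintro ⟨e', he', hb', hj⟩
      rcases side_of_ar M hW he he' (hb.symm.trans hb') with ⟨h1, -⟩ | ⟨h1, -⟩
      · exact Or.inl (hj.symm.trans h1)
      · exact Or.inr (hj.symm.trans h1)
    · rintro (h | h)
      · exact ⟨e, he, hb, h.symm⟩
      · exact ⟨e.swap, ip_swap he, by rw [ar_swap]; exact hb, h.symm⟩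
  let tile : J → Set E := fun j => ⋃ v ∈ j.1, R v
  -- frontier points are on incident arcs
  have hfront : ∀ (j : J) (p : E) (v w : V), v ∈ j.1 → p ∈ R v → w ∉ j.1 → p ∈ R w →
      p ∈ ⋃ b ∈ {b : Y | inc b j}, b.1 := by
    rintro ⟨H, v₀, rfl⟩ p v w hv hpv hw hpw
    have hGv : G v = G v₀ := (mh_eq_iff M hW).2 hv
    have hne : G v ≠ G w := fun h => hw ((mh_eq_iff M hW).1 (h.symm.trans hGv))
    obtain ⟨e, he, he1, hpe⟩ := exists_ip M hW hpv hpw hne
    exact mem_biUnion (show (⟨ar R G e, e, he, rfl⟩ : Y) ∈ {b : Y | inc b ⟨G v₀, v₀, rfl⟩} from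
      ⟨e, he, rfl, he1.trans hGv⟩) (arc_subset_ar e hpe)
  have hbd : ∀ j : J, (⋃ b ∈ {b : Y | inc b j}, b.1) = ⋃ e ∈ FP R j.1, arc R e := by
    rintro ⟨H, v₀, rfl⟩
    apply Subset.antisymm
    · refine iUnion₂_subset fun b hb => ?_
      obtain ⟨e, he, hbe, hej⟩ := hb
      rw [hbe]
      refine iUnion₂_subset fun f hf => ?_
      obtain ⟨f1, f2, -⟩ := cp_ip he hf
      exact subset_biUnion_of_mem (u := fun f => arc R f)
        ((fp_iff M hW).2 ⟨f1, f2.trans hej⟩)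
    · refine iUnion₂_subset fun e he => ?_
      obtain ⟨h1, h2⟩ := (fp_iff M hW).1 he
      refine (arc_subset_ar (G := G) e).trans ?_
      exact subset_biUnion_of_mem (u := fun b : Y => b.1)
        (show (⟨ar R G e, e, h1, rfl⟩ : Y) ∈ {b : Y | inc b ⟨G v₀, v₀, rfl⟩} from
          ⟨e, h1, rfl, h2⟩)
  have hjcases : ∀ (j k : J), j ≠ k → ∀ v ∈ j.1, v ∉ k.1 := by
    rintro ⟨H, v₀, rfl⟩ ⟨H', v₁, rfl⟩ hjk v hv hv'
    apply hjk
    have h1 : G v = G v₀ := (mh_eq_iff M hW).2 hv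
    have h2 : G v = G v₁ := (mh_eq_iff M hW).2 hv'
    exact Subtype.ext (h1.symm.trans h2)
  let K : PR720.Cx2 e0 e1 inc E :=
    { y := Subtype.val
      arc := Subtype.val
      ball := hball
      inj := Subtype.val_injective
      mem := by
        intro b v hv
        rcases hends b v.1 hv v.2 with h | h
        · exact Or.inl (Subtype.ext h)
        · exact Or.inr (Subtype.ext h)
      inter := by
        rintro ⟨A, e, he, rfl⟩ ⟨A', e', he', rfl⟩ hne p ⟨hp, hp'⟩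
        exact ⟨⟨p, triH_of_mem he he' hp hp' (fun h => hne (Subtype.ext h))⟩, rfl⟩
      tile := tile
      tball := by
        intro j
        have h1 := hbd j
        obtain ⟨H, v₀, rfl⟩ := j
        have h2 := (disc_mh M hW hL hS v₀).1
        show ConBall 2 (⋃ v ∈ G v₀, R v) (⋃ b ∈ {b : Y | inc b ⟨G v₀, v₀, rfl⟩}, b.1)
        rw [h1]
        exact h2
      tile_arc := by
        rintro j b p ⟨hpj, hpb⟩
        by_cases hinc : inc b j
        · exact mem_biUnion (show b ∈ {b : Y | inc b j} from hinc) hpb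
        · obtain ⟨A, e, he, rfl⟩ := b
          obtain ⟨f, hf, hpf⟩ := mem_iUnion₂.1 hpb
          obtain ⟨f1, f2, f3⟩ := cp_ip he hf
          obtain ⟨v, hv, hpv⟩ := mem_iUnion₂.1 hpj
          refine hfront j p v f.1 hv hpv ?_ hpf.1
          intro hfj
          apply hinc
          rw [inc_iff ⟨ar R G e, e, he, rfl⟩ e he rfl]
          left
          obtain ⟨H, v₀, rfl⟩ := j
          exact ((mh_eq_iff M hW).2 hfj).symm.trans f2
      tile_tile := by
        rintro j k hjk p ⟨hpj, hpk⟩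
        obtain ⟨v, hv, hpv⟩ := mem_iUnion₂.1 hpj
        obtain ⟨w, hw, hpw⟩ := mem_iUnion₂.1 hpk
        obtain ⟨b, -, hb⟩ := mem_iUnion₂.1
          (hfront j p v w hv hpv (hjcases k j hjk.symm w hw) hpw)
        exact mem_iUnion.2 ⟨b, hb⟩
      arc_tile := by
        rintro ⟨A, e, he, rfl⟩
        exact ⟨⟨G e.1, e.1, rfl⟩, e, he, rfl, rfl⟩
      vert_arc := by
        rintro ⟨p, hp⟩
        obtain ⟨u, v, w, hu, hv, hw, huv, -, -⟩ := id hp
        obtain ⟨e, he, -, hpe⟩ := exists_ip M hW hu hv huv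
        refine ⟨⟨ar R G e, e, he, rfl⟩, ?_⟩
        rcases hends ⟨ar R G e, e, he, rfl⟩ p (arc_subset_ar e hpe) hp with h | h
        · exact Or.inl (Subtype.ext h)
        · exact Or.inr (Subtype.ext h)
      fin_inc := by
        rintro ⟨H, v₀, rfl⟩
        have hfin : (FP R (G v₀)).Finite := fp_finite M (mh_finite M hW v₀)
        have h1 : {b : Y | inc b ⟨G v₀, v₀, rfl⟩} ⊆
            Subtype.val ⁻¹' ((ar R G) '' (FP R (G v₀))) := by
          rintro b ⟨e, he, hb, hej⟩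
          exact ⟨e, (fp_iff M hW).2 ⟨he, hej⟩, hb.symm⟩
        exact ((hfin.image _).preimage Subtype.val_injective.injOn).subset h1
      lf := by
        intro z hz
        have hzF : z ∈ F := by
          obtain ⟨j, hj⟩ := mem_iUnion.1 hz
          obtain ⟨v, -, hv⟩ := mem_iUnion₂.1 hj
          exact cell_subset M v hv
        obtain ⟨U, hU, hfin⟩ := M.fin z hzF
        refine ⟨U, hU, (hfin.image fun v => (⟨G v, v, rfl⟩ : J)).subset ?_⟩
        rintro j ⟨x, hx, hxU⟩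
        obtain ⟨v, hv, hxv⟩ := mem_iUnion₂.1 hx
        refine ⟨v, ⟨x, hxv, hxU⟩, ?_⟩
        obtain ⟨H, v₀, rfl⟩ := j
        exact Subtype.ext ((mh_eq_iff M hW).2 hv) }
  let rep : J → V := fun j => tp M hW j.2.choose
  have hrep : ∀ j : J, G (rep j) = j.1 := fun j => (mh_tp M hW _).trans j.2.choose_spec.symm
  have hrep_mem : ∀ j : J, rep j ∈ j.1 := fun j => by rw [← hrep j]; exact mem_mh M hW _
  have hlab : ∀ (j : J) (v : V), v ∈ j.1 → ∀ (u : V) (p : E), p ∈ R v → p ∈ R u → u ∉ j.1 →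
      L v = L (rep j) := by
    rintro j v hv u p hpv hpu hu
    obtain ⟨H, v₀, rfl⟩ := id j
    have hGv : G v = j.1 := by
      obtain ⟨H', v₁, rfl⟩ := j
      exact (mh_eq_iff M hW).2 hv
    have hne : G v ≠ G u := fun h => hu (by rw [← hGv, h]; exact mem_mh M hW u)
    rw [label_of_mem M hW hL hpv hpu hne]
    have h2 : mh M hW v = mh M hW j.2.choose := hGv.trans j.2.choose_spec
    exact label_tp M hW h2
  have hlabG : ∀ (v u : V) (p : E), p ∈ R v → p ∈ R u → G v ≠ G u →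
      L v = L (rep ⟨G v, v, rfl⟩) := fun v u p hpv hpu hne =>
    hlab ⟨G v, v, rfl⟩ v (mem_mh M hW v) u p hpv hpu
      (fun h => hne ((mh_eq_iff M hW).2 h).symm)
  have hdisj : ∀ j k : J, j ≠ k → L (rep j) = L (rep k) → Disjoint (tile j) (tile k) := by
    intro j k hjk hl
    rw [disjoint_left]
    intro p hpj hpk
    obtain ⟨v, hv, hpv⟩ := mem_iUnion₂.1 hpj
    obtain ⟨w, hw, hpw⟩ := mem_iUnion₂.1 hpk
    have h1 := hlab j v hv w p hpv hpw (hjcases k j hjk.symm w hw)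
    have h2 := hlab k w hw v p hpw hpv (hjcases j k hjk v hv)
    have hne : G v ≠ G w := fun h => hjcases j k hjk v hv (by
      have h3 : G w = k.1 := by
        obtain ⟨H', v₁, rfl⟩ := k
        exact (mh_eq_iff M hW).2 hw
      rw [← h3, ← h]; exact mem_mh M hW v)
    exact hne ((mh_eq_iff_label M hW hL hpv hpw hpw hne).2 (h1.trans (hl.trans h2.symm)))
  have hsides : ∀ (b : Y) (e : V × V), e ∈ IP R G → b.1 = ar R G e →
      ∀ p ∈ b.1, L (rep ⟨G e.1, e.1, rfl⟩) ≠ L (rep ⟨G e.2, e.2, rfl⟩) ∧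
      ∃ v w, L v = L (rep ⟨G e.1, e.1, rfl⟩) ∧ L w = L (rep ⟨G e.2, e.2, rfl⟩) ∧
        (R v ∩ R w).Nontrivial ∧ p ∈ R v ∩ R w ∧ R v ∩ R w ⊆ b.1 ∧ v ≠ w := by
    intro b e he hb p hp
    rw [hb] at hp
    obtain ⟨f, hf, hpf⟩ := mem_iUnion₂.1 hp
    obtain ⟨f1, f2, f3⟩ := cp_ip he hf
    have h1 : L f.1 = L (rep ⟨G e.1, e.1, rfl⟩) := by
      refine hlab ⟨G e.1, e.1, rfl⟩ f.1 ?_ f.2 p hpf.1 hpf.2 ?_
      · exact (mh_eq_iff M hW).1 f2
      · exact fun h => f1.2 (f2.trans ((mh_eq_iff M hW).2 h).symm)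
    have h2 : L f.2 = L (rep ⟨G e.2, e.2, rfl⟩) := by
      refine hlab ⟨G e.2, e.2, rfl⟩ f.2 ?_ f.1 p hpf.2 hpf.1 ?_
      · exact (mh_eq_iff M hW).1 f3
      · exact fun h => f1.2 (((mh_eq_iff M hW).2 h).trans f3.symm)
    refine ⟨?_, f.1, f.2, h1, h2, f1.1, hpf, ?_, ip_ne f1⟩
    · rw [← h1, ← h2]
      exact fun h => f1.2 ((mh_eq_iff_label M hW hL hpf.1 hpf.2 hpf.2 f1.2).2 h)
    · rw [hb]
      exact subset_biUnion_of_mem (u := fun f => arc R f) hf
  have hbne : ∀ b : Y, b.1.Nonempty := fun b => ⟨(e0 b).1, (hball b).1 (mem_insert _ _)⟩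
  have hend_mem : ∀ (b : Y) (x : X), (x = e0 b ∨ x = e1 b) → x.1 ∈ b.1 := by
    rintro b x (h | h)
    · rw [h]; exact (hball b).1 (mem_insert _ _)
    · rw [h]; exact (hball b).1 (mem_insert_of_mem _ rfl)
  have hinc_sub : ∀ (b : Y) (j : J), inc b j → b.1 ⊆ tile j := by
    rintro b ⟨H, v₀, rfl⟩ ⟨e, he, hb, hej⟩
    rw [hb]
    refine iUnion₂_subset fun f hf => ?_
    obtain ⟨f1, f2, -⟩ := cp_ip he hf
    intro p hp
    exact mem_biUnion ((mh_eq_iff M hW).1 (f2.trans hej)) hp.1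
  refine ⟨X, Y, J, e0, e1, inc, K, fun j => L (rep j), rep, ?_, hdisj, ?_, ?_, ?_, ?_, ?_, ?_, ?_,
    ?_, ?_⟩
  · -- cover
    apply Subset.antisymm
    · exact iUnion_subset fun j => iUnion₂_subset fun v _ => cell_subset M v
    · intro p hp
      obtain ⟨v, hv⟩ := exists_cell M hp
      exact mem_iUnion.2 ⟨⟨G v, v, rfl⟩, mem_biUnion (mem_mh M hW v) hv⟩
  · -- representatives
    intro j
    refine ⟨rfl, subset_biUnion_of_mem (u := fun v => R v) (hrep_mem j), ?_⟩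
    have h1 : j.1 ⊆ win M (D (rep j)) (B (rep j)) := by
      rw [j.2.choose_spec]
      exact mh_sub M hW _
    exact iUnion₂_subset fun v hv => h1 hv
  · -- sides
    intro b
    obtain ⟨e, he, hb⟩ := b.2
    obtain ⟨p, hp⟩ := hbne b
    refine ⟨⟨G e.1, e.1, rfl⟩, ⟨G e.2, e.2, rfl⟩, fun h => he.2 (congrArg Subtype.val h),
      (hsides b e he hb p hp).1, ?_, ?_⟩
    · intro i
      rw [inc_iff b e he hb i]
      constructor
      · rintro (h | h)
        · exact Or.inl (Subtype.ext h)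
        · exact Or.inr (Subtype.ext h)
      · rintro (h | h)
        · exact Or.inl (congrArg Subtype.val h)
        · exact Or.inr (congrArg Subtype.val h)
    · intro q hq
      obtain ⟨-, v, w, h1, h2, h3, h4, -, -⟩ := hsides b e he hb q hq
      exact ⟨v, w, h1, h2, h3, h4⟩
  · -- vertices
    rintro ⟨p, hp⟩
    obtain ⟨u, v, w, hu, hv, hw, huv, hvw, huw⟩ := hp
    refine ⟨u, v, w, hu, hv, hw, ?_, ?_, ?_⟩
    · exact fun h => huv ((mh_eq_iff_label M hW hL hu hv hv huv).2 h)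
    · exact fun h => hvw ((mh_eq_iff_label M hW hL hv hw hw hvw).2 h)
    · exact fun h => huw ((mh_eq_iff_label M hW hL hu hw hw huw).2 h)
  · -- unions of arcs
    intro b p hp
    obtain ⟨e, he, hb⟩ := b.2
    obtain ⟨-, v, w, -, -, h3, h4, h5, h6⟩ := hsides b e he hb p hp
    exact ⟨v, w, h6, h3, h4, h5⟩
  · -- different ends
    exact fun b h => (hball b).ne (by rw [h])
  · -- injectivity
    intro j k h
    exact Subtype.ext (by rw [← hrep j, ← hrep k, h])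
  · -- different pairs of labels
    intro b b' x hx hx' hne
    by_contra hcon
    push Not at hcon
    obtain ⟨e, he, hb⟩ := b.2
    obtain ⟨e', he', hb'⟩ := b'.2
    have hxb := hend_mem b x hx
    have hxb' := hend_mem b' x hx'
    have hmatch : ∀ j : J, inc b j → j.1 = G e'.1 ∨ j.1 = G e'.2 := by
      intro j hj
      obtain ⟨j', hj', hl⟩ := hcon j hj
      by_cases hjj : j = j'
      · rw [hjj]; exact (inc_iff b' e' he' hb' j').1 hj'
      · exact absurd (hinc_sub b' j' hj' hxb')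
          (disjoint_left.1 (hdisj j j' hjj hl.symm) (hinc_sub b j hj hxb))
    have m1 := hmatch ⟨G e.1, e.1, rfl⟩ ((inc_iff b e he hb _).2 (Or.inl rfl))
    have m2 := hmatch ⟨G e.2, e.2, rfl⟩ ((inc_iff b e he hb _).2 (Or.inr rfl))
    simp only at m1 m2
    -- orient `e'`
    obtain ⟨e'', he'', hb'', n1, n2⟩ : ∃ e'' ∈ IP R G, b'.1 = ar R G e'' ∧ G e''.1 = G e.1 ∧
        G e''.2 = G e.2 := by
      rcases m1 with m1 | m1
      · rcases m2 with m2 | m2
        · exact absurd (m1.trans m2.symm) he.2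
        · exact ⟨e', he', hb', m1.symm, m2.symm⟩
      · rcases m2 with m2 | m2
        · exact ⟨e'.swap, ip_swap he', by rw [ar_swap]; exact hb', m1.symm, m2.symm⟩
        · exact absurd (m1.trans m2.symm) he.2
    rw [hb] at hxb
    rw [hb''] at hxb'
    obtain ⟨f, hf, hxf⟩ := mem_iUnion₂.1 hxb
    obtain ⟨g, hg, hxg⟩ := mem_iUnion₂.1 hxb'
    obtain ⟨f1, f2, f3⟩ := cp_ip he hf
    obtain ⟨g1, g2, g3⟩ := cp_ip he'' hg
    by_cases hfg : f = g
    · apply hne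
      apply Subtype.ext
      rw [hb, hb'', ← ar_eq hf, ← ar_eq hg, hfg]
    · obtain ⟨z, hz, hz1, hz2⟩ := x.2.third f.1 f.2
      rcases no_tri M hW hL f1 g1 hfg (g2.trans (n1.trans f2.symm)) (g3.trans (n2.trans f3.symm))
        (x.2.vtx hxf) (x.2.vtx hxg) hz with h | h
      · exact hz1 h
      · exact hz2 h
  · -- cells at a vertex
    intro x v hv
    obtain ⟨u, hu, hu1, -⟩ := x.2.third v v
    exact ⟨⟨G v, v, rfl⟩, subset_biUnion_of_mem (u := fun v => R v) (mem_mh M hW v),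
      (hlabG v u x.1 hv hu hu1.symm).symm⟩
  · -- neighbours at a vertex
    intro x v w hv hw hvw hl
    obtain ⟨u, hu, hu1, hu2⟩ := x.2.third v w
    have hne : G v ≠ G w := fun h => hl ((mh_eq_iff_label M hW hL hv hw hu hu1.symm).1 h)
    have he : (v, w) ∈ IP R G := ⟨hvw, hne⟩
    have hxa : x.1 ∈ ar R G (v, w) := arc_subset_ar (v, w) ⟨hv, hw⟩
    refine ⟨⟨ar R G (v, w), (v, w), he, rfl⟩, ⟨G v, v, rfl⟩, ⟨G w, w, rfl⟩, ?_, ?_, ?_,
      (hlabG v u x.1 hv hu hu1.symm).symm, (hlabG w u x.1 hw hu hu2.symm).symm,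
      arc_subset_ar (v, w)⟩
    · rcases hends ⟨ar R G (v, w), (v, w), he, rfl⟩ x.1 hxa x.2 with h | h
      · exact Or.inl (Subtype.ext h)
      · exact Or.inr (Subtype.ext h)
    · exact ⟨(v, w), he, rfl, rfl⟩
    · exact ⟨(w, v), ip_swap he, (ar_swap (R := R) (G := G) (v, w)).symm, rfl⟩

end P073.PT
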