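import Vale.Agent.P073.PT.Theta2
import Vale.Agent.P073.SCH.SchDiscSpec

/-!
# P073, block PT : the specification of the block is proved
-/

namespace P073.PT

theorem specTheta (E : Type) [NormedAddCommGroup E] [NormedSpace ℝ E] : SpecTheta E :=
  fun _ _ _ _ _ M _ hL _ _ hW => theta M hW hL (P073.SCH.specSchDisc E)

end P073.PT
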